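import Vale.Agent.P262.Defs
import Vale.Agent.P226.Ehr

/-! Fourth moments under a symmetric quasi-concave weight (PROOF.md section ANDERSON). -/

namespace Vale.Agent.P262

open Finset MeasureTheory ProbabilityTheory

namespace AndAux

open Vale.Agent.P226

/-- the product Gaussian measure -/
noncomputable abbrev γ (n : ℕ) : Measure (Fin n → ℝ) := Measure.pi fun _ : Fin n => gaussianReal 0 1

lemma gd_eq {n : ℕ} (x : Fin n → ℝ) : gd x = √(2 * Real.pi) ^ n * ∏ k, phi (x k) := by
  have h : √(2 * Real.pi) ≠ 0 := (Real.sqrt_pos.mpr (by have := Real.pi_pos; positivity)).ne'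
  unfold gd phi
  rw [Finset.prod_div_distrib, Finset.prod_const, Finset.card_univ, Fintype.card_fin,
    mul_div_cancel₀ _ (pow_ne_zero _ h), ← Real.exp_sum, ← Finset.sum_div,
    Finset.sum_neg_distrib]

lemma prod_phi_nonneg {n : ℕ} (x : Fin n → ℝ) : 0 ≤ ∏ k, phi (x k) :=
  Finset.prod_nonneg fun _ _ => (phi_pos _).le

lemma continuous_prod_phi (n : ℕ) : Continuous fun x : Fin n → ℝ => ∏ k, phi (x k) :=
  continuous_finsetProd _ fun k _ => continuous_phi.comp (continuous_apply k)

lemma γ_eq (n : ℕ) : γ n =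
    (volume : Measure (Fin n → ℝ)).withDensity fun x => ENNReal.ofReal (∏ k, phi (x k)) := by
  refine Measure.pi_eq fun s hs => ?_
  have hi : Integrable (fun x : Fin n → ℝ => ∏ k, phi (x k)) volume :=
    Integrable.fintype_prod (f := fun _ => phi) fun _ => integrable_phi
  rw [withDensity_apply _ (MeasurableSet.univ_pi hs),
    ← ofReal_integral_eq_lintegral_ofReal hi.integrableOn (ae_of_all _ prod_phi_nonneg),
    volume_pi, Measure.restrict_pi_pi, integral_fintype_prod_eq_prod (f := fun _ => phi),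
    ENNReal.ofReal_prod_of_nonneg fun _ _ => integral_nonneg fun _ => (phi_pos _).le]
  refine Finset.prod_congr rfl fun k _ => ?_
  rw [← real_eq_integral, ofReal_measureReal]

lemma integral_gd {n : ℕ} (f : (Fin n → ℝ) → ℝ) :
    ∫ x, f x * gd x = √(2 * Real.pi) ^ n * ∫ x, f x ∂(γ n) := by
  rw [γ_eq, integral_withDensity_eq_integral_toReal_smul
    (continuous_prod_phi n).measurable.ennreal_ofReal (by simp), ← integral_const_mul]
  refine integral_congr_ae (ae_of_all _ fun x => ?_)
  simp only [ENNReal.toReal_ofReal (prod_phi_nonneg x), smul_eq_mul, gd_eq]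
  ring

lemma integrable_gd_of {n : ℕ} {f : (Fin n → ℝ) → ℝ} (hf : Integrable f (γ n)) :
    Integrable fun x => f x * gd x := by
  rw [γ_eq, integrable_withDensity_iff_integrable_smul'
    (continuous_prod_phi n).measurable.ennreal_ofReal (by simp)] at hf
  refine (hf.const_mul (√(2 * Real.pi) ^ n)).congr (ae_of_all _ fun x => ?_)
  simp only [ENNReal.toReal_ofReal (prod_phi_nonneg x), smul_eq_mul, gd_eq]
  ring

lemma setIntegral_gd {n : ℕ} {S : Set (Fin n → ℝ)} (hS : MeasurableSet S) :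
    ∫ x in S, gd x = √(2 * Real.pi) ^ n * (γ n).real S := by
  rw [← integral_indicator hS, ← integral_indicator_one hS, ← integral_gd]
  refine integral_congr_ae (ae_of_all _ fun x => ?_)
  by_cases hx : x ∈ S <;> simp [hx]

lemma gd_pos {n : ℕ} (x : Fin n → ℝ) : 0 < gd x := Real.exp_pos _

lemma continuous_gd (n : ℕ) : Continuous (gd : (Fin n → ℝ) → ℝ) := by
  unfold gd; fun_prop

lemma pow_four_le (y : ℝ) : y ^ 4 ≤ 12 * (Real.exp y + Real.exp (-y)) := by
  have key : ∀ z : ℝ, 0 ≤ z → z ^ 4 ≤ 12 * Real.exp z := by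
    intro z hz
    have h := Real.sum_le_exp_of_nonneg hz 6
    simp only [Finset.sum_range_succ, Finset.sum_range_zero, Nat.factorial] at h
    norm_num at h
    have h3 : 0 ≤ z ^ 3 * (z - 5 / 2) ^ 2 := by positivity
    have h4 : 0 ≤ z ^ 3 := by positivity
    have h5 : 0 ≤ z ^ 2 := by positivity
    nlinarith
  have h1 := Real.exp_pos y
  have h2 := Real.exp_pos (-y)
  rcases le_total 0 y with h | h
  · have := key y h
    linarith
  · have := key (-y) (by linarith)
    have h3 : (-y) ^ 4 = y ^ 4 := by ring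
    linarith

lemma anderson_real {n : ℕ} {S : Set (Fin n → ℝ)} (ho : IsOpen S) (hc : Convex ℝ S)
    (hs : ∀ x ∈ S, -x ∈ S) (u : Fin n → ℝ) :
    (γ n).real {x | x + u ∈ S} ≤ (γ n).real S := by
  let T : (ℝ × (Fin n → ℝ)) →ₗ[ℝ] (Fin n → ℝ) :=
    { toFun := fun q => q.2 + q.1 • u
      map_add' := fun q q' => by simp only [Prod.snd_add, Prod.fst_add, add_smul]; abel
      map_smul' := fun c q => by simp [smul_smul] }
  have hT : Continuous T := by
    change Continuous fun q : ℝ × (Fin n → ℝ) => q.2 + q.1 • u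
    fun_prop
  have h := convex_symm_pi n ℝ (T ⁻¹' S) (ho.preimage hT) (hc.linear_preimage T)
  have hm : ∀ v : Fin n → ℝ, MeasurableSet {x : Fin n → ℝ | x + v ∈ S} := fun v =>
    (ho.preimage (continuous_id.add continuous_const)).measurableSet
  have hneg : (γ n).real {x | x + -u ∈ S} = (γ n).real {x | x + u ∈ S} := by
    have hmp : MeasurePreserving (fun x : Fin n → ℝ => fun k => -x k) (γ n) (γ n) :=
      measurePreserving_pi _ _ fun _ => ⟨measurable_neg, by simp [gaussianReal_map_neg]⟩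
    rw [← hmp.measureReal_preimage (hm u).nullMeasurableSet]
    refine congrArg _ (Set.ext fun x => ?_)
    change x + -u ∈ S ↔ -x + u ∈ S
    constructor
    · intro hx
      have := hs _ hx
      rwa [neg_add, neg_neg] at this
    · intro hx
      have := hs _ hx
      rwa [neg_add, neg_neg] at this
  by_contra hlt
  rw [not_le] at hlt
  have h0 : 0 ≤ (γ n).real S := measureReal_nonneg
  have h1 : (γ n).real {x | x + u ∈ S} ≤ 1 := measureReal_le_one
  obtain ⟨v, hv⟩ := exists_Q_eq (p := ((γ n).real S + (γ n).real {x | x + u ∈ S}) / 2)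
    (by linarith) (by linarith)
  have ha : ((1 : ℝ), v) ∈ symm (γ n) (T ⁻¹' S) := by
    change Q v < (γ n).real {y | y + (1 : ℝ) • u ∈ S}
    rw [one_smul, hv]
    linarith
  have hb : ((-1 : ℝ), v) ∈ symm (γ n) (T ⁻¹' S) := by
    change Q v < (γ n).real {y | y + (-1 : ℝ) • u ∈ S}
    rw [neg_one_smul, hneg, hv]
    linarith
  have hab := h ha hb (show (0 : ℝ) ≤ 1 / 2 by norm_num) (show (0 : ℝ) ≤ 1 / 2 by norm_num)
    (by norm_num)
  have e : (1 / 2 : ℝ) • ((1 : ℝ), v) + (1 / 2 : ℝ) • ((-1 : ℝ), v) = ((0 : ℝ), v) := by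
    ext
    · simp
    · simp only [Prod.snd_add, Prod.smul_snd, smul_eq_mul]; ring
  rw [e] at hab
  change Q v < (γ n).real {y | y + (0 : ℝ) • u ∈ S} at hab
  simp only [zero_smul, add_zero, Set.ofPred_mem_eq] at hab
  linarith

lemma shift_le {n : ℕ} (h : (Fin n → ℝ) → ℝ) (hcont : Continuous h) (h0 : ∀ x, 0 ≤ h x)
    (h1 : ∀ x, h x ≤ 1) (heven : ∀ x, h (-x) = h x)
    (hq : ∀ s : ℝ, 0 ≤ s → Convex ℝ {x | s < h x}) (u : Fin n → ℝ) :
    ∫ x, h (x + u) ∂(γ n) ≤ ∫ x, h x ∂(γ n) := by
  have hc' : Continuous fun x => h (x + u) := hcont.comp (continuous_id.add continuous_const)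
  rw [integral_eq_lintegral_of_nonneg_ae (ae_of_all _ fun x => h0 (x + u))
    hc'.aestronglyMeasurable,
    integral_eq_lintegral_of_nonneg_ae (ae_of_all _ h0) hcont.aestronglyMeasurable]
  refine ENNReal.toReal_mono ?_ ?_
  · refine ne_top_of_le_ne_top (b := ∫⁻ _, 1 ∂(γ n)) (by simp) (lintegral_mono fun x => ?_)
    exact ENNReal.ofReal_le_one.mpr (h1 x)
  · rw [lintegral_eq_lintegral_meas_lt _ (ae_of_all _ fun x => h0 (x + u)) hc'.aemeasurable,
      lintegral_eq_lintegral_meas_lt _ (ae_of_all _ h0) hcont.aemeasurable]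
    refine setLIntegral_mono' measurableSet_Ioi fun s hs => ?_
    have := anderson_real (S := {x | s < h x}) (isOpen_lt continuous_const hcont) (hq s (le_of_lt hs))
      (fun x hx => by simpa [heven] using hx) u
    exact (ENNReal.toReal_le_toReal (measure_ne_top _ _) (measure_ne_top _ _)).mp this

lemma tilt_le {n : ℕ} (h : (Fin n → ℝ) → ℝ) (hcont : Continuous h) (h0 : ∀ x, 0 ≤ h x)
    (h1 : ∀ x, h x ≤ 1) (heven : ∀ x, h (-x) = h x)
    (hq : ∀ s : ℝ, 0 ≤ s → Convex ℝ {x | s < h x}) (u : Fin n → ℝ) :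
    ∫ x, Real.exp (∑ k, u k * x k) * (h x * gd x) ≤
      Real.exp ((∑ k, u k ^ 2) / 2) * ∫ x, h x * gd x := by
  have h2 : ∫ x, h (x + u) * gd x ≤ ∫ x, h x * gd x := by
    rw [integral_gd, integral_gd]
    exact mul_le_mul_of_nonneg_left (shift_le h hcont h0 h1 heven hq u) (by positivity)
  refine le_trans (le_of_eq ?_) (mul_le_mul_of_nonneg_left h2 (Real.exp_pos _).le)
  rw [← integral_add_right_eq_self _ u, ← integral_const_mul]
  refine integral_congr_ae (ae_of_all _ fun x => ?_)
  have e : ∑ k, u k * (x + u) k + -(∑ k, (x + u) k ^ 2) / 2 =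
      (∑ k, u k ^ 2) / 2 + -(∑ k, x k ^ 2) / 2 := by
    simp only [← Finset.sum_neg_distrib, Finset.sum_div, ← Finset.sum_add_distrib, Pi.add_apply]
    exact Finset.sum_congr rfl fun k _ => by ring
  simp only [gd]
  rw [mul_left_comm, ← Real.exp_add, e, Real.exp_add]
  ring

end AndAux

open AndAux

lemma integrable_gd (n : ℕ) : Integrable (gd : (Fin n → ℝ) → ℝ) := by
  simpa using integrable_gd_of (n := n) (integrable_const (1 : ℝ))

lemma integrable_exp_mul_gd {n : ℕ} (a : Fin n → ℝ) :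
    Integrable fun x : Fin n → ℝ => Real.exp (∑ k, a k * x k) * gd x := by
  refine integrable_gd_of ?_
  simp only [Real.exp_sum]
  exact Integrable.fintype_prod (f := fun k y => Real.exp (a k * y))
    fun k => integrable_exp_mul_gaussianReal (a k)

lemma integrable_pow_four_mul_gd {n : ℕ} (a : Fin n → ℝ) :
    Integrable fun x : Fin n → ℝ => (∑ k, a k * x k) ^ 4 * gd x := by
  refine (((integrable_exp_mul_gd a).add (integrable_exp_mul_gd (-a))).const_mul 12).mono'
    (Continuous.aestronglyMeasurable (by have := continuous_gd n; fun_prop))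
    (ae_of_all _ fun x => ?_)
  have h1 := mul_le_mul_of_nonneg_right (pow_four_le (∑ k, a k * x k)) (gd_pos x).le
  have h2 : 0 ≤ (∑ k, a k * x k) ^ 4 * gd x := mul_nonneg (by positivity) (gd_pos x).le
  rw [Real.norm_of_nonneg h2]
  simp only [Pi.add_apply, Pi.neg_apply, neg_mul, Finset.sum_neg_distrib]
  linarith

lemma integrable_gd_smul (n : ℕ) : Integrable fun x : Fin n → ℝ => gd x • x := by
  have h : ∀ k : Fin n, Integrable fun x : Fin n → ℝ => x k * gd x := fun k =>
    integrable_gd_of ((measurePreserving_eval (fun _ : Fin n => gaussianReal 0 1)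
      k).integrable_comp_of_integrable Vale.Agent.P226.integrable_id_gauss)
  have h2 := integrable_finsetSum Finset.univ fun k _ =>
    (h k).smul_const (Pi.single k (1 : ℝ) : Fin n → ℝ)
  refine h2.congr (ae_of_all _ fun x => ?_)
  funext j
  simp [Finset.sum_apply, Pi.single_apply, mul_comm]

/-- Anderson inequality for open convex symmetric sets -/
theorem anderson_set {n : ℕ} {S : Set (Fin n → ℝ)} (ho : IsOpen S) (hc : Convex ℝ S)
    (hs : ∀ x ∈ S, -x ∈ S) (u : Fin n → ℝ) :
    ∫ x in {x | x + u ∈ S}, gd x ≤ ∫ x in S, gd x := by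
  have hm : MeasurableSet {x : Fin n → ℝ | x + u ∈ S} :=
    (ho.preimage (continuous_id.add continuous_const)).measurableSet
  rw [setIntegral_gd hm, setIntegral_gd ho.measurableSet]
  exact mul_le_mul_of_nonneg_left (anderson_real ho hc hs u) (by positivity)

theorem moment_four_le {n : ℕ} (h : (Fin n → ℝ) → ℝ) (hcont : Continuous h) (h0 : ∀ x, 0 ≤ h x)
    (h1 : ∀ x, h x ≤ 1) (heven : ∀ x, h (-x) = h x)
    (hq : ∀ s : ℝ, 0 ≤ s → Convex ℝ {x | s < h x}) (a : Fin n → ℝ) :
    ∫ x, (∑ k, a k * x k) ^ 4 * (h x * gd x) ≤ 40 * (∑ k, a k ^ 2) ^ 2 * ∫ x, h x * gd x := by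
  have hA : 0 ≤ ∑ k, a k ^ 2 := Finset.sum_nonneg fun _ _ => sq_nonneg _
  rcases hA.eq_or_lt with hA0 | hA0
  · have : ∀ k, a k = 0 := fun k => pow_eq_zero_iff two_ne_zero |>.mp
      ((Finset.sum_eq_zero_iff_of_nonneg fun _ _ => sq_nonneg _).mp hA0.symm k (Finset.mem_univ k))
    simp [this]
  obtain ⟨r, hr, hr2⟩ : ∃ r : ℝ, 0 < r ∧ r ^ 2 = ∑ k, a k ^ 2 :=
    ⟨√(∑ k, a k ^ 2), Real.sqrt_pos.mpr hA0, Real.sq_sqrt hA⟩
  have hI : 0 ≤ ∫ x, h x * gd x := integral_nonneg fun x => mul_nonneg (h0 x) (gd_pos x).le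
  have he : Real.exp (1 / 2) ≤ 5 / 3 := by
    refine abs_le_of_sq_le_sq' ?_ (by norm_num) |>.2
    rw [← Real.exp_nat_mul]
    have := Real.exp_one_lt_d9
    norm_num
    linarith
  have key : ∀ u : Fin n → ℝ, ∑ k, u k ^ 2 = 1 →
      Integrable (fun x => Real.exp (∑ k, u k * x k) * (h x * gd x)) ∧
      ∫ x, Real.exp (∑ k, u k * x k) * (h x * gd x) ≤ 5 / 3 * ∫ x, h x * gd x := by
    intro u hu
    constructor
    · refine (integrable_exp_mul_gd u).mono'
        (Continuous.aestronglyMeasurable (by have := continuous_gd n; fun_prop))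
        (ae_of_all _ fun x => ?_)
      have h3 := gd_pos x
      have h4 := h0 x
      rw [Real.norm_of_nonneg (by positivity)]
      exact mul_le_mul_of_nonneg_left (mul_le_of_le_one_left h3.le (h1 x)) (Real.exp_pos _).le
    · refine (tilt_le h hcont h0 h1 heven hq u).trans ?_
      rw [hu]
      exact mul_le_mul_of_nonneg_right he hI
  have hu : ∑ k, (a k / r) ^ 2 = 1 := by
    simp only [div_pow]
    rw [← Finset.sum_div, ← hr2, div_self (by positivity)]
  obtain ⟨i1, b1⟩ := key (fun k => a k / r) hu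
  obtain ⟨i2, b2⟩ := key (fun k => -(a k / r)) (by simpa only [neg_sq] using hu)
  have h3 := integral_mono_of_nonneg
    (f := fun x => (∑ k, a k * x k) ^ 4 * (h x * gd x)) (μ := volume)
    (ae_of_all _ fun x => mul_nonneg (by positivity) (mul_nonneg (h0 x) (gd_pos x).le))
    ((i1.add i2).const_mul (12 * r ^ 4)) (ae_of_all _ fun x => by
      have e1 : ∑ k, a k * x k = r * ∑ k, a k / r * x k := by
        rw [Finset.mul_sum]
        exact Finset.sum_congr rfl fun k _ => by field_simp
      have h4 := mul_le_mul_of_nonneg_right (mul_le_mul_of_nonneg_left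
        (pow_four_le (∑ k, a k / r * x k)) (pow_pos hr 4).le) (mul_nonneg (h0 x) (gd_pos x).le)
      simp only [Pi.add_apply, neg_mul, Finset.sum_neg_distrib]
      rw [e1, mul_pow]
      linarith)
  refine h3.trans ?_
  rw [integral_const_mul, integral_add' i1 i2, ← hr2]
  have h4 := mul_le_mul_of_nonneg_left (add_le_add b1 b2) (show 0 ≤ 12 * r ^ 4 by positivity)
  exact h4.trans (le_of_eq (by ring))

end Vale.Agent.P262
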