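import Vale.Agent.P262.Basic

/-! Growing chains of columns (PROOF.md section PT). -/

namespace Vale.Agent.P262

open Finset

variable {ι K : Type} [Fintype ι] [Fintype K]

lemma pt_aux (C : ℕ → K → Prop) (hC : ∀ j j' k, j ≤ j' → C j k → C j' k)
    {W : ℝ} (hW : 0 < W) (n : ℕ) : ∀ (κ : ι → K → ℝ) {l : ℝ}, 0 < l →
    (∀ i k, κ i k ≠ 0 → l ^ 2 * (9 / 16 : ℝ) ^ n < κ i k ^ 2) →
    Good (fun k => 4 * hc W l * cm κ k)
      {t | ∀ j, mass (res κ fun _ k => C j k) ≤ l ^ 2 →
        nrm (res κ fun _ k => C j k) t ≤ 100 * gg W (mass (res κ fun _ k => C j k))} := by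
  induction n with
  | zero =>
    intro κ l hl hκ
    refine good_of_forall (fun k => ?_) (fun t j hj => ?_)
    · have := hc_nonneg hW hl.le
      have := cm_nonneg κ k
      positivity
    · have hz : ∀ i k, res κ (fun _ k => C j k) i k = 0 := fun i k => by
        by_contra h
        obtain ⟨h1, h2⟩ := res_ne_zero h
        have h3 := hκ i k h2
        have h4 := sq_le_mass (res κ fun _ k => C j k) i k
        rw [res_pos (P := fun _ k => C j k) h1] at h4
        simp only [pow_zero, mul_one] at h3
        linarith
      rw [nrm_eq_zero hz]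
      have := gg_nonneg hW.le (mass_nonneg (res κ fun _ k => C j k))
      linarith
  | succ n ih =>
    intro κ l hl hκ
    classical
    have hl2 : 0 < 3 / 4 * l := by linarith
    have hκ' : ∀ i k, κ i k ≠ 0 → (3 / 4 * l) ^ 2 * (9 / 16 : ℝ) ^ n < κ i k ^ 2 :=
      fun i k h => by
        have := hκ i k h
        calc (3 / 4 * l) ^ 2 * (9 / 16 : ℝ) ^ n = l ^ 2 * (9 / 16 : ℝ) ^ (n + 1) := by ring
          _ < _ := this
    have hres : ∀ P : ι → K → Prop, ∀ i k, res κ P i k ≠ 0 →
        (3 / 4 * l) ^ 2 * (9 / 16 : ℝ) ^ n < res κ P i k ^ 2 := fun P i k h => by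
      obtain ⟨h1, h2⟩ := res_ne_zero h
      rw [res_pos h1]
      exact hκ' i k h2
    have hl22 : l ^ 2 / 2 ≤ (3 / 4 * l) ^ 2 := by nlinarith [sq_nonneg l]
    by_cases hex : ∃ j, l ^ 2 / 2 < mass (res κ fun _ k => C j k) ∧
        mass (res κ fun _ k => C j k) ≤ l ^ 2
    · obtain ⟨hj0, hj1⟩ := Nat.find_spec hex
      have hρ : 0 < l * (l + W) := by positivity
      have hm : mass (res κ fun _ k => C (Nat.find hex) k) ≤ l * (l + W) := by
        nlinarith [mul_pos hl hW]
      have hB := good_basic (res κ fun _ k => C (Nat.find hex) k) hρ hm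
      have IH1 := ih (res κ fun _ k => C (Nat.find hex) k) hl2 (hres _)
      have IH2 := ih (res κ fun _ k => ¬ C (Nat.find hex) k) hl2 (hres _)
      refine (hB.inter (IH1.inter IH2)).mono (fun k => ?_) (fun t ht j hj => ?_)
      · have h1 := hc_step (q := 3 / 4) hW hl (by norm_num) (by norm_num)
          (mass_nonneg (res κ fun _ k => C (Nat.find hex) k)) hj1
        have h2 := cm_res_le κ (fun _ k => C (Nat.find hex) k) k
        have h3 := cm_nonneg κ k
        have h4 : 0 ≤ mass (res κ fun _ k => C (Nat.find hex) k) ^ 2 / (l * (l + W)) ^ 3 := by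
          positivity
        have h5 := cm_res_add_le (κ := κ) (P := fun _ k => C (Nat.find hex) k)
          (R := fun _ k => ¬ C (Nat.find hex) k) (fun _ _ _ h h' => h' h) k
        have h6 := mul_le_mul_of_nonneg_left h2 h4
        have h7 := mul_le_mul_of_nonneg_right h1 h3
        have h8 := mul_le_mul_of_nonneg_left h5 (hc_nonneg hW hl2.le)
        nlinarith
      · obtain ⟨ht0, ht1, ht2⟩ := ht
        by_cases hs : mass (res κ fun _ k => C j k) ≤ l ^ 2 / 2
        · have hle : j ≤ Nat.find hex := by
            by_contra hn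
            have := mass_res_mono (κ := κ) (P := fun _ k => C (Nat.find hex) k)
              (R := fun _ k => C j k) (fun _ k _ h => hC _ _ k (not_le.1 hn).le h)
            linarith
          have he : res (res κ fun _ k => C (Nat.find hex) k) (fun _ k => C j k) =
              res κ (fun _ k => C j k) := by
            rw [res_res]
            exact res_congr fun i k _ => ⟨fun h => h.2, fun h => ⟨hC _ _ _ hle h, h⟩⟩
          have := ht1 j
          rw [he] at this
          exact this (hs.trans hl22)
        · have hle : Nat.find hex ≤ j := Nat.find_min' hex ⟨not_le.1 hs, hj⟩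
          have he : res κ (fun _ k => C j k) =
              res (res κ fun _ k => ¬ C (Nat.find hex) k) (fun _ k => C j k) +
                res κ (fun _ k => C (Nat.find hex) k) := by
            funext i k
            by_cases h1 : C (Nat.find hex) k
            · have h2 := hC _ _ _ hle h1
              simp [res, h1, h2]
            · by_cases h2 : C j k <;> simp [res, h1, h2]
          have hmm : mass (res (res κ fun _ k => ¬ C (Nat.find hex) k) (fun _ k => C j k)) +
              mass (res κ (fun _ k => C (Nat.find hex) k)) ≤ mass (res κ fun _ k => C j k) := by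
            rw [res_res]
            exact mass_res_add_le (fun _ _ _ h => h.2) (fun _ k _ h => hC _ _ k hle h)
              (fun _ _ _ h h' => h.1 h')
          have hn := nrm_add_le
            (res (res κ fun _ k => ¬ C (Nat.find hex) k) (fun _ k => C j k))
            (res κ (fun _ k => C (Nat.find hex) k)) t (e := 1 / 5) (by norm_num)
          rw [← he] at hn
          have h2 := ht2 j (by linarith)
          have hm2 := mass_nonneg
            (res (res κ fun _ k => ¬ C (Nat.find hex) k) (fun _ k => C j k))
          have hm0 := mass_nonneg (res κ fun _ k => C j k)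
          have h0 : nrm (res κ (fun _ k => C (Nat.find hex) k)) t ≤ l * (l + W) := ht0
          generalize mass (res (res κ fun _ k => ¬ C (Nat.find hex) k) (fun _ k => C j k)) = m2
            at hmm h2 hm2
          generalize mass (res κ fun _ k => C j k) = m at hmm hj hs hm0 ⊢
          have hsq := Real.sq_sqrt hm0
          have hs0 := Real.sqrt_nonneg m
          have h3 : √m2 ≤ 71 / 100 * √m :=
            Real.sqrt_le_iff.2 ⟨by positivity, by nlinarith⟩
          have h4 : l ≤ 2 * √m := by
            by_contra hh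
            nlinarith
          have h5 := mul_le_mul_of_nonneg_left h3 hW.le
          have h6 := mul_le_mul_of_nonneg_left h4 hW.le
          have h7 := mul_nonneg hW.le hs0
          unfold gg at h2 ⊢
          nlinarith
    · refine (ih κ hl2 hκ').mono (fun k => ?_) (fun t ht j hj => ht j ?_)
      · have h1 := hc_step (q := 3 / 4) (m := 0) hW hl (by norm_num) (by norm_num) le_rfl
          (by positivity)
        have h3 := cm_nonneg κ k
        have h2 : hc W (3 / 4 * l) ≤ hc W l := by simpa using h1
        nlinarith [mul_le_mul_of_nonneg_right h2 h3]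
      · by_contra hn
        exact hex ⟨j, by linarith [not_le.1 hn], hj⟩

theorem pt (κ : ι → K → ℝ) (C : ℕ → K → Prop) (hC : ∀ j j' k, j ≤ j' → C j k → C j' k)
    {W l : ℝ} (hW : 0 < W) (hl : 0 < l) :
    Good (fun k => 4 * hc W l * cm κ k)
      {t | ∀ j, mass (res κ fun _ k => C j k) ≤ l ^ 2 →
        nrm (res κ fun _ k => C j k) t ≤ 100 * gg W (mass (res κ fun _ k => C j k))} := by
  obtain ⟨n, hn⟩ := exists_pow_lt κ (l ^ 2) (q := 9 / 16) (by norm_num) (by norm_num)
  exact pt_aux C hC hW n κ hl hn

theorem fg (κ : ι → K → ℝ) (β : K → ℕ) (C : ℕ → K → Prop)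
    (hC : ∀ j j' k, j ≤ j' → C j k → C j' k) {W l : ℝ} (hW : 0 < W) (hl : 0 < l) :
    Good (fun k => 4 * hc W l * cm κ k)
      {t | ∀ j m, mass (res κ fun _ k => C j k ∧ β k = m) ≤ l ^ 2 →
        nrm (res κ fun _ k => C j k ∧ β k = m) t ≤
          100 * gg W (mass (res κ fun _ k => C j k ∧ β k = m))} := by
  classical
  have h := good_biInter (Finset.univ.image β)
    (fun m _ => pt (res κ fun _ k => β k = m) C hC hW hl)
  refine h.mono (fun k => ?_) (fun t ht j m hm => ?_)
  · rw [← Finset.mul_sum]
    have h0 : 0 ≤ 4 * hc W l := by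
      have := hc_nonneg hW hl.le
      positivity
    exact mul_le_mul_of_nonneg_left (sum_cm_res_le (Finset.univ.image β) (κ := κ)
      (P := fun m _ k => β k = m) (fun i k a _ a' _ _ h1 h2 => h1.symm.trans h2) k) h0
  · by_cases hmem : m ∈ Finset.univ.image β
    · have he : res (res κ fun _ k => β k = m) (fun _ k => C j k) =
          res κ fun _ k => C j k ∧ β k = m := by
        rw [res_res]
        exact res_congr fun i k _ => and_comm
      have := ht m hmem j
      rw [he] at this
      exact this hm
    · have hz : ∀ i k, res κ (fun _ k => C j k ∧ β k = m) i k = 0 := fun i k =>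
        res_neg fun h => hmem (Finset.mem_image.2 ⟨k, Finset.mem_univ k, h.2⟩)
      rw [nrm_eq_zero hz]
      have := gg_nonneg hW.le (mass_nonneg (res κ fun _ k => C j k ∧ β k = m))
      linarith

theorem fg0 (κ : ι → K → ℝ) (β : K → ℕ) (C : ℕ → K → Prop)
    (hC : ∀ j j' k, j ≤ j' → C j k → C j' k) :
    Good (fun k => 4 * cm κ k)
      {t | ∀ j m, nrm (res κ fun _ k => C j k ∧ β k = m) t ≤
          200 * mass (res κ fun _ k => C j k ∧ β k = m) + 100} := by
  have hs0 : 0 ≤ √(mass κ) := Real.sqrt_nonneg _
  have hl : 0 < √(mass κ) + 1 := by linarith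
  have hms : √(mass κ) ^ 2 = mass κ := Real.sq_sqrt (mass_nonneg κ)
  refine (fg κ β C hC one_pos hl).mono (fun k => ?_) (fun t ht j m => ?_)
  · have h1 := hc_le_inv one_pos hl.le
    have h2 := cm_nonneg κ k
    have h3 : 4 * hc 1 (√(mass κ) + 1) ≤ 4 := by
      have : (1 : ℝ) / 1 ^ 2 = 1 := by norm_num
      linarith
    exact mul_le_mul_of_nonneg_right h3 h2
  · have h1 : mass (res κ fun _ k => C j k ∧ β k = m) ≤ (√(mass κ) + 1) ^ 2 := by
      have := mass_res_le κ fun _ k => C j k ∧ β k = m
      nlinarith
    have h2 := ht j m h1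
    have h3 := gg_le 1 (mass_nonneg (res κ fun _ k => C j k ∧ β k = m))
    linarith

end Vale.Agent.P262
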