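import Vale.Agent.P262.Basic

/-! Cutting time into blocks (PROOF.md section SPLIT). -/

namespace Vale.Agent.P262

open Finset

variable {ι K : Type} [Fintype ι] [Fintype K]

lemma mass_res_eq_zero {κ : ι → K → ℝ} {P : ι → K → Prop} (h : ∀ i k, ¬ P i k) :
    mass (res κ P) = 0 := by
  have : ∀ i k, res κ P i k = 0 := fun i k => res_neg (h i k)
  simp [mass, this]

/-- greedy cutting: a counter `π` and the position `l` of the last cut -/
lemma exists_cut (T : ℕ → ℕ → Prop) : ∃ π l : ℕ → ℕ, π 0 = 0 ∧ l 0 = 0 ∧
    ∀ j, (T (l j) j ∧ π (j + 1) = π j + 1 ∧ l (j + 1) = j + 1) ∨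
      (¬ T (l j) j ∧ π (j + 1) = π j ∧ l (j + 1) = l j) := by
  classical
  let s : ℕ → ℕ × ℕ := fun n => Nat.rec (0, 0)
    (fun j q => if T q.2 j then (q.1 + 1, j + 1) else q) n
  have hs : ∀ j, s (j + 1) = if T (s j).2 j then ((s j).1 + 1, j + 1) else s j := fun j => rfl
  refine ⟨fun n => (s n).1, fun n => (s n).2, rfl, rfl, fun j => ?_⟩
  by_cases h : T (s j).2 j
  · left
    simp only [hs, if_pos h]
    exact ⟨h, trivial, trivial⟩
  · right
    simp only [hs, if_neg h]
    exact ⟨h, trivial, trivial⟩

theorem split (κ : ι → K → ℝ) (b : K → ℕ) (x : ι → ℕ) {θ Λ : ℝ} (hθ : 0 ≤ θ)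
    (hload : ∀ j, mass (res κ fun i k => b k < j ∧ j < x i) ≤ Λ) :
    ∃ π : ℕ → ℕ, Monotone π ∧
      (∀ j, mass (res κ fun i k => π (b k) = π (x i) ∧ b k < j ∧ j < x i) ≤ θ) ∧
      (∀ m, mass (res κ fun i k => π (b k) < m ∧ m < π (x i)) ≤ max (Λ - θ) 0) := by
  obtain ⟨π, l, h0, hl0, hstep⟩ := exists_cut
    (fun a j => θ < mass (res κ fun i k => a ≤ b k ∧ b k < j ∧ j < x i))
  have hmono : Monotone π := monotone_nat_of_le_succ fun j => by
    rcases hstep j with h | h <;> omega
  have hlast : ∀ j a, a ≤ j → (π a = π j ↔ l j ≤ a) := by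
    intro j
    induction j with
    | zero => intro a ha; have : a = 0 := by omega
              subst this; simp [hl0]
    | succ j ih =>
      intro a ha
      have hlj : l j ≤ j := (ih j le_rfl).1 rfl
      rcases Nat.lt_or_ge j a with h1 | h1
      · have : a = j + 1 := by omega
        subst this
        rcases hstep j with h | h <;> omega
      · have h2 := ih a h1
        have h3 := hmono h1
        rcases hstep j with h | h <;> omega
  have hhit : ∀ n m, m < π n → ∃ j, π j = m ∧ π (j + 1) = m + 1 := by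
    intro n m
    induction n with
    | zero => intro h; omega
    | succ n ih =>
      intro h
      by_cases h1 : m < π n
      · exact ih h1
      · refine ⟨n, ?_⟩
        rcases hstep n with h2 | h2 <;> omega
  refine ⟨π, hmono, fun j => ?_, fun m => ?_⟩
  · by_cases hex : ∃ i k, π (b k) = π (x i) ∧ b k < j ∧ j < x i
    · obtain ⟨i0, k0, h1, h2, h3⟩ := hex
      have h4 := hmono h2.le
      have h5 := hmono (Nat.succ_le_of_lt h3)
      rcases hstep j with h | h
      · have := h.2.1
        simp only [Nat.succ_eq_add_one] at h5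
        omega
      · refine le_trans (mass_res_mono fun i k _ hk => ⟨?_, hk.2⟩) (not_lt.1 h.1)
        have h6 := hmono hk.2.1.le
        have h7 := hmono hk.2.2.le
        exact (hlast j (b k) hk.2.1.le).1 (by omega)
    · rw [mass_res_eq_zero fun i k h => hex ⟨i, k, h⟩]
      exact hθ
  · by_cases hex : ∃ i k, π (b k) < m ∧ m < π (x i)
    · obtain ⟨i0, k0, -, h2⟩ := hex
      obtain ⟨j, hj1, hj2⟩ := hhit _ _ h2
      rcases hstep j with h | h
      · have h3 := mass_res_add_le (κ := κ) (P := fun i k => π (b k) < m ∧ m < π (x i))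
          (R := fun i k => l j ≤ b k ∧ b k < j ∧ j < x i)
          (T := fun i k => b k < j ∧ j < x i) (fun i k _ hk => ?_) (fun i k _ hk => hk.2)
          (fun i k _ hk hk' => ?_)
        · have h4 := hload j
          have h5 := h.1
          exact le_max_of_le_left (by linarith)
        · constructor
          · by_contra hn
            have := hmono (not_lt.1 hn)
            omega
          · by_contra hn
            have := hmono (not_lt.1 hn)
            omega
        · have := (hlast j (b k) hk'.2.1.le).2 hk'.1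
          omega
      · omega
    · rw [mass_res_eq_zero fun i k h => hex ⟨i, k, h⟩]
      exact le_max_right _ _

theorem levels (κ : ι → K → ℝ) (b : K → ℕ) (x : ι → ℕ) {D : ℕ} (hD : 0 < D)
    (hload : ∀ j, mass (res κ fun i k => b k < j ∧ j < x i) ≤ D) :
    ∃ π : ℕ → ℕ → ℕ, Nest π ∧ (∀ a, π 0 a = a) ∧ (∀ a, π D a = 0) ∧
      ∀ p m, mass (res κ fun i k => π (p + 1) (b k) = π (p + 1) (x i) ∧
        π p (b k) < m ∧ m < π p (x i)) ≤ 1 := by
  let T : ℕ → Type := fun p => {f : ℕ → ℕ // Monotone f ∧
    ∀ m, mass (res κ fun i k => f (b k) < m ∧ m < f (x i)) ≤ max ((D : ℝ) - p) 0}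
  have hstep : ∀ p (f : T p), ∃ g : T (p + 1), (∀ a a', f.1 a = f.1 a' → g.1 a = g.1 a') ∧
      ∀ m, mass (res κ fun i k => g.1 (b k) = g.1 (x i) ∧
        f.1 (b k) < m ∧ m < f.1 (x i)) ≤ 1 := by
    intro p f
    obtain ⟨σ, h1, h2, h3⟩ := split κ (fun k => f.1 (b k)) (fun i => f.1 (x i)) zero_le_one f.2.2
    refine ⟨⟨fun a => σ (f.1 a), h1.comp f.2.1, fun m => (h3 m).trans ?_⟩,
      fun a a' h => by simp only [h], h2⟩
    push_cast
    rcases le_total ((D : ℝ) - p) 0 with h | h
    · rw [max_eq_right h, max_eq_right (by norm_num)]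
      exact le_max_right _ _
    · rw [max_eq_left h]
      exact le_of_eq (by congr 1; ring)
  choose nxt h1 h2 using hstep
  let ρ : ∀ p, T p := fun p => Nat.rec (motive := T)
    ⟨id, monotone_id, fun m => (hload m).trans (by simp)⟩ nxt p
  have hρ : ∀ p, ρ (p + 1) = nxt p (ρ p) := fun p => rfl
  refine ⟨fun p a => if p < D then (ρ p).1 a else 0, ⟨fun p => ?_, fun p a a' h => ?_⟩,
    fun a => by simp only [if_pos hD]; rfl, fun a => by simp, fun p m => ?_⟩
  · by_cases hp : p < D
    · simp only [if_pos hp]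
      exact (ρ p).2.1
    · simp only [if_neg hp]
      exact monotone_const
  · by_cases hp : p + 1 < D
    · have hp' : p < D := by omega
      simp only [if_pos hp'] at h
      simp only [if_pos hp]
      exact h1 p (ρ p) a a' h
    · simp only [if_neg hp]
  · by_cases hp : p + 1 < D
    · have hp' : p < D := by omega
      simp only [if_pos hp, if_pos hp']
      exact h2 p (ρ p) m
    · by_cases hp' : p < D
      · simp only [if_neg hp, if_pos hp', true_and]
        refine ((ρ p).2.2 m).trans ?_
        have : D = p + 1 := by omega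
        rw [this]
        simp
      · simp only [if_neg hp']
        rw [mass_res_eq_zero fun i k h => by omega]
        exact zero_le_one

end Vale.Agent.P262
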