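import Vale.Agent.P262.ST
import Vale.Agent.P262.PT
import Vale.Agent.P262.Split

/-! The recursion at small scales (PROOF.md section BR). -/

namespace Vale.Agent.P262

open Finset

variable {ι K : Type} [Fintype ι] [Fintype K]

lemma gg_le_of_dom {W l m S : ℝ} (hl : 0 < l) (hW : l ≤ W) (hm0 : 0 ≤ m) (hm : m ≤ l ^ 2)
    (hS : √m ≤ S / 2) : gg W m ≤ W * S := by
  have h1 : √m ≤ l := by
    rw [Real.sqrt_le_iff]; exact ⟨hl.le, hm⟩
  have h2 := Real.sq_sqrt hm0
  have h3 := Real.sqrt_nonneg m
  unfold gg
  nlinarith [mul_le_mul_of_nonneg_left hS (hl.le.trans hW),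
    mul_le_mul_of_nonneg_left (h1.trans hW) h3]

lemma br_aux (n : ℕ) : ∀ (κ : ι → K → ℝ) (b : K → ℕ) (x : ι → ℕ) {W l : ℝ}, 0 < l → l ≤ W →
    (∀ j, mass (res κ fun i k => b k < j ∧ j < x i) ≤ l ^ 2) →
    (∀ i k, κ i k ≠ 0 → l ^ 2 * (9 / 16 : ℝ) ^ n < κ i k ^ 2) →
    Good (fun k => 100 * l / W ^ 3 * cm κ k)
      {t | ∀ j a bb, Dom κ (fun i k => b k < j ∧ j < x i) a bb →
        nrm (res κ fun i k => b k < j ∧ j < x i) t ≤ 200000 * W * (∑ i, a i + ∑ k, bb k)} := by
  induction n with
  | zero =>
    intro κ b x W l hl hW hload hκ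
    have hW0 : 0 < W := hl.trans_le hW
    refine good_of_forall (fun k => ?_) (fun t j a bb hd => ?_)
    · have := cm_nonneg κ k
      positivity
    · have hz : ∀ i k, res κ (fun i k => b k < j ∧ j < x i) i k = 0 := fun i k => by
        by_contra h
        obtain ⟨h1, h2⟩ := res_ne_zero h
        have h3 := sq_le_mass (res κ fun i k => b k < j ∧ j < x i) i k
        rw [res_pos (P := fun i k => b k < j ∧ j < x i) h1] at h3
        have h4 := hκ i k h2
        have h5 := hload j
        simp only [pow_zero, mul_one] at h4
        linarith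
      rw [nrm_eq_zero hz]
      have ha : 0 ≤ ∑ i, a i := Finset.sum_nonneg fun i _ => hd.ha i
      have hb : 0 ≤ ∑ k, bb k := Finset.sum_nonneg fun k _ => hd.hb k
      positivity
  | succ n ih =>
    intro κ b x W l hl hW hload hκ
    classical
    have hW0 : 0 < W := hl.trans_le hW
    obtain ⟨π, hπ, hU, hM⟩ := split κ b x (θ := l ^ 2 / 2) (by positivity) hload
    have hlt : ∀ {a c : ℕ}, π a < π c → a < c := fun h => by
      by_contra hn
      exact absurd (hπ (not_lt.1 hn)) (not_le.2 h)
    have hsm : ∀ P : ι → K → Prop, ∀ i k, res κ P i k ≠ 0 →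
        (3 / 4 * l) ^ 2 * (9 / 16 : ℝ) ^ n < res κ P i k ^ 2 := fun P i k h => by
      obtain ⟨h1, h2⟩ := res_ne_zero h
      rw [res_pos h1]
      have := hκ i k h2
      calc (3 / 4 * l) ^ 2 * (9 / 16 : ℝ) ^ n = l ^ 2 * (9 / 16 : ℝ) ^ (n + 1) := by ring
        _ < _ := this
    have hl' : 0 < 3 / 4 * l := by positivity
    have hW' : 3 / 4 * l ≤ 15 / 16 * W := by linarith
    have hq : l ^ 2 / 2 ≤ (3 / 4 * l) ^ 2 := by nlinarith [sq_nonneg l]
    have gU := ih (res κ fun i k => π (b k) = π (x i)) b x hl' hW'
      (fun j => by rw [res_res]; exact (hU j).trans hq) (hsm _)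
    have gM := ih (res κ fun i k => π (b k) < π (x i)) (fun k => π (b k)) (fun i => π (x i)) hl' hW'
      (fun m => by
        rw [res_res]
        refine (mass_res_mono fun i k _ h => h.2).trans ((hM m).trans (max_le ?_ (by positivity)))
        linarith) (hsm _)
    have gF := fg (res κ fun i k => π (b k) < π (x i)) (fun k => π (b k)) (fun j k => b k < j)
      (fun j j' k h h' => lt_of_lt_of_le h' h) hW0 hl
    have gL := lg (res κ fun i k => π (b k) < π (x i)) (fun i => π (x i)) (fun j i => j < x i)
      (fun j j' i h h' => lt_of_le_of_lt h h') hW0 hl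
    refine ((gU.inter gM).inter (gF.inter gL)).mono (fun k => ?_) ?_
    · have h1 := cm_res_add_le (κ := κ) (P := fun i k => π (b k) = π (x i))
        (R := fun i k => π (b k) < π (x i)) (fun i k _ h h' => h'.ne h) k
      have h2 := cm_nonneg (res κ fun i k => π (b k) = π (x i)) k
      have h3 := cm_nonneg (res κ fun i k => π (b k) < π (x i)) k
      have h4 := hc_le_cube hW0 hl.le
      have h5 : 100 * (3 / 4 * l) / (15 / 16 * W) ^ 3 = 4096 / 45 * (l / W ^ 3) := by
        field_simp; norm_num
      have h6 : 0 < l / W ^ 3 := by positivity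
      rw [h5, mul_div_assoc]
      nlinarith [mul_le_mul_of_nonneg_right h4 h3, mul_nonneg h6.le h2, mul_nonneg h6.le h3,
        mul_le_mul_of_nonneg_left h1 h6.le]
    · rintro t ⟨⟨tU, tM⟩, tF, tL⟩ j a bb hd
      have hS := mass_le_of_dom hd
      have h1 := tU j (fun i => if π (x i) = π j then a i else 0)
        (fun k => if π (b k) = π j then bb k else 0)
        ⟨fun i => by split_ifs; exacts [hd.ha i, le_rfl],
          fun k => by split_ifs; exacts [hd.hb k, le_rfl], fun i k h => by
            by_cases h2 : π (b k) = π (x i)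
            · have h3 := hπ h.1.le
              have h4 := hπ h.2.le
              rw [res_pos (P := fun i k => π (b k) = π (x i)) h2, if_pos (by omega),
                if_pos (by omega)]
              exact hd.le i k h
            · rw [res_neg (P := fun i k => π (b k) = π (x i)) h2]
              have := hd.ha i
              have := hd.hb k
              split_ifs <;> simp
              positivity⟩
      have h2 := tM (π j) (fun i => if π (x i) = π j then 0 else a i)
        (fun k => if π (b k) = π j then 0 else bb k)
        ⟨fun i => by split_ifs; exacts [le_rfl, hd.ha i],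
          fun k => by split_ifs; exacts [le_rfl, hd.hb k], fun i k h => by
            rw [if_neg h.2.ne', if_neg h.1.ne]
            exact (res_sq_le _ _ _ _).trans (hd.le i k ⟨hlt h.1, hlt h.2⟩)⟩
      have mF : mass (res (res κ fun i k => π (b k) < π (x i))
          fun _ k => b k < j ∧ π (b k) = π j) ≤ mass (res κ fun i k => b k < j ∧ j < x i) := by
        rw [res_res]
        exact mass_res_mono fun i k _ h => ⟨h.2.1, hlt (h.2.2 ▸ h.1)⟩
      have mL : mass (res (res κ fun i k => π (b k) < π (x i))
          fun i _ => j < x i ∧ π (x i) = π j) ≤ mass (res κ fun i k => b k < j ∧ j < x i) := by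
        rw [res_res]
        exact mass_res_mono fun i k _ h => ⟨hlt (h.2.2 ▸ h.1), h.2.1⟩
      have h3 := tF j (π j) (mF.trans (hload j))
      have h4 := tL j (π j) (mL.trans (hload j))
      have h5 := gg_le_of_dom hl hW (mass_nonneg _) (mF.trans (hload j))
        ((Real.sqrt_le_sqrt mF).trans hS)
      have h6 := gg_le_of_dom hl hW (mass_nonneg _) (mL.trans (hload j))
        ((Real.sqrt_le_sqrt mL).trans hS)
      have sa : ∑ i, (if π (x i) = π j then a i else 0) + ∑ i, (if π (x i) = π j then 0 else a i) =
          ∑ i, a i := by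
        rw [← Finset.sum_add_distrib]
        exact Finset.sum_congr rfl fun i _ => by split_ifs <;> simp
      have sb : ∑ k, (if π (b k) = π j then bb k else 0) +
          ∑ k, (if π (b k) = π j then 0 else bb k) = ∑ k, bb k := by
        rw [← Finset.sum_add_distrib]
        exact Finset.sum_congr rfl fun k _ => by split_ifs <;> simp
      simp only [res_res] at h1 h2 h3 h4 h5 h6
      have hdec : (res κ fun i k => b k < j ∧ j < x i) =
          ((res κ fun i k => π (b k) = π (x i) ∧ b k < j ∧ j < x i) +
            res κ fun i k => π (b k) < π (x i) ∧ π (b k) < π j ∧ π j < π (x i)) +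
          ((res κ fun i k => π (b k) < π (x i) ∧ b k < j ∧ π (b k) = π j) +
            res κ fun i k => π (b k) < π (x i) ∧ j < x i ∧ π (x i) = π j) := by
        funext i k
        simp only [Pi.add_apply, res]
        by_cases h : b k < j ∧ j < x i
        · have h7 := hπ h.1.le
          have h8 := hπ h.2.le
          rw [if_pos h]
          rcases h7.lt_or_eq with h7 | h7 <;> rcases h8.lt_or_eq with h8 | h8
          · rw [if_neg (by omega), if_pos (by omega), if_neg (by omega), if_neg (by omega)]
            ring
          · rw [if_neg (by omega), if_neg (by omega), if_neg (by omega), if_pos (by omega)]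
            ring
          · rw [if_neg (by omega), if_neg (by omega), if_pos (by omega), if_neg (by omega)]
            ring
          · rw [if_pos (by omega), if_neg (by omega), if_neg (by omega), if_neg (by omega)]
            ring
        · have h7 := @hlt (b k) j
          have h8 := @hlt j (x i)
          rw [if_neg h, if_neg (by omega), if_neg (by omega), if_neg (by omega), if_neg (by omega)]
          ring
      rw [hdec]
      refine (nrm_add_le _ _ t (e := 1 / 30) (by norm_num)).trans ?_
      rw [nrm_add_of_rows, nrm_add_of_rows]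
      · have ha : 0 ≤ ∑ i, a i := Finset.sum_nonneg fun i _ => hd.ha i
        have hb : 0 ≤ ∑ k, bb k := Finset.sum_nonneg fun k _ => hd.hb k
        have h7 : 0 ≤ W * (∑ i, a i + ∑ k, bb k) := by positivity
        have h8 : 200000 * (15 / 16 * W) * (∑ i, (if π (x i) = π j then a i else 0) +
            ∑ k, (if π (b k) = π j then bb k else 0)) + 200000 * (15 / 16 * W) *
            (∑ i, (if π (x i) = π j then 0 else a i) + ∑ k, (if π (b k) = π j then 0 else bb k)) =
            187500 * (W * (∑ i, a i + ∑ k, bb k)) := by
          rw [← sa, ← sb]; ring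
        norm_num
        linarith
      · intro i k k' h h'
        have h7 := (res_ne_zero h).1
        have h8 := (res_ne_zero h').1
        omega
      · intro i k k' h h'
        have h7 := (res_ne_zero h).1
        have h8 := (res_ne_zero h').1
        have h9 := hπ h7.2.1.le
        omega

theorem br (κ : ι → K → ℝ) (b : K → ℕ) (x : ι → ℕ) {W l : ℝ} (hl : 0 < l) (hW : l ≤ W)
    (hload : ∀ j, mass (res κ fun i k => b k < j ∧ j < x i) ≤ l ^ 2) :
    Good (fun k => 100 * l / W ^ 3 * cm κ k)
      {t | ∀ j a bb, Dom κ (fun i k => b k < j ∧ j < x i) a bb →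
        nrm (res κ fun i k => b k < j ∧ j < x i) t ≤ 200000 * W * (∑ i, a i + ∑ k, bb k)} := by
  obtain ⟨n, hn⟩ := exists_pow_lt κ (l ^ 2) (q := 9 / 16) (by norm_num) (by norm_num)
  exact br_aux n κ b x hl hW hload hn

end Vale.Agent.P262
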