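import Vale.Agent.P262.Defs

/-! Elementary facts on `mass`, `cm`, `nrm`, `res`, `Good`. -/

namespace Vale.Agent.P262

open Finset

variable {ι K : Type}

lemma res_pos {κ : ι → K → ℝ} {P : ι → K → Prop} {i : ι} {k : K} (h : P i k) :
    res κ P i k = κ i k := by simp [res, h]

lemma res_neg {κ : ι → K → ℝ} {P : ι → K → Prop} {i : ι} {k : K} (h : ¬ P i k) :
    res κ P i k = 0 := by simp [res, h]

lemma res_res (κ : ι → K → ℝ) (P R : ι → K → Prop) :
    res (res κ P) R = res κ (fun i k => P i k ∧ R i k) := by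
  funext i k
  by_cases h : P i k <;> by_cases h' : R i k <;> simp [res, h, h']

lemma res_congr {κ : ι → K → ℝ} {P R : ι → K → Prop}
    (h : ∀ i k, κ i k ≠ 0 → (P i k ↔ R i k)) : res κ P = res κ R := by
  funext i k
  by_cases h0 : κ i k = 0
  · by_cases h1 : P i k <;> by_cases h2 : R i k <;> simp [res, h0, h1, h2]
  · by_cases h1 : P i k
    · rw [res_pos h1, res_pos ((h i k h0).1 h1)]
    · rw [res_neg h1, res_neg (fun h2 => h1 ((h i k h0).2 h2))]

lemma res_ne_zero {κ : ι → K → ℝ} {P : ι → K → Prop} {i : ι} {k : K} (h : res κ P i k ≠ 0) :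
    P i k ∧ κ i k ≠ 0 := by
  by_cases h1 : P i k
  · exact ⟨h1, by rwa [res_pos h1] at h⟩
  · exact absurd (res_neg h1) h

lemma res_sq_le (κ : ι → K → ℝ) (P : ι → K → Prop) (i : ι) (k : K) :
    res κ P i k ^ 2 ≤ κ i k ^ 2 := by
  by_cases h : P i k
  · rw [res_pos h]
  · rw [res_neg h]; nlinarith [sq_nonneg (κ i k)]

lemma res_sq_mono {κ : ι → K → ℝ} {P R : ι → K → Prop} {i : ι} {k : K}
    (h : κ i k ≠ 0 → P i k → R i k) : res κ P i k ^ 2 ≤ res κ R i k ^ 2 := by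
  by_cases h0 : κ i k = 0
  · by_cases h1 : P i k <;> by_cases h2 : R i k <;> simp [res, h0, h1, h2]
  by_cases h1 : P i k
  · rw [res_pos h1, res_pos (h h0 h1)]
  · rw [res_neg h1]; nlinarith [sq_nonneg (res κ R i k)]

/-- a family of pairwise disjoint restrictions inside `R` -/
lemma sum_res_sq_le {α : Type} (s : Finset α) {κ : ι → K → ℝ} {P : α → ι → K → Prop}
    {R : ι → K → Prop} {i : ι} {k : K}
    (hsub : ∀ a ∈ s, κ i k ≠ 0 → P a i k → R i k)
    (hdis : ∀ a ∈ s, ∀ a' ∈ s, κ i k ≠ 0 → P a i k → P a' i k → a = a') :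
    ∑ a ∈ s, res κ (P a) i k ^ 2 ≤ res κ R i k ^ 2 := by
  by_cases h0 : κ i k = 0
  · have : ∀ a ∈ s, res κ (P a) i k ^ 2 = 0 := fun a _ => by
      by_cases h1 : P a i k <;> simp [res, h0, h1]
    rw [Finset.sum_eq_zero this]; positivity
  by_cases hex : ∃ a ∈ s, P a i k
  · obtain ⟨a, ha, hP⟩ := hex
    rw [Finset.sum_eq_single_of_mem a ha]
    · rw [res_pos hP, res_pos (hsub a ha h0 hP)]
    · intro a' ha' hne
      rw [res_neg (fun h => hne (hdis a' ha' a ha h0 h hP))]; simp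
  · have : ∀ a ∈ s, res κ (P a) i k ^ 2 = 0 := fun a ha => by
      rw [res_neg (fun h => hex ⟨a, ha, h⟩)]; simp
    rw [Finset.sum_eq_zero this]; positivity

lemma res_true (κ : ι → K → ℝ) : res κ (fun _ _ => True) = κ := by
  funext i k; simp [res]

section fin
variable [Fintype ι]

lemma cm_nonneg (κ : ι → K → ℝ) (k : K) : 0 ≤ cm κ k := Finset.sum_nonneg fun _ _ => sq_nonneg _

lemma cm_res_le (κ : ι → K → ℝ) (P : ι → K → Prop) (k : K) : cm (res κ P) k ≤ cm κ k :=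
  Finset.sum_le_sum fun i _ => res_sq_le κ P i k

lemma cm_res_mono {κ : ι → K → ℝ} {P R : ι → K → Prop}
    (h : ∀ i k, κ i k ≠ 0 → P i k → R i k) (k : K) : cm (res κ P) k ≤ cm (res κ R) k :=
  Finset.sum_le_sum fun i _ => res_sq_mono (h i k)

lemma sum_cm_res_le {α : Type} (s : Finset α) {κ : ι → K → ℝ} {P : α → ι → K → Prop}
    (hdis : ∀ i k, ∀ a ∈ s, ∀ a' ∈ s, κ i k ≠ 0 → P a i k → P a' i k → a = a') (k : K) :
    ∑ a ∈ s, cm (res κ (P a)) k ≤ cm κ k := by
  unfold cm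
  rw [Finset.sum_comm]
  refine Finset.sum_le_sum fun i _ => ?_
  have := sum_res_sq_le s (κ := κ) (P := P) (R := fun _ _ => True) (i := i) (k := k)
    (fun _ _ _ _ => trivial) (hdis i k)
  rwa [res_true] at this

lemma cm_res_add_le {κ : ι → K → ℝ} {P R : ι → K → Prop}
    (hdis : ∀ i k, κ i k ≠ 0 → P i k → R i k → False) (k : K) :
    cm (res κ P) k + cm (res κ R) k ≤ cm κ k := by
  unfold cm
  rw [← Finset.sum_add_distrib]
  refine Finset.sum_le_sum fun i _ => ?_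
  by_cases h0 : κ i k = 0
  · by_cases h1 : P i k <;> by_cases h2 : R i k <;> simp [res, h0, h1, h2]
  by_cases h1 : P i k
  · rw [res_pos h1, res_neg (hdis i k h0 h1)]; simp
  · rw [res_neg h1]; simpa using res_sq_le κ R i k

variable [Fintype K]

lemma mass_nonneg (κ : ι → K → ℝ) : 0 ≤ mass κ :=
  Finset.sum_nonneg fun _ _ => Finset.sum_nonneg fun _ _ => sq_nonneg _

lemma nrm_nonneg (κ : ι → K → ℝ) (t : K → ℝ) : 0 ≤ nrm κ t :=
  Finset.sum_nonneg fun _ _ => sq_nonneg _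

lemma mass_eq_sum_cm (κ : ι → K → ℝ) : mass κ = ∑ k, cm κ k := Finset.sum_comm

lemma cm_le_mass (κ : ι → K → ℝ) (k : K) : cm κ k ≤ mass κ := by
  rw [mass_eq_sum_cm]
  exact Finset.single_le_sum (fun k _ => cm_nonneg κ k) (Finset.mem_univ k)

lemma sq_le_mass (κ : ι → K → ℝ) (i : ι) (k : K) : κ i k ^ 2 ≤ mass κ :=
  (Finset.single_le_sum (f := fun i => κ i k ^ 2) (fun _ _ => sq_nonneg _)
    (Finset.mem_univ i)).trans (cm_le_mass κ k)

lemma mass_res_le (κ : ι → K → ℝ) (P : ι → K → Prop) : mass (res κ P) ≤ mass κ :=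
  Finset.sum_le_sum fun i _ => Finset.sum_le_sum fun k _ => res_sq_le κ P i k

lemma mass_res_mono {κ : ι → K → ℝ} {P R : ι → K → Prop}
    (h : ∀ i k, κ i k ≠ 0 → P i k → R i k) : mass (res κ P) ≤ mass (res κ R) :=
  Finset.sum_le_sum fun i _ => Finset.sum_le_sum fun k _ => res_sq_mono (h i k)

lemma sum_mass_res_le {α : Type} (s : Finset α) {κ : ι → K → ℝ} {P : α → ι → K → Prop}
    {R : ι → K → Prop} (hsub : ∀ i k, ∀ a ∈ s, κ i k ≠ 0 → P a i k → R i k)
    (hdis : ∀ i k, ∀ a ∈ s, ∀ a' ∈ s, κ i k ≠ 0 → P a i k → P a' i k → a = a') :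
    ∑ a ∈ s, mass (res κ (P a)) ≤ mass (res κ R) := by
  unfold mass
  rw [Finset.sum_comm]
  refine Finset.sum_le_sum fun i _ => ?_
  rw [Finset.sum_comm]
  exact Finset.sum_le_sum fun k _ => sum_res_sq_le s (hsub i k) (hdis i k)

lemma mass_res_add_le {κ : ι → K → ℝ} {P R T : ι → K → Prop}
    (hP : ∀ i k, κ i k ≠ 0 → P i k → T i k) (hR : ∀ i k, κ i k ≠ 0 → R i k → T i k)
    (hdis : ∀ i k, κ i k ≠ 0 → P i k → R i k → False) :
    mass (res κ P) + mass (res κ R) ≤ mass (res κ T) := by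
  unfold mass
  rw [← Finset.sum_add_distrib]
  refine Finset.sum_le_sum fun i _ => ?_
  rw [← Finset.sum_add_distrib]
  refine Finset.sum_le_sum fun k _ => ?_
  by_cases h0 : κ i k = 0
  · by_cases h1 : P i k <;> by_cases h2 : R i k <;> by_cases h3 : T i k <;>
      simp [res, h0, h1, h2, h3]
  by_cases h1 : P i k
  · rw [res_pos h1, res_neg (hdis i k h0 h1), res_pos (hP i k h0 h1)]; simp
  · rw [res_neg h1]; simpa using res_sq_mono (hR i k)

lemma nrm_eq_zero {κ : ι → K → ℝ} (h : ∀ i k, κ i k = 0) (t : K → ℝ) : nrm κ t = 0 := by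
  simp [nrm, h]

lemma nrm_eq_zero_of_mass {κ : ι → K → ℝ} (h : mass κ ≤ 0) (t : K → ℝ) : nrm κ t = 0 :=
  nrm_eq_zero (fun i k => by have := sq_le_mass κ i k; nlinarith [sq_nonneg (κ i k)]) t

/-- dropping whole rows decreases the norm -/
lemma nrm_res_row_le (κ : ι → K → ℝ) (S : ι → Prop) (t : K → ℝ) :
    nrm (res κ (fun i _ => S i)) t ≤ nrm κ t := by
  refine Finset.sum_le_sum fun i _ => ?_
  by_cases h : S i
  · simp [res, h]
  · simp only [res, h, if_false, zero_mul, Finset.sum_const_zero]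
    nlinarith [sq_nonneg (∑ k, κ i k * t k)]

lemma nrm_smul (κ : ι → K → ℝ) (a : ℝ) (t : K → ℝ) : nrm κ (a • t) = a ^ 2 * nrm κ t := by
  unfold nrm
  rw [Finset.mul_sum]
  refine Finset.sum_congr rfl fun i _ => ?_
  rw [← mul_pow, Finset.mul_sum]
  congr 1
  exact Finset.sum_congr rfl fun k _ => by simp only [Pi.smul_apply, smul_eq_mul]; ring

/-- the triangle inequality with a weight -/
lemma nrm_add_le (κ κ' : ι → K → ℝ) (t : K → ℝ) {e : ℝ} (he : 0 < e) :
    nrm (κ + κ') t ≤ (1 + e) * nrm κ t + (1 + 1 / e) * nrm κ' t := by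
  unfold nrm
  rw [Finset.mul_sum, Finset.mul_sum, ← Finset.sum_add_distrib]
  refine Finset.sum_le_sum fun i _ => ?_
  simp only [Pi.add_apply, add_mul, Finset.sum_add_distrib]
  set x := ∑ k, κ i k * t k
  set y := ∑ k, κ' i k * t k
  have : 2 * x * y ≤ e * x ^ 2 + 1 / e * y ^ 2 := by
    have h1 : 0 ≤ (e * x - y) ^ 2 / e := by positivity
    have h2 : (e * x - y) ^ 2 / e = e * x ^ 2 + 1 / e * y ^ 2 - 2 * x * y := by
      field_simp; ring
    linarith
  nlinarith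

/-- Pythagoras for matrices living on disjoint rows -/
lemma nrm_add_of_rows {κ κ' : ι → K → ℝ} (h : ∀ i k k', κ i k ≠ 0 → κ' i k' ≠ 0 → False)
    (t : K → ℝ) : nrm (κ + κ') t = nrm κ t + nrm κ' t := by
  unfold nrm
  rw [← Finset.sum_add_distrib]
  refine Finset.sum_congr rfl fun i _ => ?_
  by_cases h0 : ∀ k, κ i k = 0
  · simp [h0]
  · push Not at h0
    obtain ⟨k, hk⟩ := h0
    have : ∀ k', κ' i k' = 0 := fun k' => by
      by_contra h1
      exact h i k k' hk h1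
    simp [this]

/-- weighted Cauchy-Schwarz for a sum of matrices -/
lemma nrm_sum_le {α : Type} (s : Finset α) (κ : α → ι → K → ℝ) (w : α → ℝ)
    (hw : ∀ a ∈ s, 0 < w a) (t : K → ℝ) :
    nrm (∑ a ∈ s, κ a) t ≤ (∑ a ∈ s, w a) * ∑ a ∈ s, nrm (κ a) t / w a := by
  unfold nrm
  simp only [Finset.sum_div]
  rw [Finset.sum_comm (s := s), Finset.mul_sum]
  refine Finset.sum_le_sum fun i _ => ?_
  have h1 : ∑ k, (∑ a ∈ s, κ a) i k * t k = ∑ a ∈ s, ∑ k, κ a i k * t k := by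
    simp only [Finset.sum_apply, Finset.sum_mul]
    exact Finset.sum_comm
  rw [h1]
  refine Finset.sum_sq_le_sum_mul_sum_of_sq_eq_mul s (fun a ha => (hw a ha).le)
    (fun a ha => div_nonneg (sq_nonneg _) (hw a ha).le) (fun a ha => ?_)
  have := hw a ha
  field_simp

lemma mass_le_of_dom {κ : ι → K → ℝ} {P : ι → K → Prop} {a : ι → ℝ} {bb : K → ℝ}
    (h : Dom κ P a bb) : √(mass (res κ P)) ≤ (∑ i, a i + ∑ k, bb k) / 2 := by
  have h1 : mass (res κ P) ≤ (∑ i, a i) * ∑ k, bb k := by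
    rw [Finset.sum_mul_sum]
    refine Finset.sum_le_sum fun i _ => Finset.sum_le_sum fun k _ => ?_
    by_cases hP : P i k
    · rw [res_pos hP]; exact h.le i k hP
    · rw [res_neg hP]; simpa using mul_nonneg (h.ha i) (h.hb k)
  have ha : 0 ≤ ∑ i, a i := Finset.sum_nonneg fun i _ => h.ha i
  have hb : 0 ≤ ∑ k, bb k := Finset.sum_nonneg fun k _ => h.hb k
  rw [Real.sqrt_le_iff]
  exact ⟨by positivity, by nlinarith [sq_nonneg (∑ i, a i - ∑ k, bb k)]⟩

/-- every nonzero entry is larger than a small geometric quantity -/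
lemma exists_pow_lt (κ : ι → K → ℝ) (a : ℝ) {q : ℝ} (h0 : 0 ≤ q) (h1 : q < 1) :
    ∃ n : ℕ, ∀ i k, κ i k ≠ 0 → a * q ^ n < κ i k ^ 2 := by
  have hl : Filter.Tendsto (fun n : ℕ => a * q ^ n) Filter.atTop (nhds 0) := by
    simpa using (tendsto_pow_atTop_nhds_zero_of_lt_one h0 h1).const_mul a
  have : ∀ᶠ n : ℕ in Filter.atTop, ∀ p : ι × K, κ p.1 p.2 ≠ 0 → a * q ^ n < κ p.1 p.2 ^ 2 := by
    rw [Filter.eventually_all]
    intro p
    by_cases h : κ p.1 p.2 = 0
    · exact Filter.Eventually.of_forall fun n hn => absurd h hn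
    · have hp : 0 < κ p.1 p.2 ^ 2 := by positivity
      filter_upwards [hl.eventually (gt_mem_nhds hp)] with n hn _ using hn
  obtain ⟨n, hn⟩ := this.exists
  exact ⟨n, fun i k => hn (i, k)⟩

end fin

section good
variable [Fintype K]

lemma Good.mono {c c' : K → ℝ} {S S' : Set (K → ℝ)} (h : Good c S) (hc : ∀ k, c k ≤ c' k)
    (hS : S ⊆ S') : Good c' S' := by
  obtain ⟨β, hβ, r, h1, h2, h3⟩ := h
  exact ⟨β, hβ, r, h1, fun k => (h2 k).trans (hc k), fun t ht => hS (h3 t ht)⟩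

lemma good_of_forall {c : K → ℝ} {S : Set (K → ℝ)} (hc : ∀ k, 0 ≤ c k) (hS : ∀ t, t ∈ S) :
    Good c S :=
  ⟨Empty, inferInstance, fun e => e.elim, fun e => e.elim, fun k => by simpa using hc k,
    fun t _ => hS t⟩

lemma good_basic [Fintype ι] (κ : ι → K → ℝ) {ρ : ℝ} (hρ : 0 < ρ) (hm : mass κ ≤ ρ) :
    Good (fun k => mass κ ^ 2 / ρ ^ 3 * cm κ k) {t | nrm κ t ≤ ρ} := by
  let e := (Fintype.equivFin ι).symm
  have h1 : mass (fun i => κ (e i)) = mass κ := Equiv.sum_comp e (fun i => ∑ k, κ i k ^ 2)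
  have h2 : ∀ k, cm (fun i => κ (e i)) k = cm κ k := fun k =>
    Equiv.sum_comp e (fun i => κ i k ^ 2)
  have h3 : ∀ t, nrm (fun i => κ (e i)) t = nrm κ t := fun t =>
    Equiv.sum_comp e (fun i => (∑ k, κ i k * t k) ^ 2)
  refine ⟨Unit, inferInstance, fun _ => ⟨_, fun i => κ (e i), ρ⟩, fun _ => ⟨hρ, ?_⟩,
    fun k => ?_, fun t ht => ?_⟩
  · simpa [h1] using hm
  · simp only [Finset.univ_unique, Finset.sum_singleton, h1, h2]
    apply le_of_eq; ring
  · have := ht ()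
    simp only [h3] at this
    exact this

lemma good_iInter {α : Type} [Fintype α] {c : α → K → ℝ} {S : α → Set (K → ℝ)}
    (h : ∀ a, Good (c a) (S a)) : Good (fun k => ∑ a, c a k) {t | ∀ a, t ∈ S a} := by
  choose β hβ r h1 h2 h3 using h
  refine ⟨(a : α) × β a, inferInstance, fun p => r p.1 p.2, fun p => h1 p.1 p.2, fun k => ?_,
    fun t ht a => h3 a t fun b => ht ⟨a, b⟩⟩
  rw [Fintype.sum_sigma]
  exact Finset.sum_le_sum fun a _ => h2 a k

lemma good_biInter {α : Type} (s : Finset α) {c : α → K → ℝ} {S : α → Set (K → ℝ)}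
    (h : ∀ a ∈ s, Good (c a) (S a)) :
    Good (fun k => ∑ a ∈ s, c a k) {t | ∀ a ∈ s, t ∈ S a} := by
  have := good_iInter (α := s) (c := fun a => c a) (S := fun a => S a) (fun a => h a a.2)
  refine this.mono (fun k => ?_) (fun t ht a ha => ht ⟨a, ha⟩)
  exact le_of_eq (Finset.sum_coe_sort s (fun a => c a k))

lemma Good.inter {c c' : K → ℝ} {S S' : Set (K → ℝ)} (h : Good c S) (h' : Good c' S') :
    Good (fun k => c k + c' k) (S ∩ S') := by
  have := good_iInter (α := Bool) (c := fun a => cond a c c') (S := fun a => cond a S S')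
    (fun a => by cases a; exacts [h', h])
  refine this.mono (fun k => by simp) (fun t ht => ⟨ht true, ht false⟩)

/-- relaxing all constraints by a factor `B ^ 2` divides the cost by `B ^ 6` -/
lemma Good.boost {c : K → ℝ} {S : Set (K → ℝ)} (h : Good c S) {B : ℝ} (hB : 1 ≤ B) :
    Good (fun k => c k / B ^ 6) {t | B⁻¹ • t ∈ S} := by
  obtain ⟨β, hβ, r, h1, h2, h3⟩ := h
  have hB0 : 0 < B := by linarith
  have hB2 : 1 ≤ B ^ 2 := by nlinarith
  refine ⟨β, hβ, fun b => ⟨_, (r b).A, B ^ 2 * (r b).ρ⟩, fun b => ⟨?_, ?_⟩, fun k => ?_,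
    fun t ht => h3 _ fun b => ?_⟩
  · exact mul_pos (by positivity) (h1 b).1
  · have := h1 b
    nlinarith [this.1, this.2]
  · refine le_trans (le_of_eq ?_) (div_le_div_of_nonneg_right (h2 k) (by positivity))
    rw [Finset.sum_div]
    refine Finset.sum_congr rfl fun b _ => ?_
    have := (h1 b).1
    field_simp
  · rw [nrm_smul]
    have := ht b
    simp only at this
    rw [inv_pow, inv_mul_le_iff₀ (by positivity)]
    exact this

end good

lemma gg_nonneg {W : ℝ} (hW : 0 ≤ W) {m : ℝ} (hm : 0 ≤ m) : 0 ≤ gg W m := by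
  unfold gg; positivity

lemma gg_mono {W : ℝ} (hW : 0 ≤ W) {m m' : ℝ} (h : m ≤ m') : gg W m ≤ gg W m' := by
  unfold gg
  have := Real.sqrt_le_sqrt h
  nlinarith

lemma gg_sq (W : ℝ) {l : ℝ} (hl : 0 ≤ l) : gg W (l ^ 2) = l * (l + W) := by
  unfold gg; rw [Real.sqrt_sq hl]; ring

lemma gg_le (W : ℝ) {m : ℝ} (hm : 0 ≤ m) : gg W m ≤ 2 * m + W ^ 2 := by
  unfold gg
  have := Real.sq_sqrt hm
  nlinarith [sq_nonneg (W - √m), sq_nonneg W]

lemma hc_nonneg {W l : ℝ} (hW : 0 < W) (hl : 0 ≤ l) : 0 ≤ hc W l := by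
  unfold hc; positivity

lemma hc_le_inv {W l : ℝ} (hW : 0 < W) (hl : 0 ≤ l) : hc W l ≤ 1 / W ^ 2 := by
  unfold hc
  rw [div_le_div_iff₀ (by positivity) (by positivity)]
  nlinarith [mul_pos (pow_pos hW 2) hW]

lemma hc_le_cube {W l : ℝ} (hW : 0 < W) (hl : 0 ≤ l) : hc W l ≤ l / W ^ 3 := by
  unfold hc
  apply div_le_div_of_nonneg_left hl (by positivity)
  nlinarith [mul_nonneg (pow_pos hW 2).le hl]

/-- the cost of one record is absorbed by the telescoping factor -/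
lemma hc_step {W l q : ℝ} (hW : 0 < W) (hl : 0 < l) (hq0 : 0 ≤ q) (hq1 : q ≤ 1) {m : ℝ}
    (hm0 : 0 ≤ m) (hm : m ≤ l ^ 2) :
    (1 - q) * (m ^ 2 / (l * (l + W)) ^ 3) + hc W (q * l) ≤ hc W l := by
  have h1 : m ^ 2 / (l * (l + W)) ^ 3 ≤ l / (l + W) ^ 3 := by
    rw [div_le_div_iff₀ (by positivity) (by positivity)]
    have : m ^ 2 ≤ l ^ 4 := by nlinarith
    have h3 : 0 < (l + W) ^ 3 := by positivity
    calc m ^ 2 * (l + W) ^ 3 ≤ l ^ 4 * (l + W) ^ 3 := by gcongr
      _ = l * (l * (l + W)) ^ 3 := by ring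
  have h2 : hc W l - hc W (q * l) = (1 - q) * (l / (W * (W + l) * (W + q * l))) := by
    unfold hc
    have : 0 < W + q * l := by positivity
    field_simp
    ring
  have h3 : l / (l + W) ^ 3 ≤ l / (W * (W + l) * (W + q * l)) := by
    apply div_le_div_of_nonneg_left hl.le (by positivity)
    have : q * l ≤ l := by nlinarith
    calc W * (W + l) * (W + q * l) ≤ (l + W) * (W + l) * (l + W) :=
          mul_le_mul (mul_le_mul_of_nonneg_right (by linarith) (by positivity)) (by linarith)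
            (by positivity) (by positivity)
      _ = (l + W) ^ 3 := by ring
  have h4 : 0 ≤ 1 - q := by linarith
  nlinarith [mul_le_mul_of_nonneg_left (h1.trans h3) h4]

namespace Nest
variable {π : ℕ → ℕ → ℕ}

lemma coarse_le (h : Nest π) {p q a b : ℕ} (hpq : p ≤ q) (hab : π p a = π p b) :
    π q a = π q b := by
  induction hpq with
  | refl => exact hab
  | step _ ih => exact h.coarse _ _ _ ih

lemma lt_of_lt (h : Nest π) {p a b : ℕ} (hab : π p a < π p b) : a < b := by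
  by_contra hn
  exact absurd (h.mono p (not_lt.1 hn)) (not_le.2 hab)

lemma sep_of_le (h : Nest π) {p q a b : ℕ} (hpq : p ≤ q) (hab : π q a < π q b) :
    π p a < π p b :=
  lt_of_le_of_ne (h.mono p (h.lt_of_lt hab).le) fun he => hab.ne (h.coarse_le hpq he)

lemma lev_unique (h : Nest π) {p q a b : ℕ} (hp : Lev π p a b) (hq : Lev π q a b) : p = q := by
  by_contra hne
  rcases lt_or_gt_of_ne hne with hl | hl
  · exact hq.1.ne (h.coarse_le hl hp.2)
  · exact hp.1.ne (h.coarse_le hl hq.2)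

lemma exists_lev (h0 : ∀ a, π 0 a = a) {D : ℕ} (hD : ∀ a, π D a = 0) (h : Nest π) {a b : ℕ}
    (hab : a < b) : ∃ p < D, Lev π p a b := by
  classical
  have hex : ∃ p, π p a = π p b := ⟨D, by rw [hD, hD]⟩
  have h1 := Nat.find_spec hex
  have h2 : Nat.find hex ≠ 0 := by
    intro h3
    rw [h3, h0, h0] at h1
    exact hab.ne h1
  obtain ⟨p, hp⟩ := Nat.exists_eq_succ_of_ne_zero h2
  have h3 : Nat.find hex ≤ D := Nat.find_min' hex (by rw [hD, hD])
  refine ⟨p, by omega, lt_of_le_of_ne (h.mono p hab.le) (Nat.find_min hex (by omega)), ?_⟩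
  rw [hp] at h1
  exact h1

end Nest

end Vale.Agent.P262
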