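import Vale.Agent.P262.Basic

/-! Pointwise facts on the cut-off profile (PROOF.md section CUT). -/

namespace Vale.Agent.P262

open Finset

lemma cut_nonneg (y : ℝ) : 0 ≤ cut y := le_max_left _ _

lemma cut_le_one {y : ℝ} (hy : 0 ≤ y) : cut y ≤ 1 := by
  have : 0 ≤ y ^ 3 := by positivity
  exact max_le zero_le_one (by linarith)

lemma continuous_cut : Continuous cut := by
  unfold cut
  fun_prop

lemma lt_one_of_cut_pos {y : ℝ} (h : 0 < cut y) : y < 1 := by
  by_contra hy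
  push Not at hy
  have : 1 ≤ y ^ 3 := one_le_pow₀ hy
  rw [cut, max_eq_left (by linarith)] at h
  exact lt_irrefl _ h

lemma cut_sq_ge {y : ℝ} (hy : 0 ≤ y) : 1 - 2 * y ^ 2 ≤ cut y ^ 2 := by
  rcases le_total 1 y with h | h
  · nlinarith [sq_nonneg (cut y)]
  · have h3 : y ^ 3 ≤ 1 := pow_le_one₀ hy h
    rw [cut, max_eq_right (by linarith)]
    have : y ^ 3 ≤ y ^ 2 := pow_le_pow_of_le_one hy h (by norm_num)
    nlinarith [sq_nonneg (y ^ 3)]

lemma cut_aux1 {y s a : ℝ} (hy : 0 ≤ y) (hs : 0 ≤ s) (ha : a ^ 2 ≤ 4 * y * s) (h : y ≤ 1)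
    (haS : |a| ≤ y + s) (h1 : 1 ≤ y + s + |a|) : (1 - y ^ 3) ^ 2 ≤ 144 * s * (y + s) ^ 2 := by
  have h3 : y ^ 3 ≤ 1 := pow_le_one₀ hy h
  have h4 : (1 - y) ^ 2 ≤ 4 * s := by
    rcases le_total (1 - y - s) 0 with h5 | h5
    · nlinarith
    · have h6 : (1 - y - s) ^ 2 ≤ |a| ^ 2 := pow_le_pow_left₀ h5 (by linarith) 2
      rw [sq_abs] at h6
      nlinarith
  have h7 : 1 - y ^ 3 ≤ 3 * (1 - y) := by
    nlinarith [mul_nonneg (sq_nonneg (1 - y)) (by linarith : 0 ≤ y + 2)]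
  have h8 : (1 - y ^ 3) ^ 2 ≤ (3 * (1 - y)) ^ 2 := pow_le_pow_left₀ (by linarith) h7 2
  have h9 : 1 / 4 ≤ (y + s) ^ 2 := by nlinarith
  nlinarith [mul_le_mul_of_nonneg_left h9 hs]

lemma cut_aux2 {y s t : ℝ} (hy : 0 ≤ y) (hs : 0 ≤ s) (h : y ≤ 1) (t0 : 0 ≤ t)
    (t1 : y ^ 2 - t ≤ 2 * y * s) : y ^ 6 - t ^ 3 ≤ 6 * (s * (y + s) ^ 2) := by
  have hq : 0 ≤ s * (y + s) ^ 2 := by positivity
  rcases le_total (y ^ 2) t with h5 | h5
  · have := pow_le_pow_left₀ (sq_nonneg y) h5 3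
    have e : (y ^ 2) ^ 3 = y ^ 6 := by ring
    linarith
  · have d1 : y ^ 4 + y ^ 2 * t + t ^ 2 ≤ 3 * y ^ 4 := by nlinarith [sq_nonneg y]
    have d2 : y ^ 6 - t ^ 3 = (y ^ 2 - t) * (y ^ 4 + y ^ 2 * t + t ^ 2) := by ring
    have d3 : (y ^ 2 - t) * (y ^ 4 + y ^ 2 * t + t ^ 2) ≤ (2 * y * s) * (3 * y ^ 4) :=
      mul_le_mul t1 d1 (by positivity) (by positivity)
    have d4 : y ^ 5 ≤ (y + s) ^ 2 :=
      (pow_le_pow_of_le_one hy h (by norm_num)).trans (pow_le_pow_left₀ hy (by linarith) 2)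
    have d5 := mul_le_mul_of_nonneg_left d4 hs
    have d6 : (2 * y * s) * (3 * y ^ 4) = 6 * (s * y ^ 5) := by ring
    linarith

lemma cut_aux3 {y s a : ℝ} (hy : 0 ≤ y) (hs : 0 ≤ s) (ha : a ^ 2 ≤ 4 * y * s) (h : y ≤ 1) :
    (1 - y ^ 3) ^ 2 - 144 * s * (y + s) ^ 2 ≤ (1 - (y + s + a) ^ 3) * (1 - (y + s - a) ^ 3) := by
  have hq : 0 ≤ s * (y + s) ^ 2 := by positivity
  obtain ⟨t, ht⟩ : ∃ t, t = (y + s) ^ 2 - a ^ 2 := ⟨_, rfl⟩
  have e3 : (1 - (y + s + a) ^ 3) * (1 - (y + s - a) ^ 3) =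
      1 - 2 * (y + s) ^ 3 - 6 * ((y + s) * a ^ 2) + t ^ 3 := by rw [ht]; ring
  have t0 : 0 ≤ t := by nlinarith [sq_nonneg (y - s)]
  have t1 : y ^ 2 - t ≤ 2 * y * s := by nlinarith [sq_nonneg s]
  have c1 : (y + s) ^ 3 - y ^ 3 ≤ 3 * (s * (y + s) ^ 2) := by
    nlinarith [mul_nonneg (mul_nonneg hs hs) hy, mul_nonneg (mul_nonneg hs hs) hs]
  have c2 : (y + s) * a ^ 2 ≤ 4 * (s * (y + s) ^ 2) := by
    have := mul_le_mul_of_nonneg_left ha (by positivity : 0 ≤ y + s)
    nlinarith [mul_nonneg (mul_nonneg hs hs) (by positivity : 0 ≤ y + s)]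
  have c3 := cut_aux2 hy hs h t0 t1
  have e4 : (1 - y ^ 3) ^ 2 - 144 * s * (y + s) ^ 2 =
      1 - 2 * y ^ 3 + y ^ 6 - 144 * (s * (y + s) ^ 2) := by ring
  rw [e3, e4]
  linarith

lemma cut_mul_ge {y s a : ℝ} (hy : 0 ≤ y) (hs : 0 ≤ s) (ha : a ^ 2 ≤ 4 * y * s) :
    cut y ^ 2 - 144 * s * (y + s) ^ 2 ≤ cut (y + s + a) * cut (y + s - a) := by
  have hp : 0 ≤ cut (y + s + a) * cut (y + s - a) := mul_nonneg (cut_nonneg _) (cut_nonneg _)
  have hq : 0 ≤ 144 * s * (y + s) ^ 2 := by positivity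
  rcases le_total 1 y with h | h
  · have h3 : 1 ≤ y ^ 3 := one_le_pow₀ h
    have : cut y = 0 := max_eq_left (by linarith)
    rw [this]
    linarith
  have h3 : y ^ 3 ≤ 1 := pow_le_one₀ hy h
  have hc : cut y = 1 - y ^ 3 := max_eq_right (by linarith)
  have haS : |a| ≤ y + s := abs_le_of_sq_le_sq' (by nlinarith [sq_nonneg (y - s)])
    (by positivity) |> abs_le.2
  rw [hc]
  rcases le_total 1 (y + s + |a|) with h1 | h1
  · linarith [cut_aux1 hy hs ha h haS h1]
  · have b1 := le_abs_self a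
    have b2 := neg_abs_le a
    have e1 : cut (y + s + a) = 1 - (y + s + a) ^ 3 :=
      max_eq_right (by have := pow_le_one₀ (n := 3) (by linarith : 0 ≤ y + s + a) (by linarith)
                       linarith)
    have e2 : cut (y + s - a) = 1 - (y + s - a) ^ 3 :=
      max_eq_right (by have := pow_le_one₀ (n := 3) (by linarith : 0 ≤ y + s - a) (by linarith)
                       linarith)
    rw [e1, e2]
    exact cut_aux3 hy hs ha h

open Classical in
lemma prod_ge_sub {β : Type} (s : Finset β) (u w e : β → ℝ) (hu : ∀ b, 0 ≤ u b)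
    (hw : ∀ b, 0 ≤ w b) (he : ∀ b, 0 ≤ e b) (h : ∀ b, w b - e b ≤ u b) :
    ∏ b ∈ s, w b - ∑ b ∈ s, e b * ∏ b' ∈ s.erase b, w b' ≤ ∏ b ∈ s, u b := by
  have hv : ∀ b, max (w b - e b) 0 ≤ w b := fun b => max_le (by linarith [he b]) (hw b)
  refine le_trans ?_ (prod_le_prod (f := fun b => max (w b - e b) 0)
    (fun b _ => le_max_right _ _) fun b _ => max_le (h b) (hu b))
  induction s using Finset.induction_on with
  | empty => simp
  | insert a s ha ih =>
    have e1 : ∑ b ∈ s, e b * ∏ b' ∈ (insert a s).erase b, w b' =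
        w a * ∑ b ∈ s, e b * ∏ b' ∈ s.erase b, w b' := by
      rw [mul_sum]
      refine sum_congr rfl fun b hb => ?_
      rw [erase_insert_of_ne (by rintro rfl; exact ha hb),
        prod_insert fun hm => ha (mem_of_mem_erase hm)]
      ring
    rw [prod_insert ha, prod_insert ha, sum_insert ha, erase_insert ha, e1]
    have h1 : ∏ b ∈ s, max (w b - e b) 0 ≤ ∏ b ∈ s, w b :=
      prod_le_prod (fun b _ => le_max_right _ _) fun b _ => hv b
    have h2 : 0 ≤ ∏ b ∈ s, w b := prod_nonneg fun b _ => hw b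
    have h3 := le_max_left (w a - e a) 0
    have h4 := le_max_right (w a - e a) 0
    have h5 := hv a
    generalize max (w a - e a) 0 = v at *
    generalize ∏ b ∈ s, max (w b - e b) 0 = V at *
    generalize ∏ b ∈ s, w b = W at *
    generalize ∑ b ∈ s, e b * ∏ b' ∈ s.erase b, w b' = T at *
    nlinarith [mul_le_mul h5 (by linarith : W - V ≤ T) (by linarith) (hw a),
      mul_le_mul_of_nonneg_right h3 h2]

/-- `nrm` is a convex function -/
lemma convexOn_nrm {ι K : Type} [Fintype ι] [Fintype K] (κ : ι → K → ℝ) :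
    ConvexOn ℝ Set.univ (nrm κ) := by
  refine ⟨convex_univ, fun x _ y _ a b ha hb hab => ?_⟩
  simp only [nrm, smul_eq_mul, mul_sum, ← sum_add_distrib]
  refine sum_le_sum fun i _ => ?_
  have e : ∑ k, κ i k * (a • x + b • y) k = a * ∑ k, κ i k * x k + b * ∑ k, κ i k * y k := by
    simp only [mul_sum, ← sum_add_distrib, Pi.add_apply, Pi.smul_apply, smul_eq_mul]
    exact sum_congr rfl fun k _ => by ring
  rw [e]
  obtain rfl : b = 1 - a := by linarith
  nlinarith [mul_nonneg (mul_nonneg ha hb) (sq_nonneg (∑ k, κ i k * x k - ∑ k, κ i k * y k))]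

lemma continuous_nrm {ι K : Type} [Fintype ι] [Fintype K] (κ : ι → K → ℝ) :
    Continuous (nrm κ) := by
  unfold nrm
  fun_prop

/-- expansion of `nrm` along a coordinate direction -/
lemma nrm_shift {ι K : Type} [Fintype ι] [Fintype K] [DecidableEq K] (κ : ι → K → ℝ)
    (t : K → ℝ) (k : K) (η : ℝ) :
    ∃ a, a ^ 2 ≤ 4 * nrm κ t * (η ^ 2 * cm κ k) ∧
      nrm κ (t + Pi.single k η) = nrm κ t + η ^ 2 * cm κ k + a ∧
      nrm κ (t - Pi.single k η) = nrm κ t + η ^ 2 * cm κ k - a := by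
  have e1 : ∀ i, ∑ k', κ i k' * (t + Pi.single k η : K → ℝ) k' =
      ∑ k', κ i k' * t k' + κ i k * η := fun i => by
    simp [mul_add, sum_add_distrib, Pi.single_apply]
  have e2 : ∀ i, ∑ k', κ i k' * (t - Pi.single k η : K → ℝ) k' =
      ∑ k', κ i k' * t k' - κ i k * η := fun i => by
    simp [mul_sub, sum_sub_distrib, Pi.single_apply]
  refine ⟨2 * η * ∑ i, (∑ k', κ i k' * t k') * κ i k, ?_, ?_, ?_⟩
  · have := sum_mul_sq_le_sq_mul_sq univ (fun i => ∑ k', κ i k' * t k') fun i => κ i k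
    unfold nrm cm
    nlinarith [mul_le_mul_of_nonneg_left this (sq_nonneg η)]
  · simp only [nrm, cm, e1]
    rw [mul_sum, mul_sum, ← sum_add_distrib, ← sum_add_distrib]
    exact sum_congr rfl fun i _ => by ring
  · simp only [nrm, cm, e2]
    rw [mul_sum, mul_sum, ← sum_add_distrib, ← sum_sub_distrib]
    exact sum_congr rfl fun i _ => by ring

/-- products of squared cut-offs of convex functions are quasi-concave -/
lemma convex_prod_cut {β E : Type} [AddCommGroup E] [Module ℝ E] (s : Finset β)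
    (F : β → E → ℝ) (hF : ∀ b, ConvexOn ℝ Set.univ (F b)) (h0 : ∀ b x, 0 ≤ F b x) {r : ℝ}
    (hr : 0 ≤ r) : Convex ℝ {x | r < ∏ b ∈ s, cut (F b x) ^ 2} := by
  intro x hx y hy a b ha hb hab
  simp only [Set.mem_ofPred_eq] at hx hy ⊢
  have pos : ∀ z, r < ∏ c ∈ s, cut (F c z) ^ 2 → ∀ c ∈ s, 0 < cut (F c z) := by
    intro z hz c hc
    refine (cut_nonneg _).lt_of_ne fun h0' => ?_
    rw [prod_eq_zero hc (by rw [← h0']; simp)] at hz
    linarith
  have val : ∀ u, 0 < cut u → cut u = 1 - u ^ 3 := fun u hu => by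
    rcases le_total 0 (1 - u ^ 3) with h | h
    · exact max_eq_right h
    · rw [cut, max_eq_left h] at hu
      exact (lt_irrefl _ hu).elim
  have key : ∀ c ∈ s, a * cut (F c x) + b * cut (F c y) ≤ cut (F c (a • x + b • y)) := by
    intro c hc
    rw [val _ (pos x hx c hc), val _ (pos y hy c hc)]
    refine le_trans ?_ (le_max_right _ _)
    have h1 := (hF c).2 (Set.mem_univ x) (Set.mem_univ y) ha hb hab
    have h2 := (convexOn_pow (𝕜 := ℝ) 3).2 (h0 c x) (h0 c y) ha hb hab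
    simp only [smul_eq_mul] at h1 h2
    have h3 := pow_le_pow_left₀ (h0 c _) h1 3
    nlinarith
  have posz : ∀ c ∈ s, 0 < cut (F c (a • x + b • y)) := fun c hc =>
    lt_of_lt_of_le (by
      have h1 := pos x hx c hc
      have h2 := pos y hy c hc
      rcases ha.eq_or_lt with h | h
      · have : b = 1 := by linarith
        rw [← h, this]; linarith
      · have := mul_pos h h1
        have := mul_nonneg hb h2.le
        linarith) (key c hc)
  have lg : ∀ z, (∀ c ∈ s, 0 < cut (F c z)) →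
      Real.log (∏ c ∈ s, cut (F c z) ^ 2) = 2 * ∑ c ∈ s, Real.log (cut (F c z)) := by
    intro z hz
    rw [Real.log_prod fun c hc => (pow_pos (hz c hc) 2).ne', mul_sum]
    exact sum_congr rfl fun c _ => by rw [Real.log_pow]; norm_num
  have h1 : a * Real.log (∏ c ∈ s, cut (F c x) ^ 2) + b * Real.log (∏ c ∈ s, cut (F c y) ^ 2) ≤
      Real.log (∏ c ∈ s, cut (F c (a • x + b • y)) ^ 2) := by
    rw [lg _ (pos x hx), lg _ (pos y hy), lg _ posz]
    have : a * ∑ c ∈ s, Real.log (cut (F c x)) + b * ∑ c ∈ s, Real.log (cut (F c y)) ≤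
        ∑ c ∈ s, Real.log (cut (F c (a • x + b • y))) := by
      rw [mul_sum, mul_sum, ← sum_add_distrib]
      refine sum_le_sum fun c hc => ?_
      have h2 := strictConcaveOn_log_Ioi.concaveOn.2 (pos x hx c hc) (pos y hy c hc) ha hb hab
      simp only [smul_eq_mul] at h2
      refine h2.trans (Real.log_le_log ?_ (key c hc))
      have := (convex_Ioi (0 : ℝ)) (pos x hx c hc) (pos y hy c hc) ha hb hab
      simpa using this
    linarith
  have hz : 0 < ∏ c ∈ s, cut (F c (a • x + b • y)) ^ 2 :=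
    prod_pos fun c hc => pow_pos (posz c hc) 2
  generalize ∏ c ∈ s, cut (F c (a • x + b • y)) ^ 2 = Z at *
  generalize ∏ c ∈ s, cut (F c x) ^ 2 = X at *
  generalize ∏ c ∈ s, cut (F c y) ^ 2 = Y at *
  have hm : r < min X Y := lt_min hx hy
  have hm0 : 0 < min X Y := hr.trans_lt hm
  refine hm.trans_le ((Real.log_le_log_iff hm0 hz).1 (le_trans ?_ h1))
  have h2 := mul_le_mul_of_nonneg_left (Real.log_le_log hm0 (min_le_left X Y)) ha
  have h3 := mul_le_mul_of_nonneg_left (Real.log_le_log hm0 (min_le_right X Y)) hb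
  have h4 : Real.log (min X Y) = a * Real.log (min X Y) + b * Real.log (min X Y) := by
    rw [← add_mul, hab, one_mul]
  linarith

end Vale.Agent.P262
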