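import Vale.Agent.P262.Basic

/-! Geometric decomposition of one growing row (PROOF.md section DEC). -/

namespace Vale.Agent.P262

open Finset

/-- dyadic scale of a real number -/
noncomputable def dG (u : ℝ) : ℤ := Int.log 2 u

/-- index of the dyadic cell of depth `s` below scale `g` -/
noncomputable def dF (g : ℤ) (s : ℕ) (u : ℝ) : ℤ := ⌊u / 2 ^ (g - s)⌋

open Classical in
/-- key of a level with remaining weight `y` -/
noncomputable def dKy (f : ℕ) (y : ℝ) : ℤ × ℤ × ℤ :=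
  if y = 0 then (0, 0, 0) else if f % 2 = 0 then (1, dG y, 0)
  else (1, dG y, dF (dG y) (f / 2 + 1) y)

open Classical in
/-- key of a column occupying the interval from `z'` to `z` -/
noncomputable def dKe (f : ℕ) (z z' : ℝ) : ℤ × ℤ × ℤ :=
  if f % 2 = 0 then
    (if z' < 2 ^ (dG z + (f / 2 : ℕ)) then (1, dG z + (f / 2 : ℕ), 0) else (2, 0, 0))
  else (if 0 < z' ∧ dF (dG z') (f / 2 + 1) z' % 2 = 0 then
    (1, dG z', dF (dG z') (f / 2 + 1) z' + 1) else (2, 0, 0))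

lemma dG_le {u : ℝ} (hu : 0 < u) : (2 : ℝ) ^ dG u ≤ u := by
  simpa [dG] using Int.zpow_log_le_self (b := 2) (by norm_num) hu

lemma lt_dG (u : ℝ) : u < (2 : ℝ) ^ (dG u + 1) := by
  simpa [dG] using Int.lt_zpow_succ_log_self (b := 2) (by norm_num) u

lemma dG_mono {u v : ℝ} (hu : 0 < u) (h : u ≤ v) : dG u ≤ dG v := Int.log_mono_right hu h

lemma le_dG {u : ℝ} {g : ℤ} (h : (2 : ℝ) ^ g ≤ u) : g ≤ dG u := by
  have hu : 0 < u := lt_of_lt_of_le (by positivity) h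
  exact (Int.zpow_le_iff_le_log (b := 2) (by norm_num) hu).1 (by simpa using h)

lemma dF_mono (g : ℤ) (s : ℕ) {u v : ℝ} (h : u ≤ v) : dF g s u ≤ dF g s v :=
  Int.floor_mono (div_le_div_of_nonneg_right h (by positivity))

lemma dF_succ (g : ℤ) (s : ℕ) (u : ℝ) : dF g s u = dF g (s + 1) u / 2 := by
  unfold dF
  have h := Int.floor_div_natCast (u / 2 ^ (g - (s + 1 : ℕ))) 2
  simp only [Nat.cast_ofNat] at h
  rw [← h, div_div]
  congr 2
  rw [← zpow_add_one₀ (by norm_num)]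
  congr 1
  push_cast
  ring

lemma dF_zero {g : ℤ} {u : ℝ} (h1 : (2 : ℝ) ^ g ≤ u) (h2 : u < 2 ^ (g + 1)) : dF g 0 u = 1 := by
  unfold dF
  have hp : (0 : ℝ) < 2 ^ g := by positivity
  rw [zpow_add_one₀ (by norm_num)] at h2
  rw [Int.floor_eq_iff]
  simp only [Nat.cast_zero, sub_zero, Int.cast_one]
  rw [le_div_iff₀ hp, div_lt_iff₀ hp]
  constructor <;> linarith

lemma dF_sep (g : ℤ) {u v : ℝ} (h : u < v) : ∃ s, dF g s u ≠ dF g s v := by
  have hp : (0 : ℝ) < 2 ^ g := by positivity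
  obtain ⟨s, hs⟩ := exists_pow_lt_of_lt_one (div_pos (sub_pos.2 h) hp)
    (show (1 / 2 : ℝ) < 1 by norm_num)
  refine ⟨s, fun he => ?_⟩
  have h1 := Int.abs_sub_lt_one_of_floor_eq_floor he.symm
  have hq : (0 : ℝ) < 2 ^ (g - s) := by positivity
  rw [← sub_div, abs_of_pos (div_pos (sub_pos.2 h) hq), div_lt_one hq,
    zpow_sub₀ (by norm_num), zpow_natCast] at h1
  rw [lt_div_iff₀ hp, one_div_pow] at hs
  have : (1 : ℝ) / 2 ^ s * 2 ^ g = 2 ^ g / 2 ^ s := by ring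
  linarith

lemma dF_unique {g : ℤ} {u v : ℝ} (h : u < v) (h0 : dF g 0 u = dF g 0 v) :
    ∃! s, dF g (s + 1) u % 2 = 0 ∧ dF g (s + 1) u + 1 = dF g (s + 1) v := by
  classical
  have key : ∀ s, (dF g (s + 1) u % 2 = 0 ∧ dF g (s + 1) u + 1 = dF g (s + 1) v) ↔
      (dF g s u = dF g s v ∧ dF g (s + 1) u ≠ dF g (s + 1) v) := fun s => by
    have := dF_mono g (s + 1) h.le
    rw [dF_succ g s u, dF_succ g s v]
    omega
  have down : ∀ s s', s ≤ s' → dF g s' u = dF g s' v → dF g s u = dF g s v := by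
    intro s s' hs
    induction hs with
    | refl => exact id
    | step _ ih =>
      intro he
      apply ih
      rw [dF_succ g _ u, dF_succ g _ v, he]
  have hex := dF_sep g h
  have h1 := Nat.find_spec hex
  have h2 : Nat.find hex ≠ 0 := fun h3 => by rw [h3] at h1; exact h1 h0
  obtain ⟨s, hs⟩ := Nat.exists_eq_succ_of_ne_zero h2
  have h4 : dF g s u = dF g s v := not_not.1 (Nat.find_min hex (by omega))
  rw [hs] at h1
  refine ⟨s, (key s).2 ⟨h4, h1⟩, fun s' hs' => ?_⟩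
  obtain ⟨h5, h6⟩ := (key s').1 hs'
  by_contra hne
  rcases lt_or_gt_of_ne hne with hl | hl
  · exact h6 (down _ _ hl h4)
  · exact h1 (down _ _ hl h5)

lemma dK_iff (f : ℕ) (z z' y : ℝ) : dKe f z z' = dKy f y ↔ y ≠ 0 ∧
    ((f % 2 = 0 ∧ z' < 2 ^ dG y ∧ dG z + (f / 2 : ℕ) = dG y) ∨
      (f % 2 = 1 ∧ 0 < z' ∧ dG z' = dG y ∧ dF (dG y) (f / 2 + 1) z' % 2 = 0 ∧
        dF (dG y) (f / 2 + 1) z' + 1 = dF (dG y) (f / 2 + 1) y)) := by
  unfold dKe dKy
  by_cases hy : y = 0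
  · rw [if_pos hy]
    refine ⟨fun h => ?_, fun h => absurd hy h.1⟩
    split_ifs at h <;> simp at h
  rw [if_neg hy]
  by_cases hf : f % 2 = 0
  · rw [if_pos hf, if_pos hf]
    by_cases h : z' < 2 ^ (dG z + (f / 2 : ℕ))
    · rw [if_pos h, Prod.mk.injEq, Prod.mk.injEq]
      constructor
      · rintro ⟨-, he, -⟩
        exact ⟨hy, Or.inl ⟨hf, he ▸ h, he⟩⟩
      · rintro ⟨-, he | he⟩
        · exact ⟨rfl, he.2.2, rfl⟩
        · omega
    · rw [if_neg h, Prod.mk.injEq]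
      refine ⟨fun he => absurd he.1 (by norm_num), ?_⟩
      rintro ⟨-, he | he⟩
      · exact absurd (he.2.2 ▸ he.2.1) h
      · omega
  · have hf' : f % 2 = 1 := by omega
    rw [if_neg hf, if_neg hf]
    by_cases h : 0 < z' ∧ dF (dG z') (f / 2 + 1) z' % 2 = 0
    · rw [if_pos h, Prod.mk.injEq, Prod.mk.injEq]
      constructor
      · rintro ⟨-, h1, h2⟩
        rw [h1] at h h2
        exact ⟨hy, Or.inr ⟨hf', h.1, h1, h.2, h2⟩⟩
      · rintro ⟨-, h1 | h1⟩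
        · exact absurd h1.1 hf
        · exact ⟨rfl, h1.2.2.1, by rw [h1.2.2.1]; exact h1.2.2.2.2⟩
    · rw [if_neg h, Prod.mk.injEq]
      refine ⟨fun he => absurd he.1 (by norm_num), ?_⟩
      rintro ⟨-, h1 | h1⟩
      · exact absurd h1.1 hf
      · exact absurd ⟨h1.2.1, by rw [h1.2.2.1]; exact h1.2.2.2.1⟩ h

lemma dKy_convex (f : ℕ) {y1 y2 y3 : ℝ} (h3 : 0 ≤ y3) (h23 : y3 ≤ y2) (h12 : y2 ≤ y1)
    (h : dKy f y1 = dKy f y3) : dKy f y2 = dKy f y1 := by
  by_cases hy1 : y1 = 0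
  · have : y2 = y1 := by linarith
    rw [this]
  have hy3 : y3 ≠ 0 := by
    intro h0
    unfold dKy at h
    rw [if_neg hy1, if_pos h0] at h
    split_ifs at h <;> simp at h
  have hp3 : 0 < y3 := lt_of_le_of_ne h3 (Ne.symm hy3)
  have hy2 : y2 ≠ 0 := by linarith [hp3.trans_le h23] |> fun (h : 0 < y2) => h.ne'
  have g1 := dG_mono hp3 h23
  have g2 := dG_mono (hp3.trans_le h23) h12
  unfold dKy at h ⊢
  rw [if_neg hy1, if_neg hy3] at h
  rw [if_neg hy1, if_neg hy2]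
  by_cases hf : f % 2 = 0
  · simp only [if_pos hf, Prod.mk.injEq, true_and, and_true] at h ⊢
    omega
  · simp only [if_neg hf, Prod.mk.injEq, true_and] at h ⊢
    obtain ⟨h4, h5⟩ := h
    have h6 : dG y2 = dG y1 := by omega
    rw [h6]
    rw [← h4] at h5
    have f1 := dF_mono (dG y1) (f / 2 + 1) h23
    have f2 := dF_mono (dG y1) (f / 2 + 1) h12
    exact ⟨rfl, by omega⟩

lemma dK_unique {z z' y : ℝ} (h0 : 0 ≤ z') (h1 : z' < z) (h2 : z ≤ y) :
    ∃! f, dKe f z z' = dKy f y := by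
  have hy : 0 < y := by linarith
  simp only [dK_iff, ne_eq, hy.ne', not_false_iff, true_and]
  by_cases h : z' < 2 ^ dG y
  · have h3 := dG_mono (h0.trans_lt h1) h2
    refine ⟨2 * (dG y - dG z).toNat, Or.inl ⟨by omega, h, by omega⟩, ?_⟩
    rintro f (hf | hf)
    · omega
    · have := dG_le hf.2.1
      rw [hf.2.2.1] at this
      linarith
  · have h3 : (2 : ℝ) ^ dG y ≤ z' := not_lt.1 h
    have hz : 0 < z' := lt_of_lt_of_le (by positivity) h3
    have h4 : dG z' = dG y := le_antisymm (dG_mono hz (by linarith)) (le_dG h3)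
    have h5 := lt_dG y
    obtain ⟨s, hs, hu⟩ := dF_unique (g := dG y) (h1.trans_le h2)
      (by rw [dF_zero h3 (by linarith), dF_zero (dG_le hy) h5])
    refine ⟨2 * s + 1, Or.inr ⟨by omega, hz, h4, ?_⟩, ?_⟩
    · have : (2 * s + 1) / 2 = s := by omega
      rw [this]
      exact hs
    · rintro f (hf | hf)
      · exact absurd hf.2.1 h
      · have := hu (f / 2) hf.2.2.2
        omega

lemma dK_lt {f : ℕ} {z z' y : ℝ} (hy : 0 ≤ y) (h : dKe f z z' = dKy f y) : z' < y := by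
  obtain ⟨h0, h1 | h1⟩ := (dK_iff f z z' y).1 h
  · exact h1.2.1.trans_le (dG_le (lt_of_le_of_ne hy (Ne.symm h0)))
  · by_contra hn
    have := dF_mono (dG y) (f / 2 + 1) (not_lt.1 hn)
    omega

lemma two_zpow_sub_le {y : ℝ} (hy : 0 < y) (h : ℕ) :
    (2 : ℝ) ^ (dG y - h) ≤ (9 / 16) ^ h * y := by
  rw [zpow_sub₀ (by norm_num), zpow_natCast, div_eq_mul_inv, mul_comm, ← inv_pow]
  exact mul_le_mul (pow_le_pow_left₀ (by norm_num) (by norm_num) h) (dG_le hy)
    (by positivity) (by positivity)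

lemma dK_even {f : ℕ} {z z' y : ℝ} (hy : 0 ≤ y) (hf : f % 2 = 0) (h : dKe f z z' = dKy f y) :
    z < 4 * (3 / 4) ^ f * y := by
  obtain ⟨h0, h1 | h1⟩ := (dK_iff f z z' y).1 h
  · have hp : 0 < y := lt_of_le_of_ne hy (Ne.symm h0)
    have h2 := lt_dG z
    have h3 : dG z = dG y - (f / 2 : ℕ) := by omega
    rw [zpow_add_one₀ (by norm_num), h3] at h2
    have h4 := two_zpow_sub_le hp (f / 2)
    have h5 : (3 / 4 : ℝ) ^ f = (9 / 16) ^ (f / 2) := by
      conv_lhs => rw [show f = 2 * (f / 2) by omega, pow_mul]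
      norm_num
    have h6 : 0 ≤ (9 / 16 : ℝ) ^ (f / 2) * y := by positivity
    rw [h5]
    linarith
  · omega

lemma dK_odd {f : ℕ} {z z' y : ℝ} (hy : 0 ≤ y) (hf : f % 2 = 1) (h : dKe f z z' = dKy f y) :
    y - z' ≤ 4 * (3 / 4) ^ f * y := by
  obtain ⟨h0, h1 | h1⟩ := (dK_iff f z z' y).1 h
  · omega
  · have hp : 0 < y := lt_of_le_of_ne hy (Ne.symm h0)
    have h2 := h1.2.2.2.2
    unfold dF at h2
    have hq : (0 : ℝ) < 2 ^ (dG y - (f / 2 + 1 : ℕ)) := by positivity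
    have h3 := Int.floor_le (z' / 2 ^ (dG y - (f / 2 + 1 : ℕ)))
    have h4 := Int.lt_floor_add_one (y / 2 ^ (dG y - (f / 2 + 1 : ℕ)))
    rw [← h2] at h4
    rw [Int.cast_add, Int.cast_one] at h4
    have h5 : (y - z') / 2 ^ (dG y - (f / 2 + 1 : ℕ)) ≤ 2 := by
      rw [sub_div]
      linarith
    rw [div_le_iff₀ hq] at h5
    have h6 := two_zpow_sub_le hp (f / 2 + 1)
    have h7 : (3 / 4 : ℝ) ^ f = 3 / 4 * (9 / 16) ^ (f / 2) := by
      conv_lhs => rw [show f = 2 * (f / 2) + 1 by omega, pow_succ, pow_mul]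
      norm_num [mul_comm]
    have h8 : 0 ≤ (9 / 16 : ℝ) ^ (f / 2) * y := by positivity
    rw [pow_succ] at h6
    rw [h7]
    linarith

theorem dec {K : Type} [Fintype K] (w : K → ℝ) (hw : ∀ k, 0 ≤ w k) (lv : K → ℕ) :
    ∃ (ky : ℕ → ℕ → ℤ × ℤ × ℤ) (ke : ℕ → K → ℤ × ℤ × ℤ),
      (∀ f p1 p2 p3, p1 ≤ p2 → p2 ≤ p3 → ky f p1 = ky f p3 → ky f p2 = ky f p1) ∧
      (∀ k p, w k ≠ 0 → p < lv k → ∃! f, ke f k = ky f p) ∧
      (∀ k p f, w k ≠ 0 → ke f k = ky f p → p < lv k) ∧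
      ∀ f p, ∑ k with ke f k = ky f p, w k ≤ 4 * (3 / 4) ^ f * ∑ k with p < lv k, w k := by
  classical
  obtain ⟨y, hy⟩ : ∃ y : ℕ → ℝ, ∀ p, y p = ∑ k with p < lv k, w k := ⟨_, fun _ => rfl⟩
  obtain ⟨z, hz⟩ : ∃ z : K → ℝ, ∀ k, z k = ∑ k' with lv k ≤ lv k', w k' := ⟨_, fun _ => rfl⟩
  have hsub : ∀ s t : Finset K, s ⊆ t → ∑ k ∈ s, w k ≤ ∑ k ∈ t, w k := fun s t h =>
    Finset.sum_le_sum_of_subset_of_nonneg h fun k _ _ => hw k
  have hy0 : ∀ p, 0 ≤ y p := fun p => by rw [hy]; exact Finset.sum_nonneg fun k _ => hw k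
  have hya : ∀ p p', p ≤ p' → y p' ≤ y p := fun p p' h => by
    rw [hy, hy]
    exact hsub _ _ fun k hk => by simp only [mem_filter, mem_univ, true_and] at hk ⊢; omega
  have hzy : ∀ k p, p < lv k → z k ≤ y p := fun k p h => by
    rw [hy, hz]
    exact hsub _ _ fun k hk => by simp only [mem_filter, mem_univ, true_and] at hk ⊢; omega
  have hzz : ∀ k, w k ≠ 0 → y (lv k) < z k := fun k h => by
    rw [hy, hz]
    exact Finset.sum_lt_sum_of_subset (i := k)
      (fun k hk => by simp only [mem_filter, mem_univ, true_and] at hk ⊢; omega)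
      (by simp) (by simp) (lt_of_le_of_ne (hw k) (Ne.symm h)) (fun k _ _ => hw k)
  have hlt : ∀ k p f, dKe f (z k) (y (lv k)) = dKy f (y p) → p < lv k := fun k p f h => by
    by_contra hn
    exact absurd (dK_lt (hy0 p) h) (not_lt.2 (hya _ _ (not_lt.1 hn)))
  refine ⟨fun f p => dKy f (y p), fun f k => dKe f (z k) (y (lv k)),
    fun f p1 p2 p3 h12 h23 h => dKy_convex f (hy0 p3) (hya _ _ h23) (hya _ _ h12) h,
    fun k p hk hp => dK_unique (hy0 _) (hzz k hk) (hzy k p hp),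
    fun k p f _ h => hlt k p f h, fun f p => ?_⟩
  rw [← hy]
  rcases (univ.filter fun k => dKe f (z k) (y (lv k)) = dKy f (y p)).eq_empty_or_nonempty
    with he | hne
  · rw [he, Finset.sum_empty]
    have := hy0 p
    positivity
  rcases Nat.mod_two_eq_zero_or_one f with hf | hf
  · obtain ⟨k0, hk0, hmin⟩ := Finset.exists_min_image _ lv hne
    refine le_trans ?_ (dK_even (hy0 p) hf (mem_filter.1 hk0).2).le
    rw [hz]
    exact hsub _ _ fun k hk => mem_filter.2 ⟨mem_univ _, hmin k hk⟩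
  · obtain ⟨k0, hk0, hmax⟩ := Finset.exists_max_image _ lv hne
    refine le_trans ?_ (dK_odd (hy0 p) hf (mem_filter.1 hk0).2)
    rw [le_sub_iff_add_le, hy (lv k0), ← Finset.sum_union, hy p]
    · refine hsub _ _ fun k hk => mem_filter.2 ⟨mem_univ _, ?_⟩
      rcases mem_union.1 hk with h | h
      · exact hlt k p f (mem_filter.1 h).2
      · exact (hlt k0 p f (mem_filter.1 hk0).2).trans (mem_filter.1 h).2
    · exact Finset.disjoint_left.2 fun k h h' => absurd (hmax k h) (not_le.2 (mem_filter.1 h').2)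

end Vale.Agent.P262
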