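import Mathlib

/-! Definitions for the proof of the prefix-sum vector balancing bound (P262). -/

namespace Vale.Agent.P262

open Finset

noncomputable section

variable {ι K : Type}

/-- total squared mass of a matrix -/
def mass [Fintype ι] [Fintype K] (κ : ι → K → ℝ) : ℝ := ∑ i, ∑ k, κ i k ^ 2

/-- squared mass of one column -/
def cm [Fintype ι] (κ : ι → K → ℝ) (k : K) : ℝ := ∑ i, κ i k ^ 2

/-- squared norm of the matrix applied to `t` -/
def nrm [Fintype ι] [Fintype K] (κ : ι → K → ℝ) (t : K → ℝ) : ℝ := ∑ i, (∑ k, κ i k * t k) ^ 2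

open Classical in
/-- restriction of a matrix to a set of entries -/
def res (κ : ι → K → ℝ) (P : ι → K → Prop) : ι → K → ℝ := fun i k => if P i k then κ i k else 0

/-- a quadratic constraint `nrm A t ≤ ρ` -/
structure Rec (K : Type) where
  n : ℕ
  A : Fin n → K → ℝ
  ρ : ℝ

/-- `S` can be enforced by finitely many valid quadratic constraints of total cost at most `c` -/
def Good [Fintype K] (c : K → ℝ) (S : Set (K → ℝ)) : Prop :=
  ∃ (β : Type) (_ : Fintype β) (r : β → Rec K),
    (∀ b, 0 < (r b).ρ ∧ mass (r b).A ≤ (r b).ρ) ∧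
    (∀ k, ∑ b, cm (r b).A k * mass (r b).A ^ 2 / (r b).ρ ^ 3 ≤ c k) ∧
    ∀ t, (∀ b, nrm (r b).A t ≤ (r b).ρ) → t ∈ S

/-- budget of a piece of mass `m` with slack `W` -/
def gg (W m : ℝ) : ℝ := m + W * √m

/-- telescoping cost factor -/
def hc (W l : ℝ) : ℝ := l / (W ^ 2 * (W + l))

/-- a nested sequence of monotone coarsenings of time -/
structure Nest (π : ℕ → ℕ → ℕ) : Prop where
  mono : ∀ p, Monotone (π p)
  coarse : ∀ p a b, π p a = π p b → π (p + 1) a = π (p + 1) b

/-- `p` is the last level separating `a` from `b` -/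
def Lev (π : ℕ → ℕ → ℕ) (p a b : ℕ) : Prop := π p a < π p b ∧ π (p + 1) a = π (p + 1) b

/-- the entries selected by `P` are dominated by the product of `a` and `bb` -/
structure Dom (κ : ι → K → ℝ) (P : ι → K → Prop) (a : ι → ℝ) (bb : K → ℝ) : Prop where
  ha : ∀ i, 0 ≤ a i
  hb : ∀ k, 0 ≤ bb k
  le : ∀ i k, P i k → κ i k ^ 2 ≤ a i * bb k

/-- cut-off profile -/
def cut (y : ℝ) : ℝ := max 0 (1 - y ^ 3)

/-- unnormalised Gaussian density -/
def gd {n : ℕ} (x : Fin n → ℝ) : ℝ := Real.exp (-(∑ k, x k ^ 2) / 2)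

end

end Vale.Agent.P262
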