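import Vale.Agent.P262.Cut
import Vale.Agent.P262.Anderson

/-! The density adapted to a family of records (PROOF.md section DENS). -/

namespace Vale.Agent.P262

open Finset MeasureTheory

lemma gd_pos {n : ℕ} (x : Fin n → ℝ) : 0 < gd x := Real.exp_pos _

lemma continuous_gd {n : ℕ} : Continuous (gd : (Fin n → ℝ) → ℝ) := by
  unfold gd; fun_prop

lemma gd_neg {n : ℕ} (x : Fin n → ℝ) : gd (-x) = gd x := by simp [gd]

lemma integrable_mul_gd {n : ℕ} {h : (Fin n → ℝ) → ℝ} (hcont : Continuous h) (h0 : ∀ x, 0 ≤ h x)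
    (h1 : ∀ x, h x ≤ 1) : Integrable fun x => h x * gd x :=
  (integrable_gd n).bdd_mul (c := 1) hcont.aestronglyMeasurable
    (Filter.Eventually.of_forall fun x => by rw [Real.norm_of_nonneg (h0 x)]; exact h1 x)

lemma nrm_sq_le {ι : Type} [Fintype ι] {n : ℕ} (κ : ι → Fin n → ℝ) (x : Fin n → ℝ) :
    nrm κ x ^ 2 ≤ mass κ * ∑ i, (∑ k, κ i k * x k) ^ 4 / ∑ k, κ i k ^ 2 := by
  refine Finset.sum_sq_le_sum_mul_sum_of_sq_le_mul univ (fun i _ => by positivity)
    (fun i _ => by positivity) (fun i _ => ?_)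
  by_cases h : ∑ k, κ i k ^ 2 = 0
  · have : ∀ k, κ i k = 0 := fun k => by
      have := (Finset.sum_eq_zero_iff_of_nonneg (fun k _ => sq_nonneg (κ i k))).1 h k (mem_univ k)
      exact pow_eq_zero_iff (two_ne_zero) |>.1 this
    simp [this]
  · apply le_of_eq
    field_simp

lemma second_moment {ι : Type} [Fintype ι] {n : ℕ} (κ : ι → Fin n → ℝ)
    (h : (Fin n → ℝ) → ℝ) (hcont : Continuous h) (h0 : ∀ x, 0 ≤ h x)
    (h1 : ∀ x, h x ≤ 1) (heven : ∀ x, h (-x) = h x)
    (hq : ∀ s : ℝ, 0 ≤ s → Convex ℝ {x | s < h x}) :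
    (Integrable fun x => nrm κ x ^ 2 * (h x * gd x)) ∧
      ∫ x, nrm κ x ^ 2 * (h x * gd x) ≤ 40 * mass κ ^ 2 * ∫ x, h x * gd x := by
  have hi : ∀ i, Integrable fun x : Fin n → ℝ => (∑ k, κ i k * x k) ^ 4 * (h x * gd x) := fun i =>
    ((integrable_pow_four_mul_gd (κ i)).bdd_mul (c := 1) hcont.aestronglyMeasurable
      (Filter.Eventually.of_forall fun x => by
        rw [Real.norm_of_nonneg (h0 x)]; exact h1 x)).congr
      (Filter.Eventually.of_forall fun x => by simp only; ring)
  have hB : Integrable fun x : Fin n → ℝ =>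
      mass κ * ∑ i, (∑ k, κ i k * x k) ^ 4 * (h x * gd x) / ∑ k, κ i k ^ 2 :=
    (integrable_finsetSum _ fun i _ => (hi i).div_const _).const_mul _
  have hle : ∀ x, nrm κ x ^ 2 * (h x * gd x) ≤
      mass κ * ∑ i, (∑ k, κ i k * x k) ^ 4 * (h x * gd x) / ∑ k, κ i k ^ 2 := fun x => by
    have := mul_le_mul_of_nonneg_right (nrm_sq_le κ x) (mul_nonneg (h0 x) (gd_pos x).le)
    refine this.trans (le_of_eq ?_)
    rw [mul_assoc, Finset.sum_mul]
    congr 1
    exact Finset.sum_congr rfl fun i _ => by ring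
  have hI : Integrable fun x => nrm κ x ^ 2 * (h x * gd x) := by
    refine hB.mono' ?_ (Filter.Eventually.of_forall fun x => ?_)
    · exact (((continuous_nrm κ).pow 2).mul (hcont.mul continuous_gd)).aestronglyMeasurable
    · rw [Real.norm_of_nonneg (mul_nonneg (sq_nonneg _) (mul_nonneg (h0 x) (gd_pos x).le))]
      exact hle x
  refine ⟨hI, (integral_mono hI hB hle).trans ?_⟩
  rw [integral_const_mul, integral_finsetSum _ fun i _ => (hi i).div_const _]
  have hZ : 0 ≤ ∫ x, h x * gd x := integral_nonneg fun x => mul_nonneg (h0 x) (gd_pos x).le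
  have : ∀ i ∈ univ, ∫ x : Fin n → ℝ, (∑ k, κ i k * x k) ^ 4 * (h x * gd x) / ∑ k, κ i k ^ 2 ≤
      (∑ k, κ i k ^ 2) * (40 * ∫ x, h x * gd x) := fun i _ => by
    rw [integral_div]
    have h2 := moment_four_le h hcont h0 h1 heven hq (κ i)
    have h3 : 0 ≤ ∑ k, κ i k ^ 2 := by positivity
    rcases h3.eq_or_lt with h4 | h4
    · rw [← h4]; simp
    · rw [div_le_iff₀ h4]
      nlinarith
  have h5 := Finset.sum_le_sum this
  rw [← Finset.sum_mul] at h5
  have h6 := mul_le_mul_of_nonneg_left h5 (mass_nonneg κ)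
  refine h6.trans (le_of_eq ?_)
  unfold mass
  ring

section
variable {N : ℕ} {β : Type} (r : β → Rec (Fin N))

/-- normalised value of a record -/
noncomputable def yy (b : β) (x : Fin N → ℝ) : ℝ := nrm (r b).A x / (32 * (r b).ρ)

/-- product of squared cut-offs -/
noncomputable def HH (s : Finset β) (x : Fin N → ℝ) : ℝ := ∏ b ∈ s, cut (yy r b x) ^ 2

variable {r} (hr : ∀ b, 0 < (r b).ρ ∧ mass (r b).A ≤ (r b).ρ)
include hr

lemma yy_nonneg (b : β) (x : Fin N → ℝ) : 0 ≤ yy r b x :=
  div_nonneg (nrm_nonneg _ _) (by have := (hr b).1; positivity)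

omit hr in
lemma continuous_yy (b : β) : Continuous (yy r b) := (continuous_nrm _).div_const _

omit hr in
lemma yy_neg (b : β) (x : Fin N → ℝ) : yy r b (-x) = yy r b x := by
  have := nrm_smul (r b).A (-1) x
  simp only [neg_smul, one_smul] at this
  simp [yy, this]

omit hr in
lemma continuous_HH (s : Finset β) : Continuous (HH r s) :=
  continuous_finsetProd _ fun b _ => (continuous_cut.comp (continuous_yy b)).pow 2

omit hr in
lemma HH_nonneg (s : Finset β) (x : Fin N → ℝ) : 0 ≤ HH r s x :=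
  Finset.prod_nonneg fun _ _ => sq_nonneg _

lemma HH_le_one (s : Finset β) (x : Fin N → ℝ) : HH r s x ≤ 1 :=
  Finset.prod_le_one (fun _ _ => sq_nonneg _) fun b _ =>
    pow_le_one₀ (cut_nonneg _) (cut_le_one (yy_nonneg hr b x))

omit hr in
lemma HH_neg (s : Finset β) (x : Fin N → ℝ) : HH r s (-x) = HH r s x := by
  simp [HH, yy_neg]

lemma HH_convex (s : Finset β) (u : ℝ) (hu : 0 ≤ u) : Convex ℝ {x | u < HH r s x} := by
  refine convex_prod_cut s (yy r) (fun b => ?_) (yy_nonneg hr) hu
  have h0 : 0 ≤ (32 * (r b).ρ)⁻¹ := by have := (hr b).1; positivity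
  have := (convexOn_nrm (r b).A).smul h0
  refine this.congr fun x _ => ?_
  simp [yy, div_eq_inv_mul]

lemma integrable_HH (s : Finset β) : Integrable fun x => HH r s x * gd x :=
  integrable_mul_gd (continuous_HH s) (HH_nonneg s) (HH_le_one hr s)

lemma yy_moment (s : Finset β) (b : β) :
    (Integrable fun x => yy r b x ^ 2 * (HH r s x * gd x)) ∧
      ∫ x, yy r b x ^ 2 * (HH r s x * gd x) ≤
        40 * (mass (r b).A / (32 * (r b).ρ)) ^ 2 * ∫ x, HH r s x * gd x := by
  obtain ⟨h1, h2⟩ := second_moment (r b).A (HH r s) (continuous_HH s) (HH_nonneg s)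
    (HH_le_one hr s) (HH_neg s) (HH_convex hr s)
  have he : (fun x => yy r b x ^ 2 * (HH r s x * gd x)) =
      fun x => nrm (r b).A x ^ 2 * (HH r s x * gd x) / (32 * (r b).ρ) ^ 2 := by
    funext x; simp only [yy]; ring
  rw [he, integral_div]
  refine ⟨h1.div_const _, (div_le_div_of_nonneg_right h2 (sq_nonneg _)).trans (le_of_eq ?_)⟩
  ring

open Classical in
lemma erase_le [Fintype β] (b : β) :
    ∫ x, HH r (univ.erase b) x * gd x ≤ 2 * ∫ x, HH r univ x * gd x := by
  obtain ⟨h1, h2⟩ := yy_moment hr (univ.erase b) b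
  have h3 := integrable_HH hr (univ.erase b)
  have h4 : ∫ x, (HH r (univ.erase b) x * gd x -
      2 * (yy r b x ^ 2 * (HH r (univ.erase b) x * gd x))) ≤ ∫ x, HH r univ x * gd x := by
    refine integral_mono (h3.sub (h1.const_mul 2)) (integrable_HH hr univ) fun x => ?_
    have h5 : HH r univ x = cut (yy r b x) ^ 2 * HH r (univ.erase b) x :=
      (Finset.mul_prod_erase univ (fun b => cut (yy r b x) ^ 2) (mem_univ b)).symm
    have h6 := mul_le_mul_of_nonneg_right (cut_sq_ge (yy_nonneg hr b x))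
      (mul_nonneg (HH_nonneg (r := r) (univ.erase b) x) (gd_pos x).le)
    simp only [h5]
    nlinarith
  rw [integral_sub h3 (h1.const_mul 2), integral_const_mul] at h4
  have hZ : 0 ≤ ∫ x, HH r (univ.erase b) x * gd x :=
    integral_nonneg fun x => mul_nonneg (HH_nonneg _ x) (gd_pos x).le
  have h7 : mass (r b).A / (32 * (r b).ρ) ≤ 1 / 32 := by
    have := hr b
    rw [div_le_div_iff₀ (by have := this.1; positivity) (by norm_num)]
    linarith [this.2]
  have h8 : 0 ≤ mass (r b).A / (32 * (r b).ρ) :=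
    div_nonneg (mass_nonneg _) (by have := (hr b).1; positivity)
  have h9 : (mass (r b).A / (32 * (r b).ρ)) ^ 2 ≤ (1 / 32) ^ 2 := by gcongr
  nlinarith [mul_le_mul_of_nonneg_right h9 hZ]

end

section
variable {N : ℕ} {β : Type} [Fintype β] (r : β → Rec (Fin N))

/-- square root of the unnormalised density -/
noncomputable def psi (x : Fin N → ℝ) : ℝ :=
  (∏ b, cut (yy r b x)) * Real.exp (-(∑ k, x k ^ 2) / 4)

variable {r}

lemma psi_sq (x : Fin N → ℝ) : psi r x ^ 2 = HH r univ x * gd x := by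
  unfold psi HH gd
  rw [mul_pow, ← Finset.prod_pow, ← Real.exp_nat_mul]
  congr 2
  push_cast; ring

lemma psi_nonneg (x : Fin N → ℝ) : 0 ≤ psi r x :=
  mul_nonneg (Finset.prod_nonneg fun _ _ => cut_nonneg _) (Real.exp_pos _).le

lemma continuous_psi : Continuous (psi r) :=
  (continuous_finsetProd _ fun b _ => continuous_cut.comp (continuous_yy b)).mul (by fun_prop)

lemma sum_sq_shift (x : Fin N → ℝ) (k : Fin N) (η : ℝ) :
    ∑ l, (x + (Pi.single k η : Fin N → ℝ)) l ^ 2 + ∑ l, (x - (Pi.single k η : Fin N → ℝ)) l ^ 2 =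
      2 * ∑ l, x l ^ 2 + 2 * η ^ 2 := by
  have h : ∑ l, (Pi.single k η : Fin N → ℝ) l ^ 2 = η ^ 2 := by
    rw [Finset.sum_eq_single k] <;> simp +contextual [Pi.single_apply]
  rw [← h, Finset.mul_sum, Finset.mul_sum, ← Finset.sum_add_distrib, ← Finset.sum_add_distrib]
  exact Finset.sum_congr rfl fun l _ => by simp only [Pi.add_apply, Pi.sub_apply]; ring

variable (hr : ∀ b, 0 < (r b).ρ ∧ mass (r b).A ≤ (r b).ρ)
include hr

open Classical in
lemma psi_mul_ge (x : Fin N → ℝ) (k : Fin N) (η : ℝ) :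
    Real.exp (-η ^ 2 / 2) * (HH r univ x * gd x -
      ∑ b, 144 * (η ^ 2 * cm (r b).A k / (32 * (r b).ρ)) *
        ((yy r b x + η ^ 2 * cm (r b).A k / (32 * (r b).ρ)) ^ 2 *
          (HH r (univ.erase b) x * gd x))) ≤
      psi r (x + (Pi.single k η : Fin N → ℝ)) * psi r (x - (Pi.single k η : Fin N → ℝ)) := by
  have h1 : psi r (x + (Pi.single k η : Fin N → ℝ)) * psi r (x - (Pi.single k η : Fin N → ℝ)) =
      Real.exp (-η ^ 2 / 2) * ((∏ b, (cut (yy r b (x + (Pi.single k η : Fin N → ℝ))) *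
        cut (yy r b (x - (Pi.single k η : Fin N → ℝ))))) * gd x) := by
    unfold psi gd
    rw [Finset.prod_mul_distrib, mul_mul_mul_comm, ← Real.exp_add, mul_left_comm,
      ← Real.exp_add]
    congr 2
    linarith [sum_sq_shift x k η]
  rw [h1]
  refine mul_le_mul_of_nonneg_left ?_ (Real.exp_pos _).le
  have h2 := prod_ge_sub univ (fun b => cut (yy r b (x + (Pi.single k η : Fin N → ℝ))) *
      cut (yy r b (x - (Pi.single k η : Fin N → ℝ)))) (fun b => cut (yy r b x) ^ 2)
    (fun b => 144 * (η ^ 2 * cm (r b).A k / (32 * (r b).ρ)) *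
      (yy r b x + η ^ 2 * cm (r b).A k / (32 * (r b).ρ)) ^ 2)
    (fun b => mul_nonneg (cut_nonneg _) (cut_nonneg _)) (fun b => sq_nonneg _)
    (fun b => by have := (hr b).1; have := cm_nonneg (r b).A k; positivity) (fun b => by
      obtain ⟨a, ha, hp, hm⟩ := nrm_shift (r b).A x k η
      have hρ := (hr b).1
      have hc := cm_nonneg (r b).A k
      have := cut_mul_ge (y := yy r b x) (s := η ^ 2 * cm (r b).A k / (32 * (r b).ρ))
        (a := a / (32 * (r b).ρ)) (yy_nonneg hr b x) (by positivity) (by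
          unfold yy
          rw [div_pow, div_le_iff₀ (by positivity)]
          refine ha.trans (le_of_eq ?_)
          field_simp)
      have e1 : yy r b (x + (Pi.single k η : Fin N → ℝ)) =
          yy r b x + η ^ 2 * cm (r b).A k / (32 * (r b).ρ) + a / (32 * (r b).ρ) := by
        unfold yy
        rw [← add_div, ← add_div, ← hp]
      have e2 : yy r b (x - (Pi.single k η : Fin N → ℝ)) =
          yy r b x + η ^ 2 * cm (r b).A k / (32 * (r b).ρ) - a / (32 * (r b).ρ) := by
        unfold yy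
        rw [← add_div, ← sub_div, ← hm]
      simp only [e1, e2]
      exact this)
  refine le_trans (le_of_eq ?_) (mul_le_mul_of_nonneg_right h2 (gd_pos x).le)
  rw [sub_mul, Finset.sum_mul]
  congr 1
  exact Finset.sum_congr rfl fun b _ => by unfold HH; ring

open Classical in
lemma loss_term (k : Fin N) {η : ℝ} (hη : η ^ 2 ≤ 1) (b : β) :
    (Integrable fun x => 144 * (η ^ 2 * cm (r b).A k / (32 * (r b).ρ)) *
        ((yy r b x + η ^ 2 * cm (r b).A k / (32 * (r b).ρ)) ^ 2 *
          (HH r (univ.erase b) x * gd x))) ∧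
      ∫ x, 144 * (η ^ 2 * cm (r b).A k / (32 * (r b).ρ)) *
        ((yy r b x + η ^ 2 * cm (r b).A k / (32 * (r b).ρ)) ^ 2 *
          (HH r (univ.erase b) x * gd x)) ≤
        η ^ 2 * (cm (r b).A k * mass (r b).A ^ 2 / (r b).ρ ^ 3) * ∫ x, HH r univ x * gd x := by
  obtain ⟨h1, h2⟩ := yy_moment hr (univ.erase b) b
  have h3 := integrable_HH hr (univ.erase b)
  have h4 := erase_le hr b
  have hρ := (hr b).1
  have hc := cm_nonneg (r b).A k
  set s := η ^ 2 * cm (r b).A k / (32 * (r b).ρ) with hs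
  set μ := mass (r b).A / (32 * (r b).ρ) with hμ
  have hs0 : 0 ≤ s := by positivity
  have hsμ : s ≤ μ := by
    apply div_le_div_of_nonneg_right _ (by positivity)
    nlinarith [cm_le_mass (r b).A k]
  have hB : Integrable fun x => 2 * (yy r b x ^ 2 * (HH r (univ.erase b) x * gd x)) +
      2 * s ^ 2 * (HH r (univ.erase b) x * gd x) := (h1.const_mul 2).add (h3.const_mul _)
  have hle : ∀ x, (yy r b x + s) ^ 2 * (HH r (univ.erase b) x * gd x) ≤
      2 * (yy r b x ^ 2 * (HH r (univ.erase b) x * gd x)) +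
        2 * s ^ 2 * (HH r (univ.erase b) x * gd x) := fun x => by
    have := mul_nonneg (sq_nonneg (yy r b x - s))
      (mul_nonneg (HH_nonneg (r := r) (univ.erase b) x) (gd_pos x).le)
    nlinarith
  have hI : Integrable fun x => (yy r b x + s) ^ 2 * (HH r (univ.erase b) x * gd x) := by
    refine hB.mono' ?_ (Filter.Eventually.of_forall fun x => ?_)
    · exact ((((continuous_yy b).add continuous_const).pow 2).mul
        ((continuous_HH _).mul continuous_gd)).aestronglyMeasurable
    · rw [Real.norm_of_nonneg (mul_nonneg (sq_nonneg _)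
        (mul_nonneg (HH_nonneg _ x) (gd_pos x).le))]
      exact hle x
  refine ⟨hI.const_mul _, ?_⟩
  rw [integral_const_mul]
  have h5 := integral_mono hI hB hle
  rw [integral_add (h1.const_mul 2) (h3.const_mul _), integral_const_mul, integral_const_mul]
    at h5
  have hZ : 0 ≤ ∫ x, HH r (univ.erase b) x * gd x :=
    integral_nonneg fun x => mul_nonneg (HH_nonneg _ x) (gd_pos x).le
  have hZ' : 0 ≤ ∫ x, HH r univ x * gd x :=
    integral_nonneg fun x => mul_nonneg (HH_nonneg _ x) (gd_pos x).le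
  have h6 : s ^ 2 ≤ μ ^ 2 := by gcongr
  have h7 : ∫ x, (yy r b x + s) ^ 2 * (HH r (univ.erase b) x * gd x) ≤
      164 * μ ^ 2 * ∫ x, HH r univ x * gd x := by
    nlinarith [mul_le_mul_of_nonneg_right h6 hZ, mul_le_mul_of_nonneg_left h4 (sq_nonneg μ)]
  have h8 : η ^ 2 * (cm (r b).A k * mass (r b).A ^ 2 / (r b).ρ ^ 3) = 32768 * (s * μ ^ 2) := by
    rw [hs, hμ]; field_simp; norm_num
  rw [h8]
  nlinarith [mul_le_mul_of_nonneg_left h7 hs0, mul_nonneg (mul_nonneg hs0 (sq_nonneg μ)) hZ']

lemma integrable_psi_sq (e : Fin N → ℝ) : Integrable fun x => psi r (x + e) ^ 2 := by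
  have := (integrable_HH hr univ).comp_add_right e
  simpa [psi_sq] using this

lemma integral_psi_sq (e : Fin N → ℝ) :
    ∫ x, psi r (x + e) ^ 2 = ∫ x, HH r univ x * gd x := by
  simp only [← psi_sq]
  exact integral_add_right_eq_self (fun x => psi r x ^ 2) e

lemma integrable_psi_mul (e e' : Fin N → ℝ) :
    Integrable fun x => psi r (x + e) * psi r (x + e') := by
  refine ((integrable_psi_sq hr e).add (integrable_psi_sq hr e')).mono' ?_
    (Filter.Eventually.of_forall fun x => ?_)
  · exact ((continuous_psi.comp (continuous_add_const e)).mul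
      (continuous_psi.comp (continuous_add_const e'))).aestronglyMeasurable
  · rw [Real.norm_of_nonneg (mul_nonneg (psi_nonneg _) (psi_nonneg _))]
    simp only [Pi.add_apply]
    nlinarith [sq_nonneg (psi r (x + e) - psi r (x + e')),
      mul_nonneg (psi_nonneg (r := r) (x + e)) (psi_nonneg (r := r) (x + e'))]

lemma affinity (k : Fin N) (η : ℝ)
    (hη : η ^ 2 * (1 / 2 + ∑ b, cm (r b).A k * mass (r b).A ^ 2 / (r b).ρ ^ 3) ≤ 1 / 32) :
    31 / 32 * ∫ x, HH r univ x * gd x ≤ ∫ x, psi r (x + (Pi.single k η : Fin N → ℝ)) *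
      psi r (x + -(Pi.single k η : Fin N → ℝ)) := by
  classical
  set c := ∑ b, cm (r b).A k * mass (r b).A ^ 2 / (r b).ρ ^ 3 with hc
  have hc0 : 0 ≤ c := Finset.sum_nonneg fun b _ => by
    have := (hr b).1; have := cm_nonneg (r b).A k; positivity
  have hη2 := sq_nonneg η
  have hη1 : η ^ 2 ≤ 1 := by nlinarith
  have hL := loss_term hr k hη1
  have hS := integrable_finsetSum univ fun b _ => (hL b).1
  have h1 := integral_mono (((integrable_HH hr univ).sub hS).const_mul (Real.exp (-η ^ 2 / 2)))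
    (integrable_psi_mul hr (Pi.single k η) (-Pi.single k η)) (fun x => by
      have := psi_mul_ge hr x k η
      rw [sub_eq_add_neg x] at this
      exact this)
  refine le_trans ?_ h1
  simp only [Pi.sub_apply]
  rw [integral_const_mul, integral_sub (integrable_HH hr univ) hS,
    integral_finsetSum _ fun b _ => (hL b).1]
  have h2 := Finset.sum_le_sum fun b (_ : b ∈ univ) => (hL b).2
  rw [← Finset.sum_mul, ← Finset.mul_sum, ← hc] at h2
  have hZ : 0 ≤ ∫ x, HH r univ x * gd x :=
    integral_nonneg fun x => mul_nonneg (HH_nonneg _ x) (gd_pos x).le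
  have h3 : 1 - η ^ 2 / 2 ≤ Real.exp (-η ^ 2 / 2) := by
    linarith [Real.add_one_le_exp (-η ^ 2 / 2)]
  set Z := ∫ x, HH r univ x * gd x
  have h4 : 0 ≤ 1 - η ^ 2 * c := by nlinarith
  have h5 : 31 / 32 ≤ Real.exp (-η ^ 2 / 2) * (1 - η ^ 2 * c) := by
    have := mul_le_mul_of_nonneg_right h3 h4
    nlinarith [mul_nonneg hη2 (mul_nonneg hη2 hc0)]
  have h6 := mul_le_mul_of_nonneg_right h5 hZ
  have h7 := mul_le_mul_of_nonneg_left h2 (Real.exp_pos (-η ^ 2 / 2)).le
  nlinarith

lemma Z_pos : 0 < ∫ x, HH r univ x * gd x := by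
  refine integral_pos_of_integrable_nonneg_nonzero ((continuous_HH univ).mul continuous_gd)
    (x := 0) (integrable_HH hr univ) (fun x => mul_nonneg (HH_nonneg _ x) (gd_pos x).le) ?_
  have : HH r univ 0 = 1 := by simp [HH, yy, nrm, cut]
  simp only [Pi.mul_apply, this, one_mul]
  exact (gd_pos _).ne'

end

theorem dens {N : ℕ} {β : Type} [Fintype β] (r : β → Rec (Fin N))
    (hr : ∀ b, 0 < (r b).ρ ∧ mass (r b).A ≤ (r b).ρ) :
    ∃ f : (Fin N → ℝ) → ℝ, (∀ x, 0 ≤ f x) ∧ Integrable f ∧ ∫ x, f x = 1 ∧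
      (Integrable fun x => f x • x) ∧ ∫ x, f x • x = 0 ∧
      (∀ x, 0 < f x → ∀ b, nrm (r b).A x ≤ 64 * (r b).ρ) ∧
      ∀ (k : Fin N) (η : ℝ),
        η ^ 2 * (1 / 2 + ∑ b, cm (r b).A k * mass (r b).A ^ 2 / (r b).ρ ^ 3) ≤ 1 / 32 →
          ∫ x, |f (x + (Pi.single k η : Fin N → ℝ)) - f (x - (Pi.single k η : Fin N → ℝ))| ≤
            1 / 2 := by
  have hZ := Z_pos hr
  set Z := ∫ x, HH r univ x * gd x with hZd
  refine ⟨fun x => HH r univ x * gd x / Z,
    fun x => div_nonneg (mul_nonneg (HH_nonneg _ x) (gd_pos x).le) hZ.le,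
    (integrable_HH hr univ).div_const _, ?_, ?_, ?_, fun x hx b => ?_, fun k η hη => ?_⟩
  · rw [integral_div, div_self hZ.ne']
  · have := (integrable_gd_smul N).bdd_smul (φ := fun x => HH r univ x / Z) (1 / Z)
      ((continuous_HH univ).div_const _).aestronglyMeasurable
      (Filter.Eventually.of_forall fun x => by
        rw [Real.norm_of_nonneg (div_nonneg (HH_nonneg _ x) hZ.le)]
        exact div_le_div_of_nonneg_right (HH_le_one hr _ x) hZ.le)
    refine this.congr (Filter.Eventually.of_forall fun x => ?_)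
    simp only [Pi.smul_apply', smul_smul]
    congr 1; ring
  · have h1 := integral_neg_eq_self (fun x : Fin N → ℝ => (HH r univ x * gd x / Z) • x) volume
    simp only [HH_neg, gd_neg, smul_neg, integral_neg] at h1
    funext l
    have := congrFun h1 l
    simp only [Pi.neg_apply] at this
    simp only [Pi.zero_apply]
    linarith
  · have h1 : HH r univ x ≠ 0 := by
      intro h; simp [h] at hx
    have h2 := Finset.prod_ne_zero_iff.1 h1 b (mem_univ b)
    have h3 : 0 < cut (yy r b x) :=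
      lt_of_le_of_ne (cut_nonneg _) fun h => h2 (by rw [← h]; simp)
    have h4 := lt_one_of_cut_pos h3
    have hρ := (hr b).1
    unfold yy at h4
    rw [div_lt_one (by positivity)] at h4
    linarith
  · set e : Fin N → ℝ := Pi.single k η with he
    have hA := affinity hr k η hη
    rw [← he, ← hZd] at hA
    have i1 := integrable_psi_sq hr e
    have i2 := integrable_psi_sq hr (-e)
    have i3 := integrable_psi_mul hr e (-e)
    have hB : Integrable fun x => (65 / 16 * (psi r (x + e) ^ 2 + psi r (x + -e) ^ 2) -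
        63 / 8 * (psi r (x + e) * psi r (x + -e))) / Z :=
      (((i1.add i2).const_mul _).sub (i3.const_mul _)).div_const _
    refine (integral_mono_of_nonneg (Filter.Eventually.of_forall fun x => abs_nonneg _) hB
      (Filter.Eventually.of_forall fun x => ?_)).trans ?_
    · simp only [← psi_sq, sub_eq_add_neg x]
      rw [← sub_div, abs_div, abs_of_pos hZ]
      apply div_le_div_of_nonneg_right _ hZ.le
      rw [abs_le]
      constructor
      · nlinarith [sq_nonneg (9 * psi r (x + e) - 7 * psi r (x + -e))]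
      · nlinarith [sq_nonneg (7 * psi r (x + e) - 9 * psi r (x + -e))]
    · have i4 : Integrable fun x => psi r (x + e) ^ 2 + psi r (x + -e) ^ 2 := i1.add i2
      rw [integral_div, integral_sub (i4.const_mul _) (i3.const_mul _),
        integral_const_mul, integral_const_mul, integral_add i1 i2, integral_psi_sq hr,
        integral_psi_sq hr, ← hZd, div_le_iff₀ hZ]
      linarith

end Vale.Agent.P262
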