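import Vale.Agent.P262.Defs

/-! Rounding with triangular feedback (PROOF.md section KL). -/

namespace Vale.Agent.P262

open Finset MeasureTheory

namespace KLAux

variable {E : Type} [NormedAddCommGroup E] [NormedSpace ℝ E] [CompleteSpace E]
  [MeasurableSpace E] [BorelSpace E] [SecondCountableTopology E]
  {μ : Measure E}

omit [BorelSpace E] [SecondCountableTopology E] in
lemma base {ι : Type} [Fintype ι] {F : Type} [NormedAddCommGroup F] [NormedSpace ℝ F]
    (f : ι → E → ℝ) (hf0 : ∀ i x, 0 ≤ f i x) (hfi : ∀ i, Integrable (f i) μ)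
    (hxi : ∀ i, Integrable (fun x => f i x • x) μ) (hf1 : ∑ i, ∫ x, f i x ∂μ = 1)
    (hx0 : ∑ i, ∫ x, f i x • x ∂μ = 0) (l : ι → F) {C : Set (E × F)} (hC : IsClosed C)
    (hCc : Convex ℝ C) (hs : ∀ i x, 0 < f i x → (x, l i) ∈ C) :
    ((0 : E), ∑ i, (∫ x, f i x ∂μ) • l i) ∈ C := by
  by_contra hn
  obtain ⟨φ, u, h1, h2⟩ := geometric_hahn_banach_closed_point hCc hC hn
  set φ1 : E →L[ℝ] ℝ := φ.comp (ContinuousLinearMap.inl ℝ E F) with hφ1
  set φ2 : F →L[ℝ] ℝ := φ.comp (ContinuousLinearMap.inr ℝ E F) with hφ2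
  have hsplit : ∀ x w, φ (x, w) = φ1 x + φ2 w := by
    intro x w
    simp only [hφ1, hφ2, ContinuousLinearMap.comp_apply, ContinuousLinearMap.inl_apply,
      ContinuousLinearMap.inr_apply]
    rw [← map_add]
    simp
  have key : ∀ i, φ1 (∫ x, f i x • x ∂μ) + (∫ x, f i x ∂μ) * φ2 (l i) ≤ (∫ x, f i x ∂μ) * u := by
    intro i
    have i1 : Integrable (fun x => φ1 (f i x • x)) μ := φ1.integrable_comp (hxi i)
    rw [← φ1.integral_comp_comm (hxi i), ← integral_mul_const, ← integral_mul_const,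
      ← integral_add i1 ((hfi i).mul_const _)]
    refine integral_mono (i1.add ((hfi i).mul_const _)) ((hfi i).mul_const _) fun x => ?_
    simp only [map_smul, smul_eq_mul]
    rcases (hf0 i x).eq_or_lt with h | h
    · rw [← h]; simp
    · have := h1 _ (hs i x h)
      rw [hsplit] at this
      nlinarith
  have hsum := Finset.sum_le_sum fun i (_ : i ∈ univ) => key i
  rw [sum_add_distrib, ← map_sum, hx0, ← Finset.sum_mul, hf1] at hsum
  rw [hsplit, map_sum] at h2
  simp only [map_smul, smul_eq_mul, map_zero] at h2 hsum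
  linarith

lemma maxmin (u v u' v' : ℝ) :
    |max u v / 2 - max u' v' / 2| + |min u v / 2 - min u' v' / 2| ≤ (|u - u'| + |v - v'|) / 2 := by
  have h1 := le_abs_self (u - u')
  have h2 := neg_abs_le (u - u')
  have h3 := le_abs_self (v - v')
  have h4 := neg_abs_le (v - v')
  rcases le_total u v with h | h <;> rcases le_total u' v' with h' | h' <;>
    simp only [max_eq_left, max_eq_right, min_eq_left, min_eq_right, h, h'] <;>
    rcases abs_cases (u / 2 - u' / 2) with a | a <;>
    rcases abs_cases (v / 2 - v' / 2) with b | b <;>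
    rcases abs_cases (u / 2 - v' / 2) with c | c <;>
    rcases abs_cases (v / 2 - u' / 2) with d | d <;> linarith [a.1, a.2, b.1, b.2, c.1, c.2, d.1, d.2]

/-- the new convex set -/
def nx {F : Type} [NormedAddCommGroup F] [NormedSpace ℝ F] (C : Set (E × F)) (V : E) :
    Set (E × (F × ℝ)) :=
  {p | 0 ≤ p.2.2 ∧ ∃ a : ℝ, |a| ≤ 1 - p.2.2 ∧ (p.1 + (a + p.2.2) • V, p.2.1) ∈ C ∧
    (p.1 + (a - p.2.2) • V, p.2.1) ∈ C}

omit [CompleteSpace E] [MeasurableSpace E] [BorelSpace E] [SecondCountableTopology E] in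
lemma nx_convex {F : Type} [NormedAddCommGroup F] [NormedSpace ℝ F] {C : Set (E × F)}
    (hC : Convex ℝ C) (V : E) : Convex ℝ (nx C V) := by
  rintro ⟨z, w, b⟩ ⟨h0, a, h1, h2, h3⟩ ⟨z', w', b'⟩ ⟨h0', a', h1', h2', h3'⟩ s t hs ht hst
  simp only at h0 h1 h2 h3 h0' h1' h2' h3'
  refine ⟨?_, s * a + t * a', ?_, ?_, ?_⟩
  · simp only [Prod.snd_add, Prod.smul_snd, smul_eq_mul]; positivity
  · simp only [Prod.snd_add, Prod.smul_snd, smul_eq_mul]
    have e1 : |s * a + t * a'| ≤ s * |a| + t * |a'| := by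
      refine (abs_add_le _ _).trans ?_
      rw [abs_mul, abs_mul, abs_of_nonneg hs, abs_of_nonneg ht]
    nlinarith [mul_le_mul_of_nonneg_left h1 hs, mul_le_mul_of_nonneg_left h1' ht]
  · have := hC h2 h2' hs ht hst
    convert this using 1
    simp only [smul_eq_mul, Prod.smul_mk, Prod.mk_add_mk, Prod.mk.injEq, and_true]
    module
  · have := hC h3 h3' hs ht hst
    convert this using 1
    simp only [smul_eq_mul, Prod.smul_mk, Prod.mk_add_mk, Prod.mk.injEq, and_true]
    module

omit [CompleteSpace E] [MeasurableSpace E] [BorelSpace E] [SecondCountableTopology E] in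
lemma nx_closed {F : Type} [NormedAddCommGroup F] [NormedSpace ℝ F] {C : Set (E × F)}
    (hC : IsClosed C) (V : E) : IsClosed (nx C V) := by
  let S : Set (Set.Icc (-1 : ℝ) 1 × (E × (F × ℝ))) :=
    {q | 0 ≤ q.2.2.2 ∧ |(q.1 : ℝ)| ≤ 1 - q.2.2.2 ∧
      (q.2.1 + ((q.1 : ℝ) + q.2.2.2) • V, q.2.2.1) ∈ C ∧
      (q.2.1 + ((q.1 : ℝ) - q.2.2.2) • V, q.2.2.1) ∈ C}
  have hS : IsClosed S := by
    have d1 : IsClosed {q : Set.Icc (-1 : ℝ) 1 × (E × (F × ℝ)) | 0 ≤ q.2.2.2} :=
      isClosed_le (by fun_prop) (by fun_prop)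
    have d2 : IsClosed {q : Set.Icc (-1 : ℝ) 1 × (E × (F × ℝ)) | |(q.1 : ℝ)| ≤ 1 - q.2.2.2} :=
      isClosed_le (by fun_prop) (by fun_prop)
    have c1 : Continuous fun q : Set.Icc (-1 : ℝ) 1 × (E × (F × ℝ)) =>
        (q.2.1 + ((q.1 : ℝ) + q.2.2.2) • V, q.2.2.1) := by fun_prop
    have c2 : Continuous fun q : Set.Icc (-1 : ℝ) 1 × (E × (F × ℝ)) =>
        (q.2.1 + ((q.1 : ℝ) - q.2.2.2) • V, q.2.2.1) := by fun_prop
    exact d1.inter (d2.inter ((hC.preimage c1).inter (hC.preimage c2)))
  have himg : nx C V = Prod.snd '' S := by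
    ext p
    constructor
    · rintro ⟨h0, a, h1, h2, h3⟩
      have ha : a ∈ Set.Icc (-1 : ℝ) 1 := by
        have := abs_le.1 (h1.trans (by linarith : 1 - p.2.2 ≤ 1))
        exact this
      exact ⟨(⟨a, ha⟩, p), ⟨h0, h1, h2, h3⟩, rfl⟩
    · rintro ⟨⟨a, q⟩, ⟨h0, h1, h2, h3⟩, rfl⟩
      exact ⟨h0, a, h1, h2, h3⟩
  rw [himg]
  exact isClosedMap_snd_of_compactSpace S hS

variable [μ.IsAddRightInvariant]

omit [NormedSpace ℝ E] [CompleteSpace E] in
lemma int_p {g : E → ℝ} (hg : Integrable g μ) (W : E) : Integrable (fun x => g (x + W)) μ :=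
  hg.comp_add_right W

omit [NormedSpace ℝ E] [CompleteSpace E] in
lemma int_m {g : E → ℝ} (hg : Integrable g μ) (W : E) : Integrable (fun x => g (x - W)) μ := by
  simpa only [sub_eq_add_neg] using hg.comp_add_right (-W)

omit [CompleteSpace E] in
lemma intx_p {g : E → ℝ} (hg : Integrable g μ) (hx : Integrable (fun x => g x • x) μ) (W : E) :
    Integrable (fun x => g (x + W) • x) μ := by
  have h1 : Integrable (fun x => g (x + W) • (x + W)) μ := hx.comp_add_right W
  have h2 : Integrable (fun x => g (x + W) • W) μ := (int_p hg W).smul_const W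
  refine (h1.sub h2).congr (Filter.Eventually.of_forall fun x => ?_)
  simp [smul_add]

lemma integx_p {g : E → ℝ} (hg : Integrable g μ) (hx : Integrable (fun x => g x • x) μ) (W : E) :
    ∫ x, g (x + W) • x ∂μ = ∫ x, g x • x ∂μ - (∫ x, g x ∂μ) • W := by
  have h1 : Integrable (fun x => g (x + W) • (x + W)) μ := hx.comp_add_right W
  have h2 : Integrable (fun x => g (x + W) • W) μ := (int_p hg W).smul_const W
  have e1 : ∫ x, g (x + W) • (x + W) ∂μ = ∫ x, g x • x ∂μ :=
    integral_add_right_eq_self (fun x => g x • x) W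
  have e2 : ∫ x, g (x + W) ∂μ = ∫ x, g x ∂μ := integral_add_right_eq_self g W
  rw [← e1, ← e2, ← integral_smul_const, ← integral_sub h1 h2]
  congr 1
  ext x
  simp [smul_add]

/-- upper and lower envelope of the two shifts -/
noncomputable def env (g : E → ℝ) (W : E) (b : Bool) (x : E) : ℝ :=
  match b with
  | false => max (g (x + W)) (g (x - W)) / 2
  | true => min (g (x + W)) (g (x - W)) / 2

omit [NormedSpace ℝ E] [CompleteSpace E] [MeasurableSpace E] [BorelSpace E]
  [SecondCountableTopology E] in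
lemma env_nonneg {g : E → ℝ} (h0 : ∀ x, 0 ≤ g x) (W : E) (b : Bool) (x : E) :
    0 ≤ env g W b x := by
  have := h0 (x + W)
  have := h0 (x - W)
  cases b <;> simp only [env] <;> positivity

omit [NormedSpace ℝ E] [CompleteSpace E] [MeasurableSpace E] [BorelSpace E]
  [SecondCountableTopology E] in
lemma env_add (g : E → ℝ) (W : E) (x : E) :
    env g W true x + env g W false x = (g (x + W) + g (x - W)) / 2 := by
  simp only [env]
  have := max_add_min (g (x + W)) (g (x - W))
  linarith

omit [NormedSpace ℝ E] [CompleteSpace E] in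
lemma env_int {g : E → ℝ} (hg : Integrable g μ) (W : E) (b : Bool) :
    Integrable (env g W b) μ := by
  cases b
  · exact ((int_p hg W).sup (int_m hg W)).div_const 2
  · exact ((int_p hg W).inf (int_m hg W)).div_const 2

omit [CompleteSpace E] in
lemma env_intx {g : E → ℝ} (h0 : ∀ x, 0 ≤ g x) (hg : Integrable g μ)
    (hx : Integrable (fun x => g x • x) μ) (W : E) (b : Bool) :
    Integrable (fun x => env g W b x • x) μ := by
  have h1 := intx_p hg hx W
  have h2 := intx_p hg hx (-W)
  refine Integrable.mono' (h1.norm.add h2.norm)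
    ((env_int hg W b).aestronglyMeasurable.smul aestronglyMeasurable_id)
    (Filter.Eventually.of_forall fun x => ?_)
  have e := env_add g W x
  have a1 := env_nonneg h0 W true x
  have a2 := env_nonneg h0 W false x
  have a3 := h0 (x + W)
  have a4 := h0 (x - W)
  have a5 : env g W b x ≤ g (x + W) + g (x - W) := by cases b <;> linarith
  simp only [Pi.add_apply, norm_smul, Real.norm_eq_abs, ← sub_eq_add_neg]
  rw [abs_of_nonneg (env_nonneg h0 W b x), abs_of_nonneg a3, abs_of_nonneg a4, ← add_mul]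
  exact mul_le_mul_of_nonneg_right a5 (norm_nonneg _)

omit [NormedSpace ℝ E] [CompleteSpace E] in
lemma env_integ {g : E → ℝ} (hg : Integrable g μ) (W : E) :
    ∫ x, env g W true x ∂μ + ∫ x, env g W false x ∂μ = ∫ x, g x ∂μ := by
  rw [← integral_add (env_int hg W _) (env_int hg W _)]
  simp only [env_add]
  rw [integral_div, integral_add (int_p hg W) (int_m hg W), integral_add_right_eq_self,
    integral_sub_right_eq_self]
  ring

lemma env_integx {g : E → ℝ} (h0 : ∀ x, 0 ≤ g x) (hg : Integrable g μ)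
    (hx : Integrable (fun x => g x • x) μ) (W : E) :
    ∫ x, env g W true x • x ∂μ + ∫ x, env g W false x • x ∂μ = ∫ x, g x • x ∂μ := by
  rw [← integral_add (env_intx h0 hg hx W _) (env_intx h0 hg hx W _)]
  have e : ∀ x, env g W true x • x + env g W false x • x =
      (1 / 2 : ℝ) • (g (x + W) • x + g (x + -W) • x) := by
    intro x
    rw [← add_smul, env_add, ← sub_eq_add_neg]
    module
  simp only [e]
  rw [integral_smul, integral_add (intx_p hg hx W) (intx_p hg hx (-W)), integx_p hg hx,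
    integx_p hg hx]
  module

omit [NormedSpace ℝ E] [CompleteSpace E] in
lemma env_true_integ {g : E → ℝ} (hg : Integrable g μ) (W : E) :
    ∫ x, env g W true x ∂μ = (∫ x, g x ∂μ) / 2 - (∫ x, |g (x + W) - g (x - W)| ∂μ) / 4 := by
  have e : ∀ x, env g W true x = (g (x + W) + g (x - W)) / 4 - |g (x + W) - g (x - W)| / 4 := by
    intro x
    simp only [env]
    rcases le_total (g (x + W)) (g (x - W)) with h | h
    · rw [min_eq_left h, abs_of_nonpos (by linarith)]; ring
    · rw [min_eq_right h, abs_of_nonneg (by linarith)]; ring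
  simp only [e]
  have i1 : Integrable (fun x => (g (x + W) + g (x - W)) / 4) μ :=
    ((int_p hg W).add (int_m hg W)).div_const 4
  have i2 : Integrable (fun x => |g (x + W) - g (x - W)| / 4) μ :=
    ((int_p hg W).sub (int_m hg W)).abs.div_const 4
  rw [integral_sub i1 i2, integral_div, integral_div,
    integral_add (int_p hg W) (int_m hg W), integral_add_right_eq_self,
    integral_sub_right_eq_self]
  ring

omit [NormedSpace ℝ E] [CompleteSpace E] in
lemma env_tv {g : E → ℝ} (hg : Integrable g μ) (W U : E) :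
    ∫ x, |env g W true (x + U) - env g W true (x - U)| ∂μ +
      ∫ x, |env g W false (x + U) - env g W false (x - U)| ∂μ ≤
      ∫ x, |g (x + U) - g (x - U)| ∂μ := by
  have i1 : ∀ b, Integrable (fun x => |env g W b (x + U) - env g W b (x - U)|) μ := fun b =>
    ((int_p (env_int hg W b) U).sub (int_m (env_int hg W b) U)).abs
  have i2 : Integrable (fun x => |g (x + U) - g (x - U)|) μ := ((int_p hg U).sub (int_m hg U)).abs
  rw [← integral_add (i1 _) (i1 _)]
  have e : ∫ x, |g (x + U) - g (x - U)| ∂μ =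
      ∫ x, (|g (x + W + U) - g (x + W - U)| + |g (x - W + U) - g (x - W - U)|) / 2 ∂μ := by
    rw [integral_div, integral_add (int_p i2 W) (int_m i2 W),
      integral_add_right_eq_self (fun x => |g (x + U) - g (x - U)|),
      integral_sub_right_eq_self (fun x => |g (x + U) - g (x - U)|)]
    ring
  rw [e]
  refine integral_mono ((i1 _).add (i1 _)) (((int_p i2 W).add (int_m i2 W)).div_const 2)
    fun x => ?_
  have := maxmin (g (x + U + W)) (g (x + U - W)) (g (x - U + W)) (g (x - U - W))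
  simp only [env]
  have e1 : x + W + U = x + U + W := by abel
  have e2 : x + W - U = x - U + W := by abel
  have e3 : x - W + U = x + U - W := by abel
  have e4 : x - W - U = x - U - W := by abel
  rw [e1, e2, e3, e4]
  linarith

theorem gen (V : ℕ → E) (o : ℕ → E →ₗ[ℝ] ℝ) (n : ℕ) :
    ∀ (ι : Type) [Fintype ι] (F : Type) [NormedAddCommGroup F] [NormedSpace ℝ F]
    (f : ι → E → ℝ) (_ : ∀ i x, 0 ≤ f i x) (_ : ∀ i, Integrable (f i) μ)
    (_ : ∀ i, Integrable (fun x => f i x • x) μ) (_ : ∑ i, ∫ x, f i x ∂μ = 1)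
    (_ : ∑ i, ∫ x, f i x • x ∂μ = 0) (l : ι → F) (C : Set (E × F)) (_ : IsClosed C)
    (_ : Convex ℝ C) (_ : ∀ i x, 0 < f i x → (x, l i) ∈ C)
    (_ : ∀ k < n, ∑ i, ∫ x, |f i (x + (3 : ℝ) • V k) - f i (x - (3 : ℝ) • V k)| ∂μ ≤ 1 / 2)
    (_ : ∀ k m, k ≤ m → m < n → o k (V m) = 0)
    (_ : ∀ p ∈ C, ∀ k < n, |o k p.1| ≤ 1 / 4),
    ∃ t : ℕ → ℝ, (∑ k ∈ range n, t k • V k, ∑ i, (∫ x, f i x ∂μ) • l i) ∈ C ∧
      ∀ k < n, |t k - o k (∑ m ∈ range n, t m • V m)| = 1 := by
  induction n with
  | zero =>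
    intro ι _ F _ _ f hf0 hfi hxi hf1 hx0 l C hC hCc hs _ _ _
    refine ⟨0, ?_, by simp⟩
    simpa using base f hf0 hfi hxi hf1 hx0 l hC hCc hs
  | succ n ih =>
    intro ι _ F _ _ f hf0 hfi hxi hf1 hx0 l C hC hCc hs htv ho hoC
    set W : E := (3 : ℝ) • V n with hW
    have hoW : ∀ k ≤ n, o k W = 0 := by
      intro k hk
      rw [hW, map_smul, ho k n hk (Nat.lt_succ_self n), smul_zero]
    obtain ⟨t, ht1, ht2⟩ := ih (ι × Bool) (F × ℝ) (fun p => env (f p.1) W p.2)
      (fun p x => env_nonneg (hf0 _) W _ x) (fun p => env_int (hfi _) W _)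
      (fun p => env_intx (hf0 _) (hfi _) (hxi _) W _)
      (by
        rw [Fintype.sum_prod_type, ← hf1]
        refine sum_congr rfl fun i _ => ?_
        rw [Fintype.sum_bool]
        exact env_integ (hfi i) W)
      (by
        rw [Fintype.sum_prod_type, ← hx0]
        refine sum_congr rfl fun i _ => ?_
        rw [Fintype.sum_bool]
        exact env_integx (hf0 i) (hfi i) (hxi i) W)
      (fun p => (l p.1, if p.2 then 1 else 0)) (nx C W) (nx_closed hC W) (nx_convex hCc W)
      (by
        rintro ⟨i, b⟩ x hx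
        cases b
        · simp only [env] at hx
          have hx' : 0 < max (f i (x + W)) (f i (x - W)) := by linarith
          rcases lt_max_iff.1 hx' with h | h
          · refine ⟨by simp, 1, by simp, ?_, ?_⟩ <;> simpa using hs i _ h
          · refine ⟨by simp, -1, by simp, ?_, ?_⟩ <;> simpa [sub_eq_add_neg] using hs i _ h
        · simp only [env] at hx
          have hx' : 0 < min (f i (x + W)) (f i (x - W)) := by linarith
          obtain ⟨h, h'⟩ := lt_min_iff.1 hx'
          refine ⟨by simp, 0, by simp, ?_, ?_⟩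
          · simpa using hs i _ h
          · simpa [sub_eq_add_neg] using hs i _ h')
      (by
        intro k hk
        rw [Fintype.sum_prod_type]
        refine le_trans (sum_le_sum fun i _ => ?_) (htv k (by omega))
        rw [Fintype.sum_bool]
        exact env_tv (hfi i) W _)
      (fun k m h1 h2 => ho k m h1 (by omega))
      (by
        rintro p ⟨_, a, _, h2, _⟩ k hk
        have := hoC _ h2 k (by omega)
        simpa [hoW k hk.le] using this)
    set z := ∑ k ∈ range n, t k • V k with hz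
    obtain ⟨-, a, ha, h2, h3⟩ := ht1
    have eL : (∑ p : ι × Bool, (∫ x, env (f p.1) W p.2 x ∂μ) •
        ((l p.1, if p.2 then 1 else 0) : F × ℝ)).1 = ∑ i, (∫ x, f i x ∂μ) • l i := by
      rw [Prod.fst_sum, Fintype.sum_prod_type]
      refine sum_congr rfl fun i _ => ?_
      rw [Fintype.sum_bool]
      simp only [Prod.smul_mk]
      rw [← add_smul, env_integ (hfi i) W]
    have eB : (∑ p : ι × Bool, (∫ x, env (f p.1) W p.2 x ∂μ) •
        ((l p.1, if p.2 then 1 else 0) : F × ℝ)).2 =
        1 / 2 - (∑ i, ∫ x, |f i (x + W) - f i (x - W)| ∂μ) / 4 := by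
      have h12 : (1 / 2 : ℝ) = (∑ i, ∫ x, f i x ∂μ) / 2 := by rw [hf1]
      rw [Prod.snd_sum, Fintype.sum_prod_type, h12, sum_div, sum_div, ← sum_sub_distrib]
      refine sum_congr rfl fun i _ => ?_
      rw [Fintype.sum_bool]
      simp [env_true_integ (hfi i) W]
    simp only [eL, eB] at ha h2 h3
    set L := ∑ i, (∫ x, f i x ∂μ) • l i
    set δ := ∑ i, ∫ x, |f i (x + W) - f i (x - W)| ∂μ with hδ
    have hδ1 : δ ≤ 1 / 2 := htv n (Nat.lt_succ_self n)
    have hδ0 : 0 ≤ δ := sum_nonneg fun i _ => integral_nonneg fun x => abs_nonneg _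
    set be := 1 / 2 - δ / 4 with hbe
    have hoz : |o n z| ≤ 1 / 4 := by
      have := hoC _ h2 n (Nat.lt_succ_self n)
      simpa [hoW n le_rfl] using this
    obtain ⟨oz1, oz2⟩ := abs_le.1 hoz
    obtain ⟨a1, a2⟩ := abs_le.1 ha
    have hbe0 : 0 < be := by rw [hbe]; linarith
    obtain ⟨s, hs1, hs2, hs3⟩ : ∃ s : ℝ, 3 * (a - be) ≤ s ∧ s ≤ 3 * (a + be) ∧
        |s - o n z| = 1 := by
      by_cases h : o n z + 1 ≤ 3 * (a + be)
      · exact ⟨o n z + 1, by rw [hbe] at *; linarith, h, by simp⟩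
      · push Not at h
        exact ⟨o n z - 1, by rw [hbe] at *; linarith, by rw [hbe] at *; linarith, by simp⟩
    have hsum : ∑ k ∈ range (n + 1), Function.update t n s k • V k = z + s • V n := by
      rw [sum_range_succ, Function.update_self, hz]
      congr 1
      refine sum_congr rfl fun k hk => ?_
      rw [Function.update_of_ne (by simp at hk; omega)]
    refine ⟨Function.update t n s, ?_, ?_⟩
    · rw [hsum]
      have hc := hCc h2 h3 (a := (s - 3 * (a - be)) / (6 * be)) (b := (3 * (a + be) - s) / (6 * be))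
        (div_nonneg (by linarith) (by linarith)) (div_nonneg (by linarith) (by linarith))
        (by field_simp; ring)
      convert hc using 1
      have hab : (s - 3 * (a - be)) / (6 * be) + (3 * (a + be) - s) / (6 * be) = 1 := by
        field_simp; ring
      have hs' : s = (s - 3 * (a - be)) / (6 * be) * ((a + be) * 3) +
          (3 * (a + be) - s) / (6 * be) * ((a - be) * 3) := by
        field_simp; ring
      generalize (s - 3 * (a - be)) / (6 * be) = α at *
      generalize (3 * (a + be) - s) / (6 * be) = β at *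
      have hβ : β = 1 - α := by linarith
      simp only [Prod.smul_mk, Prod.mk_add_mk, Prod.mk.injEq, hW]
      constructor
      · rw [hs', hβ]; module
      · rw [hβ]; module
    · intro k hk
      rw [hsum, map_add, map_smul, ho k n (by omega) (Nat.lt_succ_self n), smul_zero, add_zero]
      rcases Nat.lt_succ_iff_lt_or_eq.1 hk with h | h
      · rw [Function.update_of_ne h.ne]
        exact ht2 k h
      · subst h
        rw [Function.update_self]
        exact hs3

end KLAux

theorem kl {N : ℕ} (f : (Fin N → ℝ) → ℝ) (hf0 : ∀ x, 0 ≤ f x) (hfi : Integrable f)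
    (hf1 : ∫ x, f x = 1) (hxi : Integrable fun x => f x • x) (hx0 : ∫ x, f x • x = 0)
    {C : Set (Fin N → ℝ)} (hC : IsClosed C) (hCc : Convex ℝ C) (hs : ∀ x, 0 < f x → x ∈ C)
    {τ : ℝ} (hτ : 0 < τ)
    (htv : ∀ k, ∫ x, |f (x + (Pi.single k (3 * τ) : Fin N → ℝ)) -
      f (x - (Pi.single k (3 * τ) : Fin N → ℝ))| ≤ 1 / 2)
    (o : Fin N → Fin N → ℝ) (ho : ∀ j k, j ≤ k → o j k = 0)
    (hoC : ∀ z ∈ C, ∀ j, |∑ k, o j k * z k| ≤ τ / 4) :
    ∃ t : Fin N → ℝ, τ • t ∈ C ∧ ∀ j, |t j - ∑ k, o j k * t k| = 1 := by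
  let V : ℕ → Fin N → ℝ := fun k => if h : k < N then Pi.single ⟨k, h⟩ τ else 0
  let O : ℕ → (Fin N → ℝ) →ₗ[ℝ] ℝ := fun k => if h : k < N then
    ∑ m, (o ⟨k, h⟩ m / τ) • LinearMap.proj m else 0
  have hO : ∀ (k : Fin N) z, O k z = (∑ m, o k m * z m) / τ := by
    intro k z
    simp only [O, k.2, dif_pos, LinearMap.sum_apply, LinearMap.smul_apply, LinearMap.proj_apply,
      smul_eq_mul, Fin.eta, sum_div]
    exact sum_congr rfl fun m _ => by ring
  have hV : ∀ k : Fin N, V k = Pi.single k τ := fun k => by simp [V]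
  obtain ⟨t, ht1, ht2⟩ := KLAux.gen (μ := volume) V O N Unit ℝ (fun _ => f) (fun _ => hf0)
    (fun _ => hfi) (fun _ => hxi) (by simpa using hf1) (by simpa using hx0) (fun _ => 0)
    (C ×ˢ Set.univ) (hC.prod isClosed_univ) (hCc.prod convex_univ)
    (fun _ x hx => ⟨hs x hx, trivial⟩)
    (by
      intro k hk
      have e : (3 : ℝ) • V k = Pi.single (⟨k, hk⟩ : Fin N) (3 * τ) := by
        rw [hV ⟨k, hk⟩, ← Pi.single_smul, smul_eq_mul]
      simpa [e] using htv ⟨k, hk⟩)
    (by
      intro k m h1 h2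
      have hk : k < N := by omega
      rw [hO ⟨k, hk⟩, hV ⟨m, h2⟩]
      rw [Finset.sum_eq_single ⟨m, h2⟩]
      · rw [ho _ _ (by simpa using h1)]; simp
      · intro b _ hb; simp [Pi.single_eq_of_ne hb]
      · simp)
    (by
      intro p hp k hk
      rw [hO ⟨k, hk⟩, abs_div, abs_of_pos hτ, div_le_iff₀ hτ]
      have := hoC _ hp.1 ⟨k, hk⟩
      linarith)
  have e : ∑ k ∈ range N, t k • V k = τ • fun j : Fin N => t j := by
    rw [← Fin.sum_univ_eq_sum_range (fun k => t k • V k)]
    ext j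
    simp only [hV, Finset.sum_apply, Pi.smul_apply, smul_eq_mul]
    rw [Finset.sum_eq_single j]
    · simp [mul_comm]
    · intro b _ hb; simp [Pi.single_eq_of_ne hb.symm]
    · simp
  refine ⟨fun j => t j, ?_, fun j => ?_⟩
  · rw [← e]; exact ht1.1
  · have := ht2 j j.2
    rw [hO j, e] at this
    convert this using 3
    rw [eq_div_iff hτ.ne', sum_mul]
    exact sum_congr rfl fun m _ => by simp only [Pi.smul_apply, smul_eq_mul]; ring

end Vale.Agent.P262
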