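import Vale.Agent.P262.Basic

/-! The contraction feedback and its kernel (PROOF.md section KERNEL). -/

namespace Vale.Agent.P262

open Finset
open scoped RealInnerProductSpace

namespace Ker

noncomputable section

variable {d : ℕ} (V : ℕ → EuclideanSpace ℝ (Fin d)) (γ : ℝ)

/-- one contraction step -/
def Gam (i : ℕ) : EuclideanSpace ℝ (Fin d) →ₗ[ℝ] EuclideanSpace ℝ (Fin d) where
  toFun w := w - (γ * ⟪V i, w⟫) • V i
  map_add' a b := by rw [inner_add_right, mul_add, add_smul]; abel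
  map_smul' a b := by
    simp only [real_inner_smul_right, RingHom.id_apply, smul_sub, smul_smul]
    congr 2; ring

theorem Gam_apply (i : ℕ) (w : EuclideanSpace ℝ (Fin d)) :
    Gam V γ i w = w - (γ * ⟪V i, w⟫) • V i := rfl

/-- energy loss factor -/
def cc (i : ℕ) : ℝ := 2 * γ - γ ^ 2 * ‖V i‖ ^ 2

theorem norm_Gam (i : ℕ) (w : EuclideanSpace ℝ (Fin d)) :
    ‖Gam V γ i w‖ ^ 2 = ‖w‖ ^ 2 - cc V γ i * ⟪V i, w⟫ ^ 2 := by
  rw [Gam_apply, norm_sub_sq_real, real_inner_smul_right, norm_smul, mul_pow, Real.norm_eq_abs,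
    sq_abs, real_inner_comm (V i) w, cc]
  ring

theorem inner_Gam (i : ℕ) (w u : EuclideanSpace ℝ (Fin d)) :
    ⟪w, Gam V γ i u⟫ = ⟪Gam V γ i w, u⟫ := by
  rw [Gam_apply, Gam_apply, inner_sub_right, inner_sub_left, real_inner_smul_right,
    real_inner_smul_left, real_inner_comm (V i) w]
  ring

/-- evolution from time `j` to a later time -/
def Psi (j : ℕ) : ℕ → EuclideanSpace ℝ (Fin d) →ₗ[ℝ] EuclideanSpace ℝ (Fin d)
  | 0 => LinearMap.id
  | m + 1 => if j ≤ m then Gam V γ m ∘ₗ Psi j m else Psi j m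

theorem Psi_of_le (j : ℕ) : ∀ m, m ≤ j → Psi V γ j m = LinearMap.id
  | 0, _ => rfl
  | m + 1, h => by
    rw [Psi, if_neg (by omega)]; exact Psi_of_le j m (by omega)

theorem energy (j m : ℕ) (w : EuclideanSpace ℝ (Fin d)) :
    ∑ i ∈ range m, (if j ≤ i then cc V γ i * ⟪V i, Psi V γ j i w⟫ ^ 2 else 0) +
      ‖Psi V γ j m w‖ ^ 2 = ‖w‖ ^ 2 := by
  induction m with
  | zero => simp [Psi]
  | succ m ih =>
    rw [sum_range_succ, Psi]
    split_ifs with h
    · rw [LinearMap.comp_apply, norm_Gam]; linarith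
    · linarith

/-- the vector born at time `k`, seen at time `j` -/
def U : ℕ → ℕ → EuclideanSpace ℝ (Fin d)
  | 0, _ => 0
  | j + 1, k => Gam V γ j (U j k) + if k = j then V j else 0

theorem U_of_le (k : ℕ) : ∀ j, j ≤ k → U V γ j k = 0
  | 0, _ => rfl
  | j + 1, h => by
    rw [U, U_of_le k j (by omega), map_zero, if_neg (by omega), add_zero]

theorem U_succ_self (k : ℕ) : U V γ (k + 1) k = V k := by
  rw [U, U_of_le V γ k k le_rfl, map_zero, if_pos rfl, zero_add]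

theorem Psi_U {j k : ℕ} (hk : k < j) (m : ℕ) (hm : j ≤ m) :
    Psi V γ j m (U V γ j k) = U V γ m k := by
  induction m, hm using Nat.le_induction with
  | base => rw [Psi_of_le V γ j j le_rfl]; rfl
  | succ m hm ih =>
    rw [Psi, if_pos hm, LinearMap.comp_apply, ih, U, if_neg (by omega), add_zero]

variable (N : ℕ)

/-- the future of a vector: energy lost at each later time, and final position -/
def T (j : ℕ) (r : Fin N ⊕ Fin d) : EuclideanSpace ℝ (Fin d) →ₗ[ℝ] ℝ where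
  toFun w := match r with
    | .inl i => if j ≤ (i : ℕ) then √(cc V γ i) * ⟪V i, Psi V γ j i w⟫ else 0
    | .inr a => Psi V γ j N w a
  map_add' a b := by
    rcases r with i | e
    · simp only [map_add, inner_add_right]
      split_ifs
      · ring
      · simp
    · simp
  map_smul' a b := by
    rcases r with i | e
    · simp only [map_smul, real_inner_smul_right, RingHom.id_apply, smul_eq_mul]
      split_ifs
      · ring
      · simp
    · simp

theorem T_inl (j : ℕ) (i : Fin N) (w : EuclideanSpace ℝ (Fin d)) :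
    T V γ N j (.inl i) w =
      if j ≤ (i : ℕ) then √(cc V γ i) * ⟪V i, Psi V γ j i w⟫ else 0 := rfl

theorem T_inr (j : ℕ) (a : Fin d) (w : EuclideanSpace ℝ (Fin d)) :
    T V γ N j (.inr a) w = Psi V γ j N w a := rfl

/-- the kernel -/
def kap : Fin N ⊕ Fin d → Fin N → ℝ
  | .inl i, k => √(cc V γ i) * ⟪V i, U V γ i k⟫
  | .inr a, k => U V γ N k a

/-- death times -/
def xx : Fin N ⊕ Fin d → ℕ
  | .inl i => i + 1
  | .inr _ => N + 1

variable {V γ}

theorem le_cc (hV : ∀ i, ‖V i‖ ≤ 1) (h0 : 0 < γ) (h1 : γ ≤ 1) (i : ℕ) : γ ≤ cc V γ i := by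
  have h2 : ‖V i‖ ^ 2 ≤ 1 := by
    have := hV i
    have := norm_nonneg (V i)
    nlinarith
  have h3 : γ ^ 2 * ‖V i‖ ^ 2 ≤ γ ^ 2 := by nlinarith [sq_nonneg γ]
  rw [cc]; nlinarith

theorem sum_T (hV : ∀ i, ‖V i‖ ≤ 1) (h0 : 0 < γ) (h1 : γ ≤ 1) (j : ℕ)
    (w : EuclideanSpace ℝ (Fin d)) : ∑ r, T V γ N j r w ^ 2 = ‖w‖ ^ 2 := by
  rw [Fintype.sum_sum_type, ← energy V γ j N w, EuclideanSpace.real_norm_sq_eq,
    ← Fin.sum_univ_eq_sum_range
      (fun i => if j ≤ i then cc V γ i * ⟪V i, Psi V γ j i w⟫ ^ 2 else 0)]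
  congr 1
  refine sum_congr rfl (fun i _ => ?_)
  rw [T_inl]
  split_ifs
  · rw [mul_pow, Real.sq_sqrt (h0.le.trans (le_cc hV h0 h1 i))]
  · simp

theorem res_kap {j : ℕ} (hj : j ≤ N) (r : Fin N ⊕ Fin d) (k : Fin N) :
    res (kap V γ N) (fun i k => (k : ℕ) < j ∧ j < xx N i) r k = T V γ N j r (U V γ j k) := by
  by_cases hk : (k : ℕ) < j
  · rcases r with i | a
    · rw [T_inl]
      by_cases hi : j ≤ (i : ℕ)
      · rw [if_pos hi, res_pos ⟨hk, Nat.lt_succ_of_le hi⟩, Psi_U V γ hk _ hi]; rfl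
      · rw [if_neg hi, res_neg (fun h => hi (Nat.le_of_lt_succ h.2))]
    · rw [T_inr, res_pos ⟨hk, Nat.lt_succ_of_le hj⟩, Psi_U V γ hk _ hj]; rfl
  · rw [res_neg (fun h => hk h.1), U_of_le V γ k j (by omega), map_zero]

theorem res_kap_big {j : ℕ} (hj : N < j) (r : Fin N ⊕ Fin d) : ¬ j < xx N r := by
  rcases r with i | a
  · have := i.2; simp only [xx]; omega
  · simp only [xx]; omega

theorem cm_kap (hV : ∀ i, ‖V i‖ ≤ 1) (h0 : 0 < γ) (h1 : γ ≤ 1) (k : Fin N) :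
    cm (kap V γ N) k ≤ 1 := by
  have h : ∀ r, kap V γ N r k = T V γ N (k + 1) r (V k) := by
    intro r
    rw [← U_succ_self V γ k, ← res_kap N (Nat.succ_le_of_lt k.2)]
    by_cases hr : (k : ℕ) + 1 < xx N r
    · rw [res_pos ⟨Nat.lt_succ_self _, hr⟩]
    · rw [res_neg (fun h => hr h.2)]
      rcases r with i | a
      · simp only [xx] at hr
        simp only [kap]
        rw [U_of_le V γ k i (by omega), inner_zero_right, mul_zero]
      · have := k.2; simp only [xx] at hr; omega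
  simp only [cm, h]
  rw [sum_T N hV h0 h1]
  have := hV k
  have := norm_nonneg (V k)
  nlinarith

theorem sum_ite_le (j : ℕ) {a : ℝ} (ha : 0 ≤ a) :
    ∑ k : Fin N, (if (k : ℕ) = j then a else 0) ≤ a := by
  by_cases hj : j < N
  · have : ∀ k : Fin N, ((k : ℕ) = j) ↔ k = ⟨j, hj⟩ := fun k => by rw [Fin.ext_iff]
    simp [this]
  · rw [sum_eq_zero (fun k _ => if_neg (by have := k.2; omega))]; exact ha

theorem sum_inner_U (hV : ∀ i, ‖V i‖ ≤ 1) (h0 : 0 < γ) (h1 : γ ≤ 1) (j : ℕ)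
    (w : EuclideanSpace ℝ (Fin d)) : ∑ k : Fin N, ⟪w, U V γ j k⟫ ^ 2 ≤ ‖w‖ ^ 2 / γ := by
  induction j generalizing w with
  | zero => simp only [U, inner_zero_right]; simp; positivity
  | succ j ih =>
    have h : ∀ k : Fin N, ⟪w, U V γ (j + 1) k⟫ ^ 2 = ⟪Gam V γ j w, U V γ j k⟫ ^ 2 +
        if (k : ℕ) = j then ⟪V j, w⟫ ^ 2 else 0 := by
      intro k
      rw [U, inner_add_right, inner_Gam]
      split_ifs with hk
      · rw [U_of_le V γ k j hk.ge, inner_zero_right, real_inner_comm]; ring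
      · simp
    simp only [h, sum_add_distrib]
    have h2 := ih (Gam V γ j w)
    have h3 := sum_ite_le N j (sq_nonneg ⟪V j, w⟫)
    rw [norm_Gam] at h2
    have h4 : ⟪V j, w⟫ ^ 2 ≤ cc V γ j * ⟪V j, w⟫ ^ 2 / γ := by
      rw [le_div_iff₀ h0]
      nlinarith [le_cc hV h0 h1 j, sq_nonneg ⟪V j, w⟫]
    rw [sub_div] at h2
    linarith

theorem sum_norm_U (hV : ∀ i, ‖V i‖ ≤ 1) (h0 : 0 < γ) (h1 : γ ≤ 1) (j : ℕ) :
    ∑ k : Fin N, ‖U V γ j k‖ ^ 2 ≤ d / γ := by
  simp only [EuclideanSpace.real_norm_sq_eq]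
  rw [sum_comm]
  calc ∑ a : Fin d, ∑ k : Fin N, U V γ j k a ^ 2 ≤ ∑ _a : Fin d, 1 / γ := by
        refine sum_le_sum (fun a _ => ?_)
        have := sum_inner_U N hV h0 h1 j (EuclideanSpace.single a 1)
        simpa [EuclideanSpace.inner_single_left] using this
    _ = d / γ := by simp [div_eq_mul_inv]

theorem lin_sq_le (f : EuclideanSpace ℝ (Fin d) →ₗ[ℝ] ℝ) (w : EuclideanSpace ℝ (Fin d)) :
    f w ^ 2 ≤ (∑ a, f (EuclideanSpace.single a 1) ^ 2) * ‖w‖ ^ 2 := by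
  have h : f w = ∑ a, f (EuclideanSpace.single a 1) * w a := by
    conv_lhs => rw [← (EuclideanSpace.basisFun (Fin d) ℝ).sum_repr w]
    simp [map_sum, mul_comm]
  rw [h, EuclideanSpace.real_norm_sq_eq]
  exact sum_mul_sq_le_sq_mul_sq _ _ _

theorem sum_Y (t : Fin N → ℝ) (j : ℕ) (hj : j ≤ N) :
    ∑ k : Fin N with k.val < j, (t k - ∑ l, γ * ⟪V k, U V γ k (l : Fin N)⟫ * t l) • V k =
      ∑ k : Fin N, t k • U V γ j k := by
  induction j with
  | zero => simp [U]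
  | succ j ih =>
    have hjN : j < N := hj
    have hf : (univ.filter fun k : Fin N => k.val < j + 1) =
        insert ⟨j, hjN⟩ (univ.filter fun k : Fin N => k.val < j) := by
      ext k; simp only [mem_filter, mem_univ, true_and, mem_insert, Fin.ext_iff]; omega
    rw [hf, sum_insert (by simp), ih hjN.le]
    have h : ∀ k : Fin N, ((k : ℕ) = j) ↔ k = ⟨j, hjN⟩ := fun k => by rw [Fin.ext_iff]
    simp only [U, Gam_apply, smul_add, smul_sub, sum_add_distrib, sum_sub_distrib, h, smul_ite,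
      smul_zero, sum_ite_eq', mem_univ, if_true, sub_smul, sum_smul, smul_smul]
    have : ∀ l : Fin N, (γ * ⟪V j, U V γ j l⟫ * t l) • V j
        = (t l * (γ * ⟪V j, U V γ j l⟫)) • V j := fun l => by rw [mul_comm]
    simp only [this]
    abel

end

end Ker

open Ker in
theorem kernel {d N : ℕ} (v : Fin N → EuclideanSpace ℝ (Fin d)) (hv : ∀ i, ‖v i‖ ≤ 1) {γ : ℝ}
    (h0 : 0 < γ) (h1 : γ ≤ 1) :
    ∃ (κ : Fin N ⊕ Fin d → Fin N → ℝ) (x : Fin N ⊕ Fin d → ℕ) (o : Fin N → Fin N → ℝ),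
      (∀ k, cm κ k ≤ 1) ∧
      (∀ j : ℕ, mass (res κ fun i k => (k : ℕ) < j ∧ j < x i) ≤ d / γ) ∧
      (∀ j : ℕ, ∃ a bb, Dom κ (fun i k => (k : ℕ) < j ∧ j < x i) a bb ∧ ∑ i, a i ≤ d ∧
        ∑ k, bb k ≤ d / γ) ∧
      (∀ j k, j ≤ k → o j k = 0) ∧ (∀ j, ∑ k, o j k ^ 2 ≤ γ) ∧ (∀ k, ∑ j, o j k ^ 2 ≤ γ) ∧
      ∀ (t : Fin N → ℝ) (j : ℕ), j ≤ N →
        ‖∑ k : Fin N with k.val < j, (t k - ∑ l, o k l * t l) • v k‖ ^ 2 =
          nrm (res κ fun i k => (k : ℕ) < j ∧ j < x i) t := by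
  obtain ⟨V, hV, hVv⟩ : ∃ V : ℕ → EuclideanSpace ℝ (Fin d), (∀ i, ‖V i‖ ≤ 1) ∧
      ∀ k : Fin N, V k = v k := by
    refine ⟨fun i => if h : i < N then v ⟨i, h⟩ else 0, fun i => ?_, fun k => ?_⟩
    · by_cases h : i < N
      · simp only [dif_pos h]; exact hv _
      · simp only [dif_neg h]; simp
    · simp only [dif_pos k.2]
  have hd : (0 : ℝ) ≤ d / γ := by positivity
  refine ⟨kap V γ N, xx N, fun j k => γ * ⟪V j, U V γ j k⟫, cm_kap N hV h0 h1, fun j => ?_,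
    fun j => ?_, fun j k hjk => ?_, fun j => ?_, fun k => ?_, fun t j hj => ?_⟩
  · by_cases hj : j ≤ N
    · simp only [mass, res_kap N hj]
      rw [sum_comm]
      simp only [sum_T N hV h0 h1]
      exact sum_norm_U N hV h0 h1 j
    · have : ∀ r k, res (kap V γ N) (fun i k => (k : ℕ) < j ∧ j < xx N i) r k = 0 :=
        fun r k => res_neg (fun h => res_kap_big N (not_le.1 hj) r h.2)
      simp only [mass, this]
      simpa using hd
  · by_cases hj : j ≤ N
    · refine ⟨fun r => ∑ a, T V γ N j r (EuclideanSpace.single a 1) ^ 2,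
        fun k => ‖U V γ j k‖ ^ 2, ⟨fun r => sum_nonneg fun _ _ => sq_nonneg _,
          fun k => sq_nonneg _, fun r k h => ?_⟩, ?_, sum_norm_U N hV h0 h1 j⟩
      · have e := res_kap (V := V) (γ := γ) N hj r k
        rw [res_pos (P := fun i (k : Fin N) => (k : ℕ) < j ∧ j < xx N i) h] at e
        rw [e]
        exact lin_sq_le _ _
      · rw [sum_comm]
        simp [sum_T N hV h0 h1]
    · refine ⟨0, 0, ⟨fun _ => le_rfl, fun _ => le_rfl, fun r k h => ?_⟩, by simp, by simpa using hd⟩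
      exact (res_kap_big N (not_le.1 hj) r h.2).elim
  · simp only
    rw [U_of_le V γ k j hjk, inner_zero_right, mul_zero]
  · simp only [mul_pow, ← mul_sum]
    have h2 := sum_inner_U N hV h0 h1 j (V j)
    have h3 : ‖V j‖ ^ 2 ≤ 1 := by
      have := hV j
      have := norm_nonneg (V j)
      nlinarith
    have h4 : ‖V j‖ ^ 2 / γ ≤ 1 / γ := by gcongr
    calc γ ^ 2 * ∑ k : Fin N, ⟪V j, U V γ j k⟫ ^ 2 ≤ γ ^ 2 * (1 / γ) := by
          gcongr; exact h2.trans h4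
      _ = γ := by field_simp
  · have h2 := cm_kap N hV h0 h1 k
    rw [cm, Fintype.sum_sum_type] at h2
    have h3 : 0 ≤ ∑ a : Fin d, kap V γ N (.inr a) k ^ 2 := sum_nonneg fun _ _ => sq_nonneg _
    have h4 : ∑ j : Fin N, (γ * ⟪V j, U V γ j k⟫) ^ 2 ≤
        γ * ∑ j : Fin N, kap V γ N (.inl j) k ^ 2 := by
      rw [mul_sum]
      refine sum_le_sum (fun j _ => ?_)
      have hc := le_cc hV h0 h1 j
      simp only [kap]
      rw [mul_pow, mul_pow, Real.sq_sqrt (h0.le.trans hc)]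
      nlinarith [mul_nonneg h0.le (sq_nonneg ⟪V j, U V γ j k⟫)]
    refine h4.trans ?_
    nlinarith
  · simp only [← hVv]
    rw [sum_Y N t j hj, ← sum_T N hV h0 h1 j]
    simp only [nrm, res_kap N hj, map_sum, map_smul, smul_eq_mul, mul_comm]

end Vale.Agent.P262
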