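import Vale.Agent.P262.Defs

/-! Transference from signs to rearrangements (PROOF.md section STEINITZ). -/

namespace Vale.Agent.P262

open Finset

lemma steinitz_sort {N : ℕ} (key : Fin N → ℕ) (hk : Function.Injective key) :
    ∃ τ : Equiv.Perm (Fin N), ∀ k ≤ N, ∃ c : ℕ, ∀ i : Fin N, i.val < k ↔ key (τ i) < c := by
  have hs : StrictMono (key ∘ Tuple.sort key) :=
    (Tuple.monotone_sort key).strictMono_of_injective (hk.comp (Tuple.sort key).injective)
  refine ⟨Tuple.sort key, fun k hk => ?_⟩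
  rcases hk.lt_or_eq with h | h
  · exact ⟨key (Tuple.sort key ⟨k, h⟩), fun i => (hs.lt_iff_lt (a := i) (b := ⟨k, h⟩)).symm⟩
  · refine ⟨univ.sup key + 1, fun i => ⟨fun _ => Nat.lt_succ_of_le (le_sup (mem_univ _)),
      fun _ => h ▸ i.2⟩⟩

lemma steinitz_step {E : Type} [NormedAddCommGroup E] [NormedSpace ℝ E] {N : ℕ} {σ B : ℝ}
    (w : Fin N → E) (ε : Fin N → ℝ) (hε : ∀ i, ε i = 1 ∨ ε i = -1)
    (hσ : ∀ k ≤ N, ‖∑ i : Fin N with i.val < k, ε i • w i‖ ≤ σ)
    (hB : ∀ k ≤ N, ‖∑ i : Fin N with i.val < k, w i‖ ≤ B) (h0 : ∑ i, w i = 0) :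
    ∃ τ : Equiv.Perm (Fin N), ∀ k ≤ N,
      ‖∑ i : Fin N with i.val < k, w (τ i)‖ ≤ (B + σ) / 2 := by
  classical
  let key : Fin N → ℕ := fun i => if ε i = 1 then i else 2 * N - i
  have hinj : Function.Injective key := by
    intro i j h
    have := i.2
    have := j.2
    simp only [key] at h
    apply Fin.ext
    split_ifs at h <;> omega
  obtain ⟨τ, hτ⟩ := steinitz_sort key hinj
  refine ⟨τ, fun k hk => ?_⟩
  obtain ⟨c, hc⟩ := hτ k hk
  have e1 : ∑ i : Fin N with i.val < k, w (τ i) = ∑ j, if key j < c then w j else 0 := by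
    rw [sum_filter, ← Equiv.sum_comp τ fun j => if key j < c then w j else 0]
    exact sum_congr rfl fun i _ => by simp only [hc]
  have half : ∀ x y : E, ‖x‖ ≤ B → ‖y‖ ≤ σ → ‖(1 / 2 : ℝ) • (x + y)‖ ≤ (B + σ) / 2 := by
    intro x y hx hy
    rw [norm_smul, Real.norm_of_nonneg (by norm_num)]
    linarith [norm_add_le x y]
  rw [e1]
  rcases le_or_gt c N with h | h
  · refine le_trans (le_of_eq ?_) (half _ _ (hB c h) (hσ c h))
    rw [sum_filter, sum_filter, ← sum_add_distrib, smul_sum]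
    congr 1
    refine sum_congr rfl fun j _ => ?_
    have := j.2
    rcases hε j with h1 | h1
    · simp only [key, h1, if_true, one_smul]
      split_ifs
      · module
      · simp
    · have h2 : ε j ≠ 1 := by rw [h1]; norm_num
      simp only [key, if_neg h2]
      rw [if_neg (by omega), h1]
      split_ifs <;> simp
  · have hm : 2 * N + 1 - c ≤ N := by omega
    refine le_trans (le_of_eq ?_) (half _ _ ((norm_neg _).trans_le (hB _ hm)) (hσ _ hm))
    have e2 : ∀ x : E, x = x + ∑ i, w i := fun x => by rw [h0, add_zero]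
    rw [e2 ((1 / 2 : ℝ) • _), sum_filter, sum_filter, ← sum_neg_distrib, ← sum_add_distrib,
      smul_sum, ← sum_add_distrib]
    congr 1
    refine sum_congr rfl fun j _ => ?_
    have := j.2
    rcases hε j with h1 | h1
    · simp only [key, h1, if_true, one_smul]
      rw [if_pos (by omega)]
      split_ifs <;> simp
    · have h2 : ε j ≠ 1 := by rw [h1]; norm_num
      simp only [key, if_neg h2]
      rw [h1]
      by_cases h3 : j.val < 2 * N + 1 - c
      · rw [if_neg (by omega), if_pos h3, if_pos h3]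
        module
      · rw [if_pos (by omega), if_neg h3, if_neg h3]
        simp

theorem steinitz {E : Type} [NormedAddCommGroup E] [NormedSpace ℝ E] {N : ℕ} {σ : ℝ}
    (hσ : ∀ v : Fin N → E, (∀ i, ‖v i‖ ≤ 1) → ∃ ε : Fin N → ℝ, (∀ i, ε i = 1 ∨ ε i = -1) ∧
      ∀ k ≤ N, ‖∑ i : Fin N with i.val < k, ε i • v i‖ ≤ σ)
    (v : Fin N → E) (hv : ∀ i, ‖v i‖ ≤ 1) (h0 : ∑ i, v i = 0) :
    ∃ π : Equiv.Perm (Fin N), ∀ k ≤ N, ‖∑ i : Fin N with i.val < k, v (π i)‖ ≤ σ := by
  let be : Equiv.Perm (Fin N) → ℝ := fun π =>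
    (range (N + 1)).sup' nonempty_range_add_one fun k => ‖∑ i : Fin N with i.val < k, v (π i)‖
  have hbe : ∀ π, ∀ k ≤ N, ‖∑ i : Fin N with i.val < k, v (π i)‖ ≤ be π := fun π k hk =>
    le_sup' (fun k => ‖∑ i : Fin N with i.val < k, v (π i)‖) (mem_range.2 (by omega))
  obtain ⟨π, hπ⟩ := Finite.exists_min be
  obtain ⟨ε, hε, hε'⟩ := hσ (fun i => v (π i)) fun i => hv _
  obtain ⟨τ, hτ⟩ := steinitz_step (fun i => v (π i)) ε hε hε' (hbe π)
    (by rw [Equiv.sum_comp π v, h0])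
  have h1 : be (π * τ) ≤ (be π + σ) / 2 :=
    sup'_le _ _ fun k hk => hτ k (by simpa [Nat.lt_succ_iff] using hk)
  refine ⟨π, fun k hk => (hbe π k hk).trans ?_⟩
  linarith [hπ (π * τ)]

end Vale.Agent.P262
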