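import Vale.Agent.P262.Top
import Vale.Agent.P262.Kernel
import Vale.Agent.P262.KL
import Vale.Agent.P262.Dens
import Vale.Agent.P262.Steinitz

/-! Assembly of the proof (PROOF.md section MAIN). -/

namespace Vale.Agent.P262

open Finset

theorem master {N : ℕ} {c : Fin N → ℝ} {S : Set (Fin N → ℝ)} (hG : Good c S) {c0 M : ℝ}
    (hc : ∀ k, c k ≤ c0) (hM : 0 < M) (hMc : 18432 * (1 / 2 + c0) ≤ M ^ 2)
    (o : Fin N → Fin N → ℝ) (ho : ∀ j k, j ≤ k → o j k = 0)
    (hS : ∀ t ∈ S, ∀ j, |∑ k, o j k * t k| ≤ 1 / (4 * M)) :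
    ∃ t : Fin N → ℝ, M⁻¹ • t ∈ S ∧ ∀ j, |t j - ∑ k, o j k * t k| = 1 := by
  obtain ⟨β, hβ, r, h1, h2, h3⟩ := hG
  obtain ⟨f, f0, fi, f1, fxi, fx0, fs, ftv⟩ := dens r h1
  let C : Set (Fin N → ℝ) := ⋂ b, {x | nrm (r b).A x ≤ 64 * (r b).ρ}
  have hC : IsClosed C := isClosed_iInter fun b =>
    isClosed_le (continuous_nrm _) continuous_const
  have hCc : Convex ℝ C := convex_iInter fun b => by
    simpa using (convexOn_nrm (r b).A).convex_le (64 * (r b).ρ)
  have hCS : ∀ z ∈ C, (8 : ℝ)⁻¹ • z ∈ S := fun z hz => h3 _ fun b => by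
    have := Set.mem_iInter.1 hz b
    rw [nrm_smul]
    simp only [Set.mem_setOf_eq] at this
    linarith
  obtain ⟨t, ht, hε⟩ := kl f f0 fi f1 fxi fx0 hC hCc (fun x hx => Set.mem_iInter.2 (fs x hx))
    (τ := 8 / M) (by positivity) (fun k => ftv k _ (by
      have h4 := (h2 k).trans (hc k)
      have h5 : (3 * (8 / M)) ^ 2 = 576 / M ^ 2 := by field_simp; norm_num
      rw [h5, div_mul_eq_mul_div, div_le_iff₀ (by positivity)]
      nlinarith)) o ho (fun z hz j => by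
      have h4 := hS _ (hCS z hz) j
      have h5 : ∑ k, o j k * ((8 : ℝ)⁻¹ • z) k = 8⁻¹ * ∑ k, o j k * z k := by
        rw [Finset.mul_sum]
        exact Finset.sum_congr rfl fun k _ => by simp only [Pi.smul_apply, smul_eq_mul]; ring
      rw [h5, abs_mul, abs_of_pos (by norm_num : (0 : ℝ) < 8⁻¹)] at h4
      have h6 : 8 / M / 4 = 8 * (1 / (4 * M)) := by field_simp
      rw [h6]
      linarith)
  refine ⟨t, ?_, hε⟩
  have := hCS _ ht
  rwa [smul_smul, show (8 : ℝ)⁻¹ * (8 / M) = M⁻¹ by field_simp] at this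

theorem signs : ∃ C : ℝ, ∀ (d N : ℕ) (v : Fin N → EuclideanSpace ℝ (Fin d)), (∀ i, ‖v i‖ ≤ 1) →
    ∃ ε : Fin N → ℝ, (∀ i, ε i = 1 ∨ ε i = -1) ∧
      ∀ k ≤ N, ‖∑ i : Fin N with i.val < k, ε i • v i‖ ≤ C * √d := by
  let M : ℝ := 2000
  let γ : ℝ := 1 / (16 * M ^ 2)
  have hγ0 : 0 < γ := by positivity
  have hγ1 : γ ≤ 1 := by norm_num [γ, M]
  refine ⟨M * 1000 * √(4 / γ), fun d N v hv => ?_⟩
  rcases Nat.eq_zero_or_pos d with rfl | hd
  · exact ⟨fun _ => 1, fun _ => Or.inl rfl, fun k _ => by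
      rw [Subsingleton.elim (∑ i : Fin N with i.val < k, (1 : ℝ) • v i) 0]; simp⟩
  obtain ⟨κ, x, o, hcm, hload, hdom, ho, ho1, ho2, hpre⟩ := kernel v hv hγ0 hγ1
  have hd1 : (1 : ℝ) ≤ d := by exact_mod_cast hd
  have hdγ : (d : ℝ) ≤ d / γ := by
    rw [le_div_iff₀ hγ0]; nlinarith
  obtain ⟨L, hL1, hL2⟩ := exists_nat_pow_near (hd1.trans hdγ) (one_lt_two (α := ℝ))
  have hT := top κ (fun k => (k : ℕ)) x (L + 1) (fun j => (hload j).trans hL2.le)
  have hO := good_iInter (α := Fin N) (fun j => good_basic (fun _ : Unit => o j) hγ0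
    (by simpa [mass] using ho1 j))
  obtain ⟨t, ⟨hT', hO'⟩, hε⟩ := master (hT.inter hO) (c0 := 201) (M := M) (fun k => by
      have h1 : ∑ j, mass (fun _ : Unit => o j) ^ 2 / γ ^ 3 * cm (fun _ : Unit => o j) k ≤
          ∑ j, 1 / γ * o j k ^ 2 := Finset.sum_le_sum fun j _ => by
        have h2 : mass (fun _ : Unit => o j) ≤ γ := by simpa [mass] using ho1 j
        have h3 := mass_nonneg (fun _ : Unit => o j)
        have h4 : cm (fun _ : Unit => o j) k = o j k ^ 2 := by simp [cm]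
        rw [h4]
        refine mul_le_mul_of_nonneg_right ?_ (sq_nonneg _)
        rw [div_le_div_iff₀ (by positivity) hγ0]
        have : mass (fun _ : Unit => o j) ^ 2 ≤ γ ^ 2 := by gcongr
        nlinarith
      rw [← Finset.mul_sum] at h1
      have h5 : 1 / γ * ∑ j, o j k ^ 2 ≤ 1 := by
        rw [one_div, inv_mul_le_iff₀ hγ0]; simpa using ho2 k
      have := hcm k
      linarith) (by norm_num [M]) (by norm_num [M]) o ho (fun t ht j => by
      have h1 := ht.2 j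
      simp only [Set.mem_setOf_eq, nrm, Finset.univ_unique, Finset.sum_singleton] at h1
      apply abs_le_of_sq_le_sq' _ (by positivity) |> abs_le.2
      refine h1.trans (le_of_eq ?_)
      norm_num [γ, M])
  refine ⟨fun i => t i - ∑ l, o i l * t l, fun i => by
    rcases abs_eq (zero_le_one' ℝ) |>.1 (hε i) with h | h
    exacts [Or.inl h, Or.inr h], fun k hk => ?_⟩
  obtain ⟨a, bb, hab, ha, hb⟩ := hdom k
  have h1 := hT' k a bb hab
  rw [nrm_smul, ← hpre t k hk] at h1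
  apply abs_le_of_sq_le_sq' _ (by positivity) |>.2
  have h2 : (2 : ℝ) ^ (L + 1) + ∑ i, a i + ∑ k, bb k ≤ 4 / γ * d := by
    have : 4 / γ * d = 4 * (d / γ) := by ring
    rw [this, pow_succ]; linarith
  rw [inv_pow, inv_mul_le_iff₀ (by positivity)] at h1
  rw [mul_pow, mul_pow, mul_pow, Real.sq_sqrt (by positivity), Real.sq_sqrt (by positivity)]
  have hM : (0 : ℝ) ≤ M ^ 2 := by positivity
  nlinarith [mul_le_mul_of_nonneg_left h2 hM]

end Vale.Agent.P262
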