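import Vale.Agent.P262.SB
import Vale.Agent.P262.Dec

/-! Old columns against near rows, all levels at once (PROOF.md section P3). -/

namespace Vale.Agent.P262

open Finset

lemma geo_sum_le {r : ℝ} (h0 : 0 ≤ r) (h1 : r < 1) (H : ℕ) :
    ∑ f ∈ range H, r ^ f ≤ (1 - r)⁻¹ := by
  rw [← tsum_geometric_of_lt_one h0 h1]
  exact (summable_geometric_of_lt_one h0 h1).sum_le_tsum _ (fun _ _ => by positivity)

theorem p3 {ι K : Type} [Fintype ι] [Fintype K] {π : ℕ → ℕ → ℕ} (hπ : Nest π)
    (h0 : ∀ a, π 0 a = a) (L : ℕ) (κ : ι → K → ℝ) (x : ι → ℕ) (lv : ι → K → ℕ) :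
    Good (fun k => 30 * cm κ k)
      {t | ∀ (j : ℕ) (q : ι → ℕ), (∀ i, j < x i → q i < 2 ^ L ∧ Lev π (q i) j (x i)) →
        nrm (res κ fun i k => j < x i ∧ q i < lv i k) t ≤
          20000 * (mass (res κ fun i k => j < x i ∧ q i < lv i k) + 2 ^ L)} := by
  classical
  choose ky ke h1 h2 h3 h4 using
    fun i : ι => dec (fun k => κ i k ^ 2) (fun k => sq_nonneg _) (lv i)
  have hH : ∃ H : ℕ, ∀ i k p f, κ i k ≠ 0 → p < 2 ^ L → ke i f k = ky i f p → f < H := by
    have hφ : ∀ (i : ι) (k : K) (p : ℕ), ∃ g : ℕ, ∀ f, κ i k ≠ 0 → ke i f k = ky i f p → f = g := by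
      intro i k p
      by_cases hex : ∃ f, κ i k ≠ 0 ∧ ke i f k = ky i f p
      · obtain ⟨g, hg1, hg2⟩ := hex
        have hw : κ i k ^ 2 ≠ 0 := pow_ne_zero 2 hg1
        exact ⟨g, fun f _ hf => (h2 i k p hw (h3 i k p g hw hg2)).unique hf hg2⟩
      · exact ⟨0, fun f ha hb => absurd ⟨f, ha, hb⟩ hex⟩
    choose φ hφ using hφ
    refine ⟨(univ ×ˢ univ ×ˢ range (2 ^ L)).sup (fun a : ι × K × ℕ => φ a.1 a.2.1 a.2.2) + 1,
      fun i k p f hk hp hf => Nat.lt_succ_of_le ?_⟩
    rw [hφ i k p f hk hf]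
    exact Finset.le_sup (f := fun a : ι × K × ℕ => φ a.1 a.2.1 a.2.2) (b := (i, k, p))
      (by simp [hp])
  obtain ⟨H, hH⟩ := hH
  have hG := good_biInter (range H) (fun f _ =>
    (fam hπ h0 L κ x (fun i => ky i f) (fun i => ke i f) (fun i => h1 i f)
      (V := (3 / 4) ^ f) (by positivity)).boost (B := (11 / 10) ^ f)
      (one_le_pow₀ (by norm_num)))
  refine hG.mono (fun k => ?_) (fun t ht j q hq => ?_)
  · have hc := cm_nonneg κ k
    calc ∑ f ∈ range H, 6 / (3 / 4 : ℝ) ^ f * cm κ k / ((11 / 10) ^ f) ^ 6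
        ≤ ∑ f ∈ range H, 6 * cm κ k * (4 / 5 : ℝ) ^ f := by
          refine Finset.sum_le_sum fun f _ => ?_
          have e1 : 6 / (3 / 4 : ℝ) ^ f * cm κ k / ((11 / 10) ^ f) ^ 6 =
              6 * cm κ k * (1 / (3 / 4 * (11 / 10) ^ 6)) ^ f := by
            rw [← pow_mul, mul_comm f 6, pow_mul, one_div_pow, mul_pow]
            field_simp
          rw [e1]
          exact mul_le_mul_of_nonneg_left
            (pow_le_pow_left₀ (by positivity) (by norm_num) f) (by positivity)
      _ = 6 * cm κ k * ∑ f ∈ range H, (4 / 5 : ℝ) ^ f := by rw [Finset.mul_sum]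
      _ ≤ 6 * cm κ k * (1 - 4 / 5)⁻¹ :=
          mul_le_mul_of_nonneg_left (geo_sum_le (by norm_num) (by norm_num) H) (by positivity)
      _ = 30 * cm κ k := by ring
  · have hsum : res κ (fun i k => j < x i ∧ q i < lv i k) =
        ∑ f ∈ range H, res κ (fun i k => j < x i ∧ ke i f k = ky i f (q i)) := by
      funext i k
      simp only [Finset.sum_apply]
      by_cases hk : κ i k = 0
      · simp [res, hk]
      have hw : κ i k ^ 2 ≠ 0 := pow_ne_zero 2 hk
      by_cases hP : j < x i ∧ q i < lv i k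
      · obtain ⟨g, hg, hu⟩ := h2 i k (q i) hw hP.2
        rw [res_pos (P := fun i k => j < x i ∧ q i < lv i k) hP,
          Finset.sum_eq_single_of_mem g (mem_range.2 (hH i k (q i) g hk (hq i hP.1).1 hg))]
        · exact (res_pos (P := fun i k => j < x i ∧ ke i g k = ky i g (q i)) ⟨hP.1, hg⟩).symm
        · intro f _ hne
          exact res_neg fun h => hne (hu f h.2)
      · rw [res_neg (P := fun i k => j < x i ∧ q i < lv i k) hP]
        exact (Finset.sum_eq_zero fun f _ =>
          res_neg fun h => hP ⟨h.1, h3 i k (q i) f hw h.2⟩).symm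
    have hM := mass_nonneg (res κ fun i k => j < x i ∧ q i < lv i k)
    have hmass : ∀ f, mass (res κ (fun i k => j < x i ∧ ke i f k = ky i f (q i))) ≤
        4 * (3 / 4) ^ f * mass (res κ fun i k => j < x i ∧ q i < lv i k) := by
      intro f
      unfold mass
      rw [Finset.mul_sum]
      refine Finset.sum_le_sum fun i _ => ?_
      by_cases hj : j < x i
      · have := h4 i f (q i)
        rw [Finset.sum_filter, Finset.sum_filter] at this
        simpa [res, hj] using this
      · simp [res, hj]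
    have hnrm : ∀ f ∈ range H,
        nrm (res κ (fun i k => j < x i ∧ ke i f k = ky i f (q i))) t / (19 / 20) ^ f ≤
          (32 * mass (res κ fun i k => j < x i ∧ q i < lv i k) + 16 * 2 ^ L) * (24 / 25) ^ f := by
      intro f hf
      have h5 := ht f hf j q hq
      rw [nrm_smul, inv_pow, inv_mul_le_iff₀ (by positivity)] at h5
      have h6 := hmass f
      rw [div_le_iff₀ (by positivity)]
      refine h5.trans ?_
      have h7 : (((11 / 10 : ℝ) ^ f) ^ 2) * (3 / 4) ^ f ≤ (24 / 25) ^ f * (19 / 20) ^ f := by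
        rw [← pow_mul, mul_comm f 2, pow_mul, ← mul_pow, ← mul_pow]
        exact pow_le_pow_left₀ (by positivity) (by norm_num) f
      calc ((11 / 10 : ℝ) ^ f) ^ 2 *
            (8 * mass (res κ (fun i k => j < x i ∧ ke i f k = ky i f (q i))) +
              16 * 2 ^ L * (3 / 4) ^ f)
          ≤ ((11 / 10 : ℝ) ^ f) ^ 2 * ((3 / 4) ^ f *
            (32 * mass (res κ fun i k => j < x i ∧ q i < lv i k) + 16 * 2 ^ L)) :=
            mul_le_mul_of_nonneg_left (by linarith) (by positivity)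
        _ = (32 * mass (res κ fun i k => j < x i ∧ q i < lv i k) + 16 * 2 ^ L) *
            ((((11 / 10 : ℝ) ^ f) ^ 2) * (3 / 4) ^ f) := by ring
        _ ≤ (32 * mass (res κ fun i k => j < x i ∧ q i < lv i k) + 16 * 2 ^ L) *
            ((24 / 25) ^ f * (19 / 20) ^ f) := mul_le_mul_of_nonneg_left h7 (by positivity)
        _ = _ := by ring
    have h8 := nrm_sum_le (range H)
      (fun f => res κ (fun i k => j < x i ∧ ke i f k = ky i f (q i)))
      (fun f => (19 / 20 : ℝ) ^ f) (fun f _ => by positivity) t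
    rw [← hsum] at h8
    have h9 := Finset.sum_le_sum hnrm
    rw [← Finset.mul_sum] at h9
    have h10 := geo_sum_le (r := 19 / 20) (by norm_num) (by norm_num) H
    have h11 := geo_sum_le (r := 24 / 25) (by norm_num) (by norm_num) H
    have h12 : (0 : ℝ) ≤ 2 ^ L := by positivity
    have h13 : (0 : ℝ) ≤ ∑ f ∈ range H, (19 / 20 : ℝ) ^ f :=
      Finset.sum_nonneg fun _ _ => by positivity
    have h14 : (0 : ℝ) ≤ ∑ f ∈ range H, (24 / 25 : ℝ) ^ f :=
      Finset.sum_nonneg fun _ _ => by positivity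
    refine h8.trans ?_
    calc _ ≤ (1 - 19 / 20 : ℝ)⁻¹ *
          ((32 * mass (res κ fun i k => j < x i ∧ q i < lv i k) + 16 * 2 ^ L) *
            (1 - 24 / 25)⁻¹) := by
          refine (mul_le_mul_of_nonneg_left h9 h13).trans ?_
          gcongr
      _ ≤ _ := by norm_num; linarith

end Vale.Agent.P262
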