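import Vale.Agent.P262.ST

/-! Static items living on ranges of levels (PROOF.md sections SB and FAM). -/

namespace Vale.Agent.P262

open Finset

lemma res_eq_add_two {ι K : Type} {κ : ι → K → ℝ} {T P R : ι → K → Prop}
    (h : ∀ i k, κ i k ≠ 0 → (T i k ↔ P i k ∨ R i k)) (h1 : ∀ i k, P i k → R i k → False) :
    res κ T = res κ P + res κ R := by
  funext i k
  have := h i k
  have := h1 i k
  by_cases h0 : κ i k = 0
  · simp [res, h0]
  by_cases hP : P i k <;> by_cases hR : R i k <;> simp_all [res]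

lemma nrm_res_add_of_rows {ι K : Type} [Fintype ι] [Fintype K] (κ : ι → K → ℝ)
    {P R : ι → K → Prop} (h : ∀ i k k', P i k → R i k' → False) (t : K → ℝ) :
    nrm (res κ P + res κ R) t = nrm (res κ P) t + nrm (res κ R) t :=
  nrm_add_of_rows (fun i k k' h1 h2 => h i k k' (res_ne_zero h1).1 (res_ne_zero h2).1) t

theorem sb {ε K : Type} [Fintype ε] [Fintype K] {π : ℕ → ℕ → ℕ} (hπ : Nest π) (x up : ε → ℕ)
    (A : ε → ℕ → Prop) (hA : ∀ e j j', j ≤ j' → A e j' → A e j) {V : ℝ} (hV : 0 < V) (L : ℕ) :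
    ∀ (base : ℕ) (κ : ε → K → ℝ), (∀ e k, κ e k ≠ 0 → base < up e ∧ up e ≤ base + 2 ^ L) →
      Good (fun k => (6 - 4 * (2 / 3) ^ L) / V * cm κ k)
        {t | ∀ j, nrm (res κ fun e _ => A e j ∧ π base j < π base (x e) ∧
              π (up e) j = π (up e) (x e)) t ≤
            8 * mass (res κ fun e _ => A e j ∧ π base j < π base (x e) ∧
              π (up e) j = π (up e) (x e)) + (16 * 2 ^ L - 12 * (3 / 2) ^ L) * V} := by
  have hS : ∀ base j j' e, j ≤ j' → (A e j' ∧ π base j' < π base (x e)) →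
      (A e j ∧ π base j < π base (x e)) := fun base j j' e h h' =>
    ⟨hA e j j' h h'.1, lt_of_le_of_lt (hπ.mono base h) h'.2⟩
  induction L with
  | zero =>
    intro base κ hκ
    refine (lg0 κ (fun e => π (base + 1) (x e)) (fun j e => A e j ∧ π base j < π base (x e))
      (hS base) hV).mono (fun k => by norm_num) fun t ht j => ?_
    have h1 := ht j (π (base + 1) j)
    have h2 : (res κ fun e _ => A e j ∧ π base j < π base (x e) ∧ π (up e) j = π (up e) (x e)) =
        res κ fun e _ => (A e j ∧ π base j < π base (x e)) ∧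
          π (base + 1) (x e) = π (base + 1) j := by
      refine res_congr fun e k h => ?_
      have : up e = base + 1 := by have := hκ e k h; omega
      rw [this, and_assoc, eq_comm]
    rw [h2]
    norm_num
    linarith
  | succ L ih =>
    intro base κ hκ
    have G1 := ih base (res κ fun e _ => up e ≤ base + 2 ^ L) fun e k h =>
      ⟨(hκ e k (res_ne_zero h).2).1, (res_ne_zero h).1⟩
    have G2 := ih (base + 2 ^ L) (res κ fun e _ => base + 2 ^ L < up e) fun e k h =>
      ⟨(res_ne_zero h).1, by have := (hκ e k (res_ne_zero h).2).2; rw [pow_succ] at this; omega⟩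
    have G3 := lg0 (res κ fun e _ => base + 2 ^ L < up e) (fun e => π (base + 2 ^ L) (x e))
      (fun j e => A e j ∧ π base j < π base (x e)) (hS base) (V := V * (3 / 2) ^ (L + 1))
      (by positivity)
    refine ((G1.inter G2).inter G3).mono (fun k => ?_) ?_
    · have h1 := cm_res_add_le (κ := κ) (P := fun e _ => up e ≤ base + 2 ^ L)
        (R := fun e _ => base + 2 ^ L < up e) (fun e k _ h h' => by omega) k
      have h2 := cm_res_le κ (fun e _ => base + 2 ^ L < up e) k
      have h3 : (2 / 3 : ℝ) ^ L ≤ 1 := pow_le_one₀ (by norm_num) (by norm_num)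
      have h4 : 0 ≤ (6 - 4 * (2 / 3 : ℝ) ^ L) / V := div_nonneg (by linarith) hV.le
      have h5 : 2 / (V * (3 / 2) ^ (L + 1)) = 2 * (2 / 3) ^ (L + 1) / V := by
        rw [show (2 / 3 : ℝ) = (3 / 2)⁻¹ by norm_num, inv_pow]
        field_simp
      have h6 : (6 - 4 * (2 / 3 : ℝ) ^ (L + 1)) / V =
          (6 - 4 * (2 / 3) ^ L) / V + 2 * (2 / 3) ^ (L + 1) / V := by
        rw [pow_succ]; ring
      have h7 : 0 ≤ 2 * (2 / 3 : ℝ) ^ (L + 1) / V := by positivity
      simp only [h5, h6]
      nlinarith [mul_le_mul_of_nonneg_left h1 h4, mul_le_mul_of_nonneg_left h2 h7]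
    rintro t ⟨⟨t1, t2⟩, t3⟩ j
    have s1 := t1 j
    have s2 := t2 j
    have s3 := t3 j (π (base + 2 ^ L) j)
    simp only [res_res] at s1 s2 s3
    set P1 : ε → K → Prop := fun e _ => up e ≤ base + 2 ^ L ∧ A e j ∧
      π base j < π base (x e) ∧ π (up e) j = π (up e) (x e) with hP1
    set P2 : ε → K → Prop := fun e _ => base + 2 ^ L < up e ∧ A e j ∧
      π (base + 2 ^ L) j < π (base + 2 ^ L) (x e) ∧ π (up e) j = π (up e) (x e) with hP2
    set P3 : ε → K → Prop := fun e _ => base + 2 ^ L < up e ∧ (A e j ∧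
      π base j < π base (x e)) ∧ π (base + 2 ^ L) (x e) = π (base + 2 ^ L) j with hP3
    set T : ε → K → Prop := fun e _ => A e j ∧ π base j < π base (x e) ∧
      π (up e) j = π (up e) (x e) with hT
    have h23 : ∀ e k k', P2 e k → P3 e k' → False := fun e k k' h h' => h.2.2.1.ne h'.2.2.symm
    have h123 : ∀ e k k', P1 e k → (P2 e k' ∨ P3 e k') → False := by
      rintro e k k' h (h' | h')
      exacts [absurd h.1 (not_le.2 h'.1), absurd h.1 (not_le.2 h'.1)]
    have hTi : ∀ e k, T e k ↔ P1 e k ∨ (P2 e k ∨ P3 e k) := by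
      intro e k
      constructor
      · intro h
        rcases le_or_gt (up e) (base + 2 ^ L) with h1 | h1
        · exact Or.inl ⟨h1, h⟩
        · rcases (hπ.mono (base + 2 ^ L) (hπ.lt_of_lt h.2.1).le).eq_or_lt with h2 | h2
          · exact Or.inr (Or.inr ⟨h1, ⟨h.1, h.2.1⟩, h2.symm⟩)
          · exact Or.inr (Or.inl ⟨h1, h.1, h2, h.2.2⟩)
      · rintro (h | h | h)
        · exact h.2
        · exact ⟨h.2.1, hπ.sep_of_le (Nat.le_add_right _ _) h.2.2.1, h.2.2.2⟩
        · exact ⟨h.2.1.1, h.2.1.2, hπ.coarse_le h.1.le h.2.2.symm⟩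
    have e1 : res κ T = res κ P1 + res κ fun e k => P2 e k ∨ P3 e k :=
      res_eq_add_two (fun e k _ => hTi e k) fun e k => h123 e k k
    have e2 : (res κ fun e k => P2 e k ∨ P3 e k) = res κ P2 + res κ P3 :=
      res_eq_add_two (fun e k _ => Iff.rfl) fun e k => h23 e k k
    have n1 : nrm (res κ T) t = nrm (res κ P1) t + (nrm (res κ P2) t + nrm (res κ P3) t) := by
      rw [e1, nrm_res_add_of_rows κ h123, e2, nrm_res_add_of_rows κ h23]
    have m1 := mass_res_add_le (κ := κ) (P := P1) (R := fun e k => P2 e k ∨ P3 e k) (T := T)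
      (fun e k _ h => (hTi e k).2 (Or.inl h)) (fun e k _ h => (hTi e k).2 (Or.inr h))
      (fun e k _ => h123 e k k)
    have m2 := mass_res_add_le (κ := κ) (P := P2) (R := P3) (T := fun e k => P2 e k ∨ P3 e k)
      (fun e k _ h => Or.inl h) (fun e k _ h => Or.inr h) (fun e k _ => h23 e k k)
    rw [n1]
    rw [pow_succ] at s3
    rw [pow_succ, pow_succ]
    nlinarith

theorem fam {ι K α : Type} [Fintype ι] [Fintype K] {π : ℕ → ℕ → ℕ} (hπ : Nest π)
    (h0 : ∀ a, π 0 a = a) (L : ℕ) (κ : ι → K → ℝ) (x : ι → ℕ)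
    (ky : ι → ℕ → α) (ke : ι → K → α)
    (hky : ∀ i p1 p2 p3, p1 ≤ p2 → p2 ≤ p3 → ky i p1 = ky i p3 → ky i p2 = ky i p1)
    {V : ℝ} (hV : 0 < V) :
    Good (fun k => 6 / V * cm κ k)
      {t | ∀ (j : ℕ) (q : ι → ℕ), (∀ i, j < x i → q i < 2 ^ L ∧ Lev π (q i) j (x i)) →
        nrm (res κ fun i k => j < x i ∧ ke i k = ky i (q i)) t ≤
          8 * mass (res κ fun i k => j < x i ∧ ke i k = ky i (q i)) + 16 * 2 ^ L * V} := by
  classical
  let Mx : ι → ℕ → Prop := fun i u => ∀ u' < 2 ^ L, u < u' → ky i u' ≠ ky i u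
  let It : Fin (2 ^ L) → ι → K → Prop := fun u i k => ke i k = ky i u ∧ Mx i u
  have hIt : ∀ i k (u u' : Fin (2 ^ L)), It u i k → It u' i k → u = u' := by
    intro i k u u' h h'
    by_contra hne
    rcases lt_or_gt_of_ne hne with hl | hl
    · exact h.2 u' u'.2 hl (h'.1.symm.trans h.1)
    · exact h'.2 u u.2 hl (h.1.symm.trans h'.1)
  let κ' : ι × Fin (2 ^ L) → K → ℝ := fun e => res κ (It e.2) e.1
  let A : ι × Fin (2 ^ L) → ℕ → Prop := fun e j =>
    ∃ p, ky e.1 p = ky e.1 e.2 ∧ π p j < π p (x e.1)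
  have G := sb hπ (fun e : ι × Fin (2 ^ L) => x e.1) (fun e => e.2 + 1) A
    (fun e j j' h ⟨p, hp, hp'⟩ => ⟨p, hp, lt_of_le_of_lt (hπ.mono p h) hp'⟩) hV L 0 κ'
    (fun e k _ => ⟨Nat.succ_pos _, by have := e.2.2; omega⟩)
  refine G.mono (fun k => ?_) fun t ht j q hq => ?_
  · have h1 : cm κ' k ≤ cm κ k := by
      have := sum_cm_res_le univ (κ := κ) (P := It) (fun i k u _ u' _ _ => hIt i k u u') k
      refine le_trans (le_of_eq ?_) this
      unfold cm
      rw [Fintype.sum_prod_type_right]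
    have h2 : (6 - 4 * (2 / 3 : ℝ) ^ L) / V ≤ 6 / V :=
      div_le_div_of_nonneg_right (by have : (0 : ℝ) ≤ (2 / 3) ^ L := by positivity
                                     linarith) hV.le
    have h3 := cm_nonneg κ' k
    calc _ ≤ 6 / V * cm κ' k := mul_le_mul_of_nonneg_right h2 h3
      _ ≤ _ := mul_le_mul_of_nonneg_left h1 (by positivity)
  have s := ht j
  set Al : ι × Fin (2 ^ L) → K → Prop := fun e _ => A e j ∧ π 0 j < π 0 (x e.1) ∧
    π (e.2 + 1) j = π (e.2 + 1) (x e.1) with hAl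
  have hm : mass (res κ' Al) ≤ mass (res κ fun i k => j < x i ∧ ke i k = ky i (q i)) := by
    have := sum_mass_res_le univ (κ := κ) (P := fun u i k => It u i k ∧ Al (i, u) k)
      (R := fun i k => j < x i ∧ ke i k = ky i (q i)) (fun i k u _ _ h => by
        obtain ⟨h1, ⟨p, hp, hp'⟩, h2, h3⟩ := h
        have hj : j < x i := hπ.lt_of_lt h2
        obtain ⟨_, hq1, hq2⟩ := hq i hj
        have a1 : p ≤ q i := by
          by_contra hn
          exact hp'.ne (hπ.coarse_le (Nat.succ_le_of_lt (not_le.1 hn)) hq2)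
        have a2 : q i ≤ u := by
          by_contra hn
          exact hq1.ne (hπ.coarse_le (Nat.succ_le_of_lt (not_le.1 hn)) h3)
        exact ⟨hj, h1.1.trans (hp.symm.trans (hky i p (q i) u a1 a2 hp).symm)⟩)
      (fun i k u _ u' _ _ h h' => hIt i k u u' h.1 h'.1)
    refine le_trans (le_of_eq ?_) this
    unfold mass
    rw [Fintype.sum_prod_type_right]
    refine Finset.sum_congr rfl fun u _ => Finset.sum_congr rfl fun i _ =>
      Finset.sum_congr rfl fun k _ => ?_
    by_cases h1 : It u i k <;> by_cases h2 : Al (i, u) k <;> simp [res, κ', h1, h2]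
  have hn : nrm (res κ fun i k => j < x i ∧ ke i k = ky i (q i)) t ≤ nrm (res κ' Al) t := by
    unfold nrm
    rw [Fintype.sum_prod_type]
    refine Finset.sum_le_sum fun i _ => ?_
    by_cases hj : j < x i
    · obtain ⟨hq0, hq1, hq2⟩ := hq i hj
      let u := Nat.findGreatest (fun u => ky i u = ky i (q i)) (2 ^ L - 1)
      have hu1 : q i ≤ u := Nat.le_findGreatest (by omega) rfl
      have hu2 : u < 2 ^ L := by
        have := Nat.findGreatest_le (P := fun u => ky i u = ky i (q i)) (2 ^ L - 1)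
        omega
      have hu3 : ky i u = ky i (q i) :=
        Nat.findGreatest_spec (P := fun u => ky i u = ky i (q i)) (m := q i) (by omega) rfl
      have hu4 : Mx i u := fun u' h1 h2 h3 =>
        Nat.findGreatest_is_greatest h2 (by omega) (h3.trans hu3)
      refine le_trans (le_of_eq ?_) (Finset.single_le_sum
        (f := fun u => (∑ k, res κ' Al (i, u) k * t k) ^ 2) (fun _ _ => sq_nonneg _)
        (mem_univ ⟨u, hu2⟩))
      congr 1
      refine Finset.sum_congr rfl fun k _ => ?_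
      have hal : Al (i, ⟨u, hu2⟩) k := ⟨⟨q i, hu3.symm, hq1⟩, by rw [h0, h0]; exact hj,
        hπ.coarse_le (Nat.succ_le_succ hu1) hq2⟩
      rw [res_pos hal]
      simp only [κ', res, It, hj, true_and, hu3, hu4, and_true]
    · refine le_trans (le_of_eq ?_) (Finset.sum_nonneg fun u _ => sq_nonneg _)
      simp [res, hj]
  have : (0 : ℝ) ≤ (3 / 2) ^ L * V := by positivity
  nlinarith

end Vale.Agent.P262
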