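import Vale.Agent.P262.Basic

/-! Shrinking chains of rows (PROOF.md section ST). -/

namespace Vale.Agent.P262

open Finset

variable {ι K : Type} [Fintype ι] [Fintype K]

lemma st_aux (κ : ι → K → ℝ) (S : ℕ → ι → Prop) (hS : ∀ j j' i, j ≤ j' → S j' i → S j i)
    {W : ℝ} (hW : 0 < W) (n : ℕ) : ∀ {l : ℝ}, 0 < l →
    (∀ i k, κ i k ≠ 0 → l ^ 2 * (1 / 4 : ℝ) ^ n < κ i k ^ 2) →
    Good (fun k => 2 * hc W l * cm κ k)
      {t | ∀ j, mass (res κ fun i _ => S j i) ≤ l ^ 2 →
        nrm (res κ fun i _ => S j i) t ≤ 4 * gg W (mass (res κ fun i _ => S j i))} := by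
  induction n with
  | zero =>
    intro l hl hκ
    refine good_of_forall (fun k => ?_) (fun t j hj => ?_)
    · have := hc_nonneg hW hl.le
      have := cm_nonneg κ k
      positivity
    · have hz : ∀ i k, res κ (fun i _ => S j i) i k = 0 := fun i k => by
        by_contra h
        obtain ⟨h1, h2⟩ := res_ne_zero h
        have h3 := hκ i k h2
        have h4 := sq_le_mass (res κ fun i _ => S j i) i k
        rw [res_pos (P := fun i _ => S j i) h1] at h4
        simp only [pow_zero, mul_one] at h3
        linarith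
      rw [nrm_eq_zero hz]
      have := gg_nonneg hW.le (mass_nonneg (res κ fun i _ => S j i))
      linarith
  | succ n ih =>
    intro l hl hκ
    classical
    have hl2 : 0 < l / 2 := by linarith
    have IH := ih hl2 (fun i k h => by
      have := hκ i k h
      calc (l / 2) ^ 2 * (1 / 4 : ℝ) ^ n = l ^ 2 * (1 / 4 : ℝ) ^ (n + 1) := by ring
        _ < _ := this)
    by_cases hex : ∃ j, mass (res κ fun i _ => S j i) ≤ l ^ 2
    · have hj0 := Nat.find_spec hex
      have hρ : 0 < l * (l + W) := by positivity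
      have hm : mass (res κ fun i _ => S (Nat.find hex) i) ≤ l * (l + W) := by
        nlinarith [mul_pos hl hW]
      have hB := good_basic (res κ fun i _ => S (Nat.find hex) i) hρ hm
      refine (hB.inter IH).mono (fun k => ?_) (fun t ht j hj => ?_)
      · have h1 := hc_step (q := 1 / 2) hW hl (by norm_num) (by norm_num)
          (mass_nonneg (res κ fun i _ => S (Nat.find hex) i)) hj0
        have h2 := cm_res_le κ (fun i _ => S (Nat.find hex) i) k
        have h3 := cm_nonneg κ k
        have h4 : 0 ≤ mass (res κ fun i _ => S (Nat.find hex) i) ^ 2 / (l * (l + W)) ^ 3 := by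
          positivity
        have h5 : (1 / 2 : ℝ) * l = l / 2 := by ring
        rw [h5] at h1
        have h6 := mul_le_mul_of_nonneg_left h2 h4
        have h7 := mul_le_mul_of_nonneg_right h1 h3
        nlinarith
      · by_cases hs : mass (res κ fun i _ => S j i) ≤ (l / 2) ^ 2
        · exact ht.2 j hs
        · have hle : Nat.find hex ≤ j := Nat.find_min' hex hj
          have he : res κ (fun i _ => S j i) =
              res (res κ fun i _ => S (Nat.find hex) i) (fun i _ => S j i) := by
            rw [res_res]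
            exact res_congr fun i k _ => ⟨fun h => ⟨hS _ _ _ hle h, h⟩, fun h => h.2⟩
          have h1 : nrm (res κ fun i _ => S j i) t ≤ l * (l + W) := by
            rw [he]
            exact (nrm_res_row_le _ _ t).trans ht.1
          have h2 := gg_mono hW.le (not_le.1 hs).le
          rw [gg_sq W hl2.le] at h2
          nlinarith [mul_pos hl hW]
    · refine good_of_forall (fun k => ?_) (fun t j hj => absurd ⟨j, hj⟩ hex)
      have := hc_nonneg hW hl.le
      have := cm_nonneg κ k
      positivity

theorem st (κ : ι → K → ℝ) (S : ℕ → ι → Prop) (hS : ∀ j j' i, j ≤ j' → S j' i → S j i)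
    {W l : ℝ} (hW : 0 < W) (hl : 0 < l) :
    Good (fun k => 2 * hc W l * cm κ k)
      {t | ∀ j, mass (res κ fun i _ => S j i) ≤ l ^ 2 →
        nrm (res κ fun i _ => S j i) t ≤ 4 * gg W (mass (res κ fun i _ => S j i))} := by
  obtain ⟨n, hn⟩ := exists_pow_lt κ (l ^ 2) (q := 1 / 4) (by norm_num) (by norm_num)
  exact st_aux κ S hS hW n hl hn

theorem lg (κ : ι → K → ℝ) (β : ι → ℕ) (S : ℕ → ι → Prop)
    (hS : ∀ j j' i, j ≤ j' → S j' i → S j i) {W l : ℝ} (hW : 0 < W) (hl : 0 < l) :
    Good (fun k => 2 * hc W l * cm κ k)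
      {t | ∀ j m, mass (res κ fun i _ => S j i ∧ β i = m) ≤ l ^ 2 →
        nrm (res κ fun i _ => S j i ∧ β i = m) t ≤
          4 * gg W (mass (res κ fun i _ => S j i ∧ β i = m))} := by
  classical
  have h := good_biInter (Finset.univ.image β)
    (fun m _ => st (res κ fun i _ => β i = m) S hS hW hl)
  refine h.mono (fun k => ?_) (fun t ht j m hm => ?_)
  · rw [← Finset.mul_sum]
    have h0 : 0 ≤ 2 * hc W l := by
      have := hc_nonneg hW hl.le
      positivity
    exact mul_le_mul_of_nonneg_left (sum_cm_res_le (Finset.univ.image β) (κ := κ)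
      (P := fun m i _ => β i = m) (fun i k a _ a' _ _ h1 h2 => h1.symm.trans h2) k) h0
  · by_cases hmem : m ∈ Finset.univ.image β
    · have he : res (res κ fun i _ => β i = m) (fun i _ => S j i) =
          res κ fun i _ => S j i ∧ β i = m := by
        rw [res_res]
        exact res_congr fun i k _ => and_comm
      have := ht m hmem j
      rw [he] at this
      exact this hm
    · have hz : ∀ i k, res κ (fun i _ => S j i ∧ β i = m) i k = 0 := fun i k =>
        res_neg fun h => hmem (Finset.mem_image.2 ⟨i, Finset.mem_univ i, h.2⟩)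
      rw [nrm_eq_zero hz]
      have := gg_nonneg hW.le (mass_nonneg (res κ fun i _ => S j i ∧ β i = m))
      linarith

theorem lg0 (κ : ι → K → ℝ) (β : ι → ℕ) (S : ℕ → ι → Prop)
    (hS : ∀ j j' i, j ≤ j' → S j' i → S j i) {V : ℝ} (hV : 0 < V) :
    Good (fun k => 2 / V * cm κ k)
      {t | ∀ j m, nrm (res κ fun i _ => S j i ∧ β i = m) t ≤
          8 * mass (res κ fun i _ => S j i ∧ β i = m) + 4 * V} := by
  have hW : 0 < √V := Real.sqrt_pos.2 hV
  have hWV : √V ^ 2 = V := Real.sq_sqrt hV.le
  have hs0 : 0 ≤ √(mass κ) := Real.sqrt_nonneg _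
  have hl : 0 < √(mass κ) + 1 := by linarith
  have hms : √(mass κ) ^ 2 = mass κ := Real.sq_sqrt (mass_nonneg κ)
  refine (lg κ β S hS hW hl).mono (fun k => ?_) (fun t ht j m => ?_)
  · have h1 := hc_le_inv hW hl.le
    rw [hWV] at h1
    have h2 := cm_nonneg κ k
    have h3 : 2 * hc √V (√(mass κ) + 1) ≤ 2 / V := by
      have : 2 / V = 2 * (1 / V) := by ring
      linarith
    exact mul_le_mul_of_nonneg_right h3 h2
  · have h1 : mass (res κ fun i _ => S j i ∧ β i = m) ≤ (√(mass κ) + 1) ^ 2 := by
      have := mass_res_le κ fun i _ => S j i ∧ β i = m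
      nlinarith
    have h2 := ht j m h1
    have h3 := gg_le √V (mass_nonneg (res κ fun i _ => S j i ∧ β i = m))
    rw [hWV] at h3
    linarith

end Vale.Agent.P262
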