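import Vale.Agent.P262.BR
import Vale.Agent.P262.P3

/-! All rectangles at once (PROOF.md section TOP). -/

namespace Vale.Agent.P262

open Finset

lemma nrm_le_sum_of_rows {ι K α : Type} [Fintype ι] [Fintype K] (s : Finset α) (X : ι → K → ℝ)
    (Y : α → ι → K → ℝ) (h : ∀ i, (∀ k, X i k = 0) ∨ ∃ a ∈ s, X i = Y a i) (t : K → ℝ) :
    nrm X t ≤ ∑ a ∈ s, nrm (Y a) t := by
  unfold nrm
  rw [Finset.sum_comm]
  refine Finset.sum_le_sum fun i _ => ?_
  rcases h i with h | ⟨a, ha, h⟩
  · simp only [h, zero_mul, Finset.sum_const_zero]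
    simpa using Finset.sum_nonneg fun a (_ : a ∈ s) => sq_nonneg (∑ k, Y a i k * t k)
  · rw [h]
    exact Finset.single_le_sum (f := fun a => (∑ k, Y a i k * t k) ^ 2)
      (fun _ _ => sq_nonneg _) ha

open Classical in
lemma sum_sum_ite_le {ι α : Type} [Fintype ι] (s : Finset α) (a : ι → ℝ) (ha : ∀ i, 0 ≤ a i)
    (P : α → ι → Prop) (h : ∀ i p p', P p i → P p' i → p = p') :
    ∑ p ∈ s, ∑ i, (if P p i then a i else 0) ≤ ∑ i, a i := by
  rw [Finset.sum_comm]
  refine Finset.sum_le_sum fun i _ => ?_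
  by_cases hex : ∃ p ∈ s, P p i
  · obtain ⟨p, hp, hP⟩ := hex
    rw [Finset.sum_eq_single_of_mem p hp, if_pos hP]
    intro p' _ hne
    rw [if_neg fun h' => hne (h i p' p h' hP)]
  · rw [Finset.sum_eq_zero fun p hp => if_neg fun h' => hex ⟨p, hp, h'⟩]
    exact ha i

lemma res_eq_add_three {ι K : Type} {κ : ι → K → ℝ} {T P R S : ι → K → Prop}
    (h : ∀ i k, T i k ↔ P i k ∨ R i k ∨ S i k) (h1 : ∀ i k, P i k → R i k → False)
    (h2 : ∀ i k, P i k → S i k → False) (h3 : ∀ i k, R i k → S i k → False) :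
    res κ T = res κ P + (res κ R + res κ S) := by
  funext i k
  have := h i k
  have := h1 i k
  have := h2 i k
  have := h3 i k
  by_cases hP : P i k <;> by_cases hR : R i k <;> by_cases hS : S i k <;> simp_all [res]

theorem top {ι K : Type} [Fintype ι] [Fintype K] (κ : ι → K → ℝ) (b : K → ℕ) (x : ι → ℕ) (L : ℕ)
    (hload : ∀ j, mass (res κ fun i k => b k < j ∧ j < x i) ≤ 2 ^ L) :
    Good (fun k => 200 * cm κ k)
      {t | ∀ j a bb, Dom κ (fun i k => b k < j ∧ j < x i) a bb →
        nrm (res κ fun i k => b k < j ∧ j < x i) t ≤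
          1000000 * (2 ^ L + ∑ i, a i + ∑ k, bb k)} := by
  classical
  obtain ⟨π, hπ, h0, hD, hT⟩ := levels κ b x (D := 2 ^ L) (by positivity)
    (fun j => by simpa using hload j)
  have hlev : ∀ a c : ℕ, ∃ p, (a < c → p < 2 ^ L ∧ Lev π p a c) ∧ (¬ a < c → p = 0) := by
    intro a c
    by_cases hac : a < c
    · obtain ⟨p, hp, hl⟩ := hπ.exists_lev h0 hD hac
      exact ⟨p, fun _ => ⟨hp, hl⟩, fun h => absurd hac h⟩
    · exact ⟨0, fun h => absurd h hac, fun _ => rfl⟩
  choose lev hlev1 hlev2 using hlev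
  let kp : ℕ → ι → K → ℝ := fun p => res κ fun i k => Lev π p (b k) (x i)
  have hkp : ∀ k, ∑ p ∈ range (2 ^ L), cm (kp p) k ≤ cm κ k :=
    sum_cm_res_le _ fun i k p _ p' _ _ h h' => hπ.lev_unique h h'
  have G1 := good_biInter (range (2 ^ L)) fun p _ =>
    fg0 (kp p) (fun k => π p (b k)) (fun j k => b k < j) (fun j j' k h h' => lt_of_lt_of_le h' h)
  have G2 := good_biInter (range (2 ^ L)) fun p _ =>
    br (kp p) (fun k => π p (b k)) (fun i => π p (x i)) (W := 1) (l := 1) one_pos le_rfl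
      (fun m => by
        rw [res_res, one_pow]
        exact (mass_res_mono fun i k _ h => ⟨h.1.2, h.2⟩).trans (hT p m))
  have G3 := p3 hπ h0 L κ x (fun i k => lev (b k) (x i))
  refine ((G1.inter G2).inter G3).mono (fun k => ?_) ?_
  · have := hkp k
    have := cm_nonneg κ k
    simp only [← Finset.mul_sum]
    norm_num
    linarith
  rintro t ⟨⟨t1, t2⟩, t3⟩ j a bb hab
  simp only [Set.mem_ofPred_eq] at t1 t2 t3
  let q : ι → ℕ := fun i => lev j (x i)
  have hq : ∀ i, j < x i → q i < 2 ^ L ∧ Lev π (q i) j (x i) := fun i => hlev1 j (x i)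
  let X := res κ fun i k => j < x i ∧ Lev π (q i) (b k) (x i) ∧ b k < j ∧
    π (q i) (b k) = π (q i) j
  let Y := res κ fun i k => j < x i ∧ Lev π (q i) (b k) (x i) ∧ π (q i) (b k) < π (q i) j
  let Z := res κ fun i k => j < x i ∧ q i < lev (b k) (x i)
  have hZsub : ∀ i k, j < x i → q i < lev (b k) (x i) → b k < j ∧ ¬ Lev π (q i) (b k) (x i) := by
    intro i k hj hlt
    have hbx : b k < x i := by
      by_contra h
      rw [hlev2 _ _ h] at hlt
      omega
    have h1 := (hlev1 _ _ hbx).2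
    refine ⟨?_, fun h => hlt.ne (hπ.lev_unique h h1)⟩
    have h2 := hπ.sep_of_le (Nat.succ_le_of_lt hlt) h1.1
    rw [← (hq i hj).2.2] at h2
    exact hπ.lt_of_lt h2
  have hdec : (res κ fun i k => b k < j ∧ j < x i) = X + (Y + Z) := by
    refine res_eq_add_three (fun i k => ⟨fun hR => ?_, ?_⟩) (fun i k h h' => h'.2.2.ne h.2.2.2)
      (fun i k h h' => (hZsub i k h'.1 h'.2).2 h.2.1)
      (fun i k h h' => (hZsub i k h'.1 h'.2).2 h.2.1)
    · by_cases hl : Lev π (q i) (b k) (x i)
      · rcases (hπ.mono (q i) hR.1.le).eq_or_lt with he | hlt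
        · exact Or.inl ⟨hR.2, hl, hR.1, he⟩
        · exact Or.inr (Or.inl ⟨hR.2, hl, hlt⟩)
      · refine Or.inr (Or.inr ⟨hR.2, ?_⟩)
        have h1 := (hlev1 _ _ (hR.1.trans hR.2)).2
        have h2 := (hq i hR.2).2
        by_contra hn
        rcases (not_lt.1 hn).eq_or_lt with he | hlt
        · exact hl (he ▸ h1)
        · have h3 := hπ.coarse_le (Nat.succ_le_of_lt hlt) h1.2
          have h4 := hπ.mono (q i) hR.1.le
          have h5 := h2.1
          omega
    · rintro (h | h | h)
      exacts [⟨h.2.2.1, h.1⟩, ⟨hπ.lt_of_lt h.2.2, h.1⟩, ⟨(hZsub i k h.1 h.2).1, h.1⟩]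
  have hX : nrm X t ≤ 300 * 2 ^ L := by
    have h1 := nrm_le_sum_of_rows (range (2 ^ L)) X
      (fun p => res (kp p) fun _ k => b k < j ∧ π p (b k) = π p j) (fun i => by
        by_cases hj : j < x i
        · refine Or.inr ⟨q i, mem_range.2 (hq i hj).1, ?_⟩
          funext k
          simp only [X, kp, res_res, res, hj, true_and]
          by_cases h1 : Lev π (q i) (b k) (x i) <;> simp [h1]
        · exact Or.inl fun k => res_neg fun h => hj h.1) t
    have h2 := Finset.sum_le_sum fun p hp => t1 p hp j (π p j)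
    have h3 : ∑ p ∈ range (2 ^ L), mass (res (kp p) fun _ k => b k < j ∧ π p (b k) = π p j) ≤
        2 ^ L := by
      simp only [kp, res_res]
      refine (sum_mass_res_le _ (fun i k p _ _ h => ?_)
        (fun i k p _ p' _ _ h h' => hπ.lev_unique h.1 h'.1)).trans (hload j)
      refine ⟨h.2.1, hπ.lt_of_lt (p := p) ?_⟩
      rw [← h.2.2]; exact h.1.1
    rw [Finset.sum_add_distrib, ← Finset.mul_sum] at h2
    simp only [Finset.sum_const, Finset.card_range, nsmul_eq_mul] at h2
    push_cast at h2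
    linarith
  have hY : nrm Y t ≤ 200000 * (∑ i, a i + ∑ k, bb k) := by
    have h1 := nrm_le_sum_of_rows (range (2 ^ L)) Y
      (fun p => res (kp p) fun i k => π p (b k) < π p j ∧ π p j < π p (x i)) (fun i => by
        by_cases hj : j < x i
        · refine Or.inr ⟨q i, mem_range.2 (hq i hj).1, ?_⟩
          funext k
          have := (hq i hj).2.1
          simp only [Y, kp, res_res, res, hj, true_and, this, and_true]
          by_cases h1 : Lev π (q i) (b k) (x i) <;> simp [h1]
        · exact Or.inl fun k => res_neg fun h => hj h.1) t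
    have h2 := Finset.sum_le_sum fun p hp => t2 p hp (π p j)
      (fun i => if Lev π p j (x i) then a i else 0) (fun k => if Lev π p (b k) j then bb k else 0)
      ⟨fun i => by split_ifs; exacts [hab.ha i, le_rfl],
       fun k => by split_ifs; exacts [hab.hb k, le_rfl], fun i k h => by
        by_cases hl : Lev π p (b k) (x i)
        · have e1 := hπ.mono (p + 1) (hπ.lt_of_lt h.1).le
          have e2 := hπ.mono (p + 1) (hπ.lt_of_lt h.2).le
          have e3 := hl.2
          rw [if_pos ⟨h.2, by omega⟩, if_pos ⟨h.1, by omega⟩]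
          exact (res_sq_le κ _ i k).trans (hab.le i k ⟨hπ.lt_of_lt h.1, hπ.lt_of_lt h.2⟩)
        · have : kp p i k = 0 := res_neg hl
          rw [this]
          have := hab.ha i
          have := hab.hb k
          split_ifs <;> simp
          positivity⟩
    have h3 := sum_sum_ite_le (range (2 ^ L)) a hab.ha (fun p i => Lev π p j (x i))
      fun i p p' h h' => hπ.lev_unique h h'
    have h4 := sum_sum_ite_le (range (2 ^ L)) bb hab.hb (fun p k => Lev π p (b k) j)
      fun i p p' h h' => hπ.lev_unique h h'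
    rw [← Finset.mul_sum, Finset.sum_add_distrib] at h2
    linarith
  have hZ : nrm Z t ≤ 40000 * 2 ^ L := by
    have h1 := t3 j q hq
    have h2 : mass Z ≤ 2 ^ L :=
      (mass_res_mono fun i k _ h => ⟨(hZsub i k h.1 h.2).1, h.1⟩).trans (hload j)
    linarith
  have h1 := nrm_add_le X (Y + Z) t one_pos
  have h2 := nrm_add_le Y Z t one_pos
  have ha : 0 ≤ ∑ i, a i := Finset.sum_nonneg fun i _ => hab.ha i
  have hb : 0 ≤ ∑ k, bb k := Finset.sum_nonneg fun k _ => hab.hb k
  have hp : (0 : ℝ) < 2 ^ L := by positivity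
  rw [hdec]
  norm_num at h1 h2
  linarith

end Vale.Agent.P262
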